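import Vale.Agent.P199.Grad

/-!
An odd multidegree forces the quaternion tensor algebra to have no zero divisors.
-/

set_option linter.unusedSectionVars false

noncomputable section

namespace Vale.Agent.P199

open MvPolynomial
open scoped PowerSeries

variable {m n : ℕ}

/-- The list of all variables, parameters last. -/
def varList (m n : ℕ) : List (Var m n) :=
  ((Finset.univ : Finset ((Bool ⊕ Fin n) × NZ m)).toList.map Sum.inr) ++
    ((Finset.univ : Finset (Fin m × Bool)).toList.map Sum.inl)

theorem varList_nodup : (varList m n).Nodup := by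
  refine List.Nodup.append ((Finset.nodup_toList _).map Sum.inr_injective)
    ((Finset.nodup_toList _).map Sum.inl_injective) ?_
  intro x hx hy
  obtain ⟨a, -, rfl⟩ := List.mem_map.1 hx
  obtain ⟨b, -, hb⟩ := List.mem_map.1 hy
  exact Sum.inl_ne_inr hb

theorem varList_mem (v : Var m n) : v ∈ varList m n := by
  rcases v with v | v <;> simp [varList]

/-- Reduction of multidegrees mod 2. -/
def red2 (r : ℕ) : Wt r →+* MvPolynomial (Fin r) (ZMod 2) :=
  MvPolynomial.map (Int.castRingHom (ZMod 2))

/-- The index of a generator. -/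
def genIx (p : Fin m × Bool) : Ix m := Pi.single p.1 (if p.2 then ((0, 1) : Lv) else (1, 0))

/-- Degree `g` for a coordinate vector. -/
def HomQ (g : Gr (m + m)) (a : EE m n) : Prop :=
  ∀ I, IsWeightedHomogeneous (wt m n) (a.coe I) (g - degI I)

theorem homQ_pr (g : Gr (m + m)) (a : EE m n) : HomQ g (⟨(grdE m n).pr g a.coe⟩ : EE m n) :=
  fun I => weightedHomogeneousComponent_isWeightedHomogeneous (g - degI I) (a.coe I)

theorem pr_of_homQ {g : Gr (m + m)} {a : EE m n} (h : HomQ g a) :
    (grdE m n).pr g a.coe = a.coe :=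
  funext fun I => pr_of_isWH (h I)

theorem HomQ.mul {g h : Gr (m + m)} {a b : EE m n} (ha : HomQ g a) (hb : HomQ h b) :
    HomQ (g + h) (a * b) := fun K => by
  rw [Quat.mul_coe]
  refine IsWeightedHomogeneous.sum _ _ _ fun I _ => ?_
  have h := ((isWH_kap (n := n) I (K + I)).mul (ha I)).mul (hb (K + I))
  rw [show I + (K + I) = K by rw [add_left_comm, ix_add_self, add_zero]] at h
  convert! h using 1
  abel

/-- Coordinate vectors with all coordinates in `q`. -/
def vecIdeal (q : Ideal (RR m n)) : Submodule (RR m n) (Ix m → RR m n) where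
  carrier := {v | ∀ K, v K ∈ q}
  add_mem' ha hb K := q.add_mem (ha K) (hb K)
  zero_mem' _ := q.zero_mem
  smul_mem' c _ hv K := q.mul_mem_left c (hv K)

theorem vecIdeal_homog {q : Ideal (RR m n)} (hq : (grd0 (wt m n)).Homog q) :
    (grdE m n).Homog (vecIdeal q) := fun v hv _ K => hq (v K) (hv K) _

theorem mul_mem_vecIdeal_left {q : Ideal (RR m n)} {a : EE m n} (b : EE m n)
    (ha : a.coe ∈ vecIdeal q) : (a * b).coe ∈ vecIdeal q := fun K => by
  rw [Quat.mul_coe]
  exact q.sum_mem fun I _ => q.mul_mem_right _ (q.mul_mem_left _ (ha I))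

theorem mul_mem_vecIdeal_right {q : Ideal (RR m n)} (a : EE m n) {b : EE m n}
    (hb : b.coe ∈ vecIdeal q) : (a * b).coe ∈ vecIdeal q := fun K => by
  rw [Quat.mul_coe]
  exact q.sum_mem fun I _ => q.mul_mem_left _ (hb _)

theorem exists_top_component {q : Ideal (RR m n)} {v : Ix m → RR m n} (hv : v ∉ vecIdeal q) :
    ∃ a, (grdE m n).pr a v ∉ vecIdeal q ∧ ∀ g, a < g → (grdE m n).pr g v ∈ vecIdeal q := by
  classical
  set s := ((grdE m n).supp v).filter fun g => (grdE m n).pr g v ∉ vecIdeal q with hs
  have hne : s.Nonempty := by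
    rw [Finset.nonempty_iff_ne_empty]
    intro he
    apply hv
    refine (grdE m n).mem_of_pr _ fun g => ?_
    by_cases hg : g ∈ (grdE m n).supp v
    · by_contra h
      have : g ∈ s := Finset.mem_filter.2 ⟨hg, h⟩
      rw [he] at this
      exact Finset.notMem_empty _ this
    · rw [(grdE m n).pr_eq_zero v g hg]; exact Submodule.zero_mem _
  refine ⟨s.max' hne, (Finset.mem_filter.1 (s.max'_mem hne)).2, fun g hg => ?_⟩
  by_contra h
  by_cases hgs : g ∈ (grdE m n).supp v
  · exact absurd (s.le_max' g (Finset.mem_filter.2 ⟨hgs, h⟩)) (not_le.2 hg)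
  · exact h (by rw [(grdE m n).pr_eq_zero v g hgs]; exact Submodule.zero_mem _)

/-- Reduction to homogeneous zero divisors. -/
theorem top_mul_mem {q : Ideal (RR m n)} (hq : (grd0 (wt m n)).Homog q) {z w : EE m n}
    (hzw : (z * w).coe ∈ vecIdeal q) {a b : Gr (m + m)}
    (ha : ∀ g, a < g → (grdE m n).pr g z.coe ∈ vecIdeal q)
    (hb : ∀ g, b < g → (grdE m n).pr g w.coe ∈ vecIdeal q) :
    ((⟨(grdE m n).pr a z.coe⟩ : EE m n) * ⟨(grdE m n).pr b w.coe⟩).coe ∈ vecIdeal q := by
  classical
  set zc : Gr (m + m) → EE m n := fun g => ⟨(grdE m n).pr g z.coe⟩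
  set wc : Gr (m + m) → EE m n := fun g => ⟨(grdE m n).pr g w.coe⟩
  show (zc a * wc b).coe ∈ _
  have sumz : ∀ (x : EE m n) (c : Gr (m + m) → EE m n), (∀ g, (c g).coe = (grdE m n).pr g x.coe) →
      ∑ g ∈ (grdE m n).supp x.coe, c g = x := fun x c hc => by
    apply Quat.coe_injective
    rw [show (∑ g ∈ (grdE m n).supp x.coe, c g).coe = ∑ g ∈ (grdE m n).supp x.coe, (c g).coe from
      map_sum Quat.coeHom _ _]
    simp only [hc]
    exact (grdE m n).sum_pr x.coe
  have h1 : (grdE m n).pr (a + b) (z * w).coe ∈ vecIdeal q := vecIdeal_homog hq _ hzw _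
  rw [← sumz z zc (fun _ => rfl), ← sumz w wc (fun _ => rfl), Finset.sum_mul] at h1
  simp only [Finset.mul_sum] at h1
  rw [show ∀ (s : Finset (Gr (m + m))) (f : Gr (m + m) → EE m n),
      (∑ g ∈ s, f g).coe = ∑ g ∈ s, (f g).coe from fun s f => map_sum Quat.coeHom f s] at h1
  simp only [map_sum] at h1
  have key : ∀ g h, (g, h) ≠ (a, b) →
      (grdE m n).pr (a + b) (zc g * wc h).coe ∈ vecIdeal q := by
    intro g h hne
    by_cases he : g + h = a + b
    · rw [← he, pr_of_homQ ((homQ_pr g z).mul (homQ_pr h w))]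
      rcases lt_trichotomy a g with hlt | heq | hgt
      · exact mul_mem_vecIdeal_left _ (ha g hlt)
      · subst heq
        exact absurd (by rw [add_left_cancel he]) hne
      · refine mul_mem_vecIdeal_right _ (hb h ?_)
        by_contra hle
        exact absurd he (ne_of_lt (add_lt_add_of_lt_of_le hgt (not_lt.1 hle)))
    · rw [← pr_of_homQ ((homQ_pr g z).mul (homQ_pr h w)), (grdE m n).pr_ne _ _ _ (Ne.symm he)]
      exact Submodule.zero_mem _
  have hmain : (grdE m n).pr (a + b) (zc a * wc b).coe ∈ vecIdeal q := by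
    by_cases hab : a ∈ (grdE m n).supp z.coe ∧ b ∈ (grdE m n).supp w.coe
    · have h2 : ∀ g ∈ (grdE m n).supp z.coe,
          (grdE m n).pr (a + b) (∑ h ∈ (grdE m n).supp w.coe, zc g * wc h).coe ∈ vecIdeal q ↔
            (g = a → (grdE m n).pr (a + b) (zc a * wc b).coe ∈ vecIdeal q) := by
        intro g _
        rw [show (∑ h ∈ (grdE m n).supp w.coe, zc g * wc h).coe =
          ∑ h ∈ (grdE m n).supp w.coe, (zc g * wc h).coe from map_sum Quat.coeHom _ _, map_sum]
        by_cases hg : g = a
        · subst hg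
          rw [Finset.sum_eq_add_sum_sdiff_singleton_of_mem hab.2]
          rw [Submodule.add_mem_iff_left]
          · simp
          · exact Submodule.sum_mem _ fun h hh => key g h fun e => by
              rw [Prod.mk.injEq] at e
              exact (Finset.notMem_singleton.1 (Finset.mem_sdiff.1 hh).2) e.2
        · simp only [hg, IsEmpty.forall_iff, iff_true]
          exact Submodule.sum_mem _ fun h _ => key g h fun e => by
            rw [Prod.mk.injEq] at e; exact hg e.1
      rw [Finset.sum_eq_add_sum_sdiff_singleton_of_mem hab.1, Submodule.add_mem_iff_left] at h1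
      · exact (h2 a hab.1).1 h1 rfl
      · exact Submodule.sum_mem _ fun g hg => (h2 g (Finset.mem_sdiff.1 hg).1).2 fun e =>
          absurd e (Finset.notMem_singleton.1 (Finset.mem_sdiff.1 hg).2)
    · rcases not_and_or.1 hab with h | h
      · rw [show zc a = 0 from Quat.ext ((grdE m n).pr_eq_zero _ _ h), zero_mul, Quat.zero_coe,
          map_zero]
        exact Submodule.zero_mem _
      · rw [show wc b = 0 from Quat.ext ((grdE m n).pr_eq_zero _ _ h), mul_zero, Quat.zero_coe,
          map_zero]
        exact Submodule.zero_mem _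
  rwa [pr_of_homQ ((homQ_pr a z).mul (homQ_pr b w))] at hmain

theorem eps_ne_zero (I J : Ix m) : eps I J ≠ 0 := by
  refine Finset.prod_ne_zero_iff.2 fun l _ => ?_
  unfold eps1
  split_ifs <;> norm_num

theorem ord_of_mul {c : ℕ} {x y : (Wt (m + m))⟦X⟧} (hy : PowerSeries.constantCoeff y ≠ 0)
    (h : y * x ∈ ordIdeal c) : x ∈ ordIdeal c := by
  intro j hj
  induction j using Nat.strong_induction_on with
  | _ j ih =>
      have hx : x ∈ ordIdeal j := fun i hi => ih i hi (by omega)
      have h1 := h j hj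
      rw [coeff_mul_of_ord hx] at h1
      exact (mul_eq_zero.1 h1).resolve_left hy

theorem uI_inj {l l' : Fin m} {s s' : Bool} (h : uI l s = uI l' s') : l = l' ∧ s = s' := by
  have h1 := l.isLt
  have h2 := l'.isLt
  have := congrArg Fin.val h
  cases s <;> cases s' <;> simp [uI, Fin.val_inj] at this <;> first | exact ⟨Fin.ext (by omega), rfl⟩ | omega

/-- The map to the fraction field of the quotient by a prime. -/
def toFrac (q : Ideal (RR m n)) [q.IsPrime] : RR m n →+* FractionRing (RR m n ⧸ q) :=
  (algebraMap (RR m n ⧸ q) (FractionRing (RR m n ⧸ q))).comp (Ideal.Quotient.mk q)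

theorem toFrac_eq_zero (q : Ideal (RR m n)) [q.IsPrime] (x : RR m n) :
    toFrac q x = 0 ↔ x ∈ q := by
  show algebraMap _ (FractionRing (RR m n ⧸ q)) (Ideal.Quotient.mk q x) = 0 ↔ _
  rw [map_eq_zero_iff _ (IsFractionRing.injective _ _), Ideal.Quotient.eq_zero_iff_mem]

/-- A vector over the fraction field. -/
def fracVec (q : Ideal (RR m n)) [q.IsPrime] (v : Ix m → RR m n) :
    Ix m → FractionRing (RR m n ⧸ q) :=
  fun K => toFrac q (v K)

theorem fracVec_mem_span {q : Ideal (RR m n)} [q.IsPrime] {v : Ix m → Ix m → RR m n}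
    {t : Set (Ix m)} {y : Ix m → RR m n} (hy : y ∈ Submodule.span (RR m n) (v '' t)) :
    fracVec q y ∈ Submodule.span (FractionRing (RR m n ⧸ q)) ((fun J => fracVec q (v J)) '' t) := by
  induction hy using Submodule.span_induction with
  | mem y hy =>
      obtain ⟨J, hJ, rfl⟩ := hy
      exact Submodule.subset_span ⟨J, hJ, rfl⟩
  | zero =>
      rw [show fracVec q 0 = 0 from funext fun K => map_zero _]
      exact Submodule.zero_mem _
  | add y y' _ _ hy hy' =>
      rw [show fracVec q (y + y') = fracVec q y + fracVec q y' from funext fun K => map_add _ _ _]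
      exact Submodule.add_mem _ hy hy'
  | smul c y _ hy =>
      rw [show fracVec q (c • y) = toFrac q c • fracVec q y from funext fun K => map_mul _ _ _]
      exact Submodule.smul_mem _ _ hy

theorem colon_eq {q : Ideal (RR m n)} [q.IsPrime] {v : Ix m → Ix m → RR m n}
    {t : Finset (Ix m)} {J : Ix m} (hJ : J ∉ t)
    (hind : LinearIndepOn (FractionRing (RR m n ⧸ q)) (fun J => fracVec q (v J))
      (insert J (t : Set (Ix m)))) (x : RR m n) :
    x • v J ∈ vecIdeal q ⊔ Submodule.span (RR m n) (v '' (t : Set (Ix m))) ↔ x ∈ q := by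
  constructor
  · intro hx
    rw [← toFrac_eq_zero q]
    by_contra hne
    obtain ⟨y, hy, y', hy', e⟩ := Submodule.mem_sup.1 hx
    have h1 : fracVec q y' = toFrac q x • fracVec q (v J) := funext fun K => by
      have h1 := congrArg (toFrac q) (congrFun e K)
      simp only [Pi.add_apply, map_add, (toFrac_eq_zero q _).2 (hy K), zero_add, Pi.smul_apply,
        smul_eq_mul, map_mul] at h1
      simpa [fracVec] using h1
    have h2 := fracVec_mem_span (q := q) hy'
    rw [h1, Submodule.smul_mem_iff _ hne] at h2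
    exact ((linearIndepOn_insert (fun h => hJ (Finset.mem_coe.1 h))).1 hind).2 h2
  · exact fun hx => Submodule.mem_sup_left fun K => q.mul_mem_right _ hx

theorem homog_span_image {v : Ix m → Ix m → RR m n} {dv : Ix m → Gr (m + m)}
    (hv : ∀ J, (grdE m n).pr (dv J) (v J) = v J) (t : Set (Ix m)) :
    (grdE m n).Homog (Submodule.span (RR m n) (v '' t)) := by
  intro x hx g
  induction hx using Submodule.span_induction generalizing g with
  | mem x hx =>
      obtain ⟨J, hJ, rfl⟩ := hx
      by_cases e : g = dv J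
      · rw [e, hv J]; exact Submodule.subset_span ⟨J, hJ, rfl⟩
      · rw [← hv J, (grdE m n).pr_ne _ _ _ e]; exact Submodule.zero_mem _
  | zero => rw [map_zero]; exact Submodule.zero_mem _
  | add x y _ _ hx hy => rw [map_add]; exact Submodule.add_mem _ (hx g) (hy g)
  | smul c x _ hx =>
      conv => arg 2; rw [← (grdE m n).sum_pr x, Finset.smul_sum, map_sum]
      refine Submodule.sum_mem _ fun h _ => ?_
      obtain ⟨d, hd⟩ := Submodule.mem_span_singleton.1
        (compatibleFree (wt m n) degI c h g _ ((grdE m n).pr_idem h x))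
      rw [← hd]
      exact Submodule.smul_mem _ _ (hx h)

theorem good_full {C D : Submodule (RR m n) (Ix m → RR m n)} (hC : (grdE m n).Homog C)
    (hD : (grdE m n).Homog D) (h : C ≤ D) :
    Good (varSet (Var m n) ℚ) (opsFree (k := ℚ) (wt m n) degI (varList m n)) C D :=
  goodFree _ _ varList_mem hC hD h

/-- The part of full rank. -/
theorem psi_indep {q : Ideal (RR m n)} [q.IsPrime] (hq : (grd0 (wt m n)).Homog q)
    {v : Ix m → Ix m → RR m n} {dv : Ix m → Gr (m + m)}
    (hv : ∀ J, (grdE m n).pr (dv J) (v J) = v J) (t : Finset (Ix m))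
    (hind : LinearIndepOn (FractionRing (RR m n ⧸ q)) (fun J => fracVec q (v J))
      (t : Set (Ix m))) :
    psi chi (opsFree (k := ℚ) (wt m n) degI (varList m n)) (vecIdeal q)
        (vecIdeal q ⊔ Submodule.span (RR m n) (v '' (t : Set (Ix m)))) =
      (∑ J ∈ t, chi (dv J)) * KK (wt m n) (varList m n) q := by
  classical
  have hA := vecIdeal_homog hq
  induction t using Finset.induction_on with
  | empty =>
      rw [Finset.coe_empty, Set.image_empty, Submodule.span_empty, sup_bot_eq, Finset.sum_empty,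
        zero_mul]
      have := psi_add varSet_gen chi_add chi_zero (good_full hA hA le_rfl)
        ((isMul_map_opVar _ _ _ _).stab hA) le_rfl le_rfl
      linear_combination -this
  | insert J t hJ ih =>
      rw [Finset.coe_insert] at hind
      have hC : (grdE m n).Homog (vecIdeal q ⊔ Submodule.span (RR m n) (v '' (t : Set (Ix m)))) :=
        hA.sup (homog_span_image hv _)
      have hD : vecIdeal q ⊔
          Submodule.span (RR m n) (v '' ((insert J t : Finset (Ix m)) : Set (Ix m))) =
          vecIdeal q ⊔ Submodule.span (RR m n) (v '' (t : Set (Ix m))) ⊔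
            Submodule.span (RR m n) {v J} := by
        rw [Finset.coe_insert, Set.image_insert_eq, Set.insert_eq, Submodule.span_union,
          sup_comm (Submodule.span _ {v J}), sup_assoc]
      rw [psi_add varSet_gen chi_add chi_zero (good_full hA (hA.sup (homog_span_image hv _))
          le_sup_left) ((isMul_map_opVar _ _ _ _).stab hC) le_sup_left (hD ▸ le_sup_left),
        ih (hind.mono (Set.subset_insert _ _)), hD, psi_cyclicFree varList_mem hC (hv J),
        Finset.sum_insert hJ]
      rw [show Submodule.comap (cyclicFree (hv J)).f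
          (vecIdeal q ⊔ Submodule.span (RR m n) (v '' (t : Set (Ix m)))) = q from
        Submodule.ext fun x => colon_eq hJ hind x]
      ring

theorem exists_den {q : Ideal (RR m n)} [q.IsPrime] {v : Ix m → Ix m → RR m n}
    {s : Finset (Ix m)} {J : Ix m}
    (h : fracVec q (v J) ∈ Submodule.span (FractionRing (RR m n ⧸ q))
      ((fun J => fracVec q (v J)) '' (s : Set (Ix m)))) :
    ∃ D : RR m n, D ∉ q ∧
      D • v J ∈ vecIdeal q ⊔ Submodule.span (RR m n) (v '' (s : Set (Ix m))) := by
  obtain ⟨c, hcJ⟩ := (Submodule.mem_span_image_finset_iff_exists_fun _).1 h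
  obtain ⟨⟨d, hd⟩, hint⟩ := IsLocalization.exist_integer_multiples_of_finite
    (nonZeroDivisors (RR m n ⧸ q)) c
  choose ci hci using hint
  obtain ⟨D, rfl⟩ := Ideal.Quotient.mk_surjective d
  choose Ci hCi using fun i => Ideal.Quotient.mk_surjective (ci i)
  refine ⟨D, fun h => (nonZeroDivisors.ne_zero hd) (Ideal.Quotient.eq_zero_iff_mem.2 h), ?_⟩
  have h1 : D • v J - ∑ i, Ci i • v (i : Ix m) ∈ vecIdeal q := by
    intro K
    rw [← toFrac_eq_zero q]
    have h2 : ∀ i, toFrac q (Ci i) = toFrac q D * c i := fun i => by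
      show algebraMap _ (FractionRing (RR m n ⧸ q)) (Ideal.Quotient.mk q (Ci i)) = _
      rw [hCi, hci, Algebra.smul_def]; rfl
    simp only [Pi.sub_apply, Finset.sum_apply, Pi.smul_apply, smul_eq_mul, map_sub, map_mul,
      map_sum, h2]
    have h3 := congrFun hcJ K
    simp only [Finset.sum_apply, Pi.smul_apply, smul_eq_mul, fracVec] at h3
    rw [← h3, Finset.mul_sum, sub_eq_zero]
    exact Finset.sum_congr rfl fun i _ => by ring
  rw [← sub_add_cancel (D • v J) (∑ i, Ci i • v (i : Ix m))]
  exact Submodule.add_mem_sup h1 (Submodule.sum_mem _ fun i _ =>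
    Submodule.smul_mem _ _ (Submodule.subset_span ⟨i, i.2, rfl⟩))

/-- The torsion part has higher order. -/
theorem psi_torsion {q : Ideal (RR m n)} [hqp : q.IsPrime] (hq : (grd0 (wt m n)).Homog q)
    {v : Ix m → Ix m → RR m n} {dv : Ix m → Gr (m + m)}
    (hv : ∀ J, (grdE m n).pr (dv J) (v J) = v J) (s : Finset (Ix m))
    (hs : ∀ J, fracVec q (v J) ∈ Submodule.span (FractionRing (RR m n ⧸ q))
      ((fun J => fracVec q (v J)) '' (s : Set (Ix m)))) :
    psi chi (opsFree (k := ℚ) (wt m n) degI (varList m n))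
        (vecIdeal q ⊔ Submodule.span (RR m n) (v '' (s : Set (Ix m))))
        (vecIdeal q ⊔ Submodule.span (RR m n) (Set.range v)) ∈ ordIdeal (codim q + 1) := by
  classical
  choose D hDq hD using fun J => exists_den (hs J)
  have hA := vecIdeal_homog hq
  have hB : (grdE m n).Homog (vecIdeal q ⊔ Submodule.span (RR m n) (Set.range v)) := by
    have := hA.sup (homog_span_image hv Set.univ)
    rwa [Set.image_univ] at this
  refine devissageFree (wt m n) degI varList_mem (ordIdeal (codim q + 1))
    (I := q ⊔ Ideal.span {∏ J, D J}) ?_ (hA.sup (homog_span_image hv _)) hB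
    (sup_le_sup_left (Submodule.span_mono (Set.image_subset_range _ _)) _) ?_
  · intro p hp hph hle j hj
    have hlt : q < p := lt_of_le_of_ne (le_sup_left.trans hle) fun e => by
      have hmem : (∏ J, D J) ∈ q :=
        e ▸ hle (Submodule.mem_sup_right (Ideal.mem_span_singleton_self _))
      obtain ⟨J, -, hJ⟩ := hqp.prod_mem_iff.1 hmem
      exact hDq J hJ
    have := codim_lt hlt
    exact ord_KK (wt m n) lin_wt_ne_zero varList_nodup varList_mem p hp hph j (by omega)
  · intro x hx u hu
    obtain ⟨y, hy, y', hy', rfl⟩ := Submodule.mem_sup.1 hx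
    obtain ⟨r, rfl⟩ := Ideal.mem_span_singleton'.1 hy'
    rw [add_smul]
    refine Submodule.add_mem _ (Submodule.mem_sup_left fun K => q.mul_mem_right _ hy) ?_
    rw [mul_smul]
    refine Submodule.smul_mem _ _ ?_
    have hle : vecIdeal q ⊔ Submodule.span (RR m n) (Set.range v) ≤
        Submodule.comap (LinearMap.lsmul _ _ (∏ J, D J))
          (vecIdeal q ⊔ Submodule.span (RR m n) (v '' (s : Set (Ix m)))) := by
      refine sup_le (fun w (hw : w ∈ vecIdeal q) => Submodule.smul_mem _ (∏ J, D J)
        (Submodule.mem_sup_left hw)) ?_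
      rw [Submodule.span_le]
      rintro _ ⟨J, rfl⟩
      show (∏ J, D J) • v J ∈
        vecIdeal q ⊔ Submodule.span (RR m n) (v '' (s : Set (Ix m)))
      rw [← Finset.prod_erase_mul _ _ (Finset.mem_univ J), mul_smul]
      exact Submodule.smul_mem _ _ (hD J)
    exact hle hu

/-- The multidegree of a finite module spanned by homogeneous vectors. -/
theorem psi_rank {q : Ideal (RR m n)} [hqp : q.IsPrime] (hq : (grd0 (wt m n)).Homog q)
    (v : Ix m → Ix m → RR m n) (dv : Ix m → Gr (m + m))
    (hv : ∀ J, (grdE m n).pr (dv J) (v J) = v J) (hv0 : v 0 ∉ vecIdeal q) :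
    ∃ s : Finset (Ix m), 0 < s.card ∧
      LinearIndepOn (FractionRing (RR m n ⧸ q)) (fun J => fracVec q (v J)) (s : Set (Ix m)) ∧
      psi chi (opsFree (k := ℚ) (wt m n) degI (varList m n)) (vecIdeal q)
        (vecIdeal q ⊔ Submodule.span (RR m n) (Set.range v)) ∈ ordIdeal (codim q) ∧
      PowerSeries.coeff (codim q)
        (psi chi (opsFree (k := ℚ) (wt m n) degI (varList m n)) (vecIdeal q)
          (vecIdeal q ⊔ Submodule.span (RR m n) (Set.range v))) =
        (s.card : Wt (m + m)) * lead (wt m n) (varList m n) q := by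
  classical
  let vb : Ix m → Ix m → FractionRing (RR m n ⧸ q) := fun J => fracVec q (v J)
  let 𝒮 : Finset (Finset (Ix m)) :=
    Finset.univ.filter fun t : Finset (Ix m) =>
      LinearIndepOn (FractionRing (RR m n ⧸ q)) vb (↑t : Set (Ix m))
  obtain ⟨s, hs, hsmax⟩ := Finset.exists_max_image 𝒮 Finset.card ⟨∅, by simp [𝒮]⟩
  rw [Finset.mem_filter] at hs
  have hsI := hs.2
  have hspan : ∀ J, vb J ∈ Submodule.span (FractionRing (RR m n ⧸ q)) (vb '' (s : Set (Ix m))) := by
    intro J
    by_cases hJ : J ∈ s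
    · exact Submodule.subset_span ⟨J, hJ, rfl⟩
    by_contra hJs
    have := hsmax (insert J s) (Finset.mem_filter.2 ⟨Finset.mem_univ _, by
      rw [Finset.coe_insert]; exact hsI.insert hJs⟩)
    rw [Finset.card_insert_of_notMem hJ] at this
    omega
  have hspos : 0 < s.card := by
    refine Finset.card_pos.2 (Finset.nonempty_iff_ne_empty.2 fun he => hv0 fun K => ?_)
    have := hspan 0
    rw [he, Finset.coe_empty, Set.image_empty, Submodule.span_empty, Submodule.mem_bot] at this
    exact (toFrac_eq_zero q _).1 (congrFun this K)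
  have htor := psi_torsion hq hv s hspan
  have hA := vecIdeal_homog hq
  have hB1 : (grdE m n).Homog (vecIdeal q ⊔ Submodule.span (RR m n) (v '' (s : Set (Ix m)))) :=
    hA.sup (homog_span_image hv _)
  have hB : (grdE m n).Homog (vecIdeal q ⊔ Submodule.span (RR m n) (Set.range v)) := by
    have := hA.sup (homog_span_image hv Set.univ)
    rwa [Set.image_univ] at this
  have hψ := psi_add varSet_gen chi_add chi_zero (good_full hA hB le_sup_left)
    ((isMul_map_opVar _ _ _ _).stab hB1) le_sup_left
    (sup_le_sup_left (Submodule.span_mono (Set.image_subset_range _ _)) _)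
  rw [psi_indep hq hv s hsI] at hψ
  have hKq := ord_KK (wt m n) lin_wt_ne_zero varList_nodup varList_mem q hqp hq
  refine ⟨s, hspos, hsI, ?_, ?_⟩
  · rw [hψ]
    exact Ideal.add_mem _ (Ideal.mul_mem_left _ _ hKq) fun j hj => htor j (by omega)
  · rw [hψ, map_add, htor (codim q) (by omega), add_zero, coeff_mul_of_ord hKq, map_sum,
      Finset.sum_congr rfl fun J _ => constCoeff_chi _, Finset.sum_const, nsmul_one]
    rfl

theorem sqOp_gen (p : Fin m × Bool) :
    SqOp (opRight (n := n) (genIx p))
      (opVar (wt m n) (grdE m n) (hXFree (wt m n) degI) (Sum.inl p)) := by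
  classical
  have hk : kap (uVar m n) (genIx p) (genIx p) = X (Sum.inl p) := by
    rw [kap, Finset.prod_eq_single p.1]
    · rcases p with ⟨l, _ | _⟩ <;> simp [genIx, kap1, uVar]
    · intro l _ hl; simp [genIx, Pi.single_eq_of_ne hl, kap1]
    · simp
  refine ⟨fun x => ?_, ?_⟩
  · show (X (Sum.inl p) : RR m n) • x =
      ((⟨((⟨x⟩ : EE m n) * Quat.e (uVar m n) (genIx p)).coe⟩ : EE m n) *
        Quat.e (uVar m n) (genIx p)).coe
    rw [show (⟨((⟨x⟩ : EE m n) * Quat.e (uVar m n) (genIx p)).coe⟩ : EE m n) =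
      (⟨x⟩ : EE m n) * Quat.e (uVar m n) (genIx p) from rfl, mul_assoc, Quat.e_mul_e, hk,
      ix_add_self, Quat.e_zero, mul_smul_comm, mul_one, Quat.smul_coe]
  · refine ext_uI fun l' s' => ?_
    show (Pi.single (uI p.1 p.2) (2 : ℤ) : Fin (m + m) → ℤ) (uI l' s') =
      ofLex (degI (genIx p)) (uI l' s') + ofLex (degI (genIx p)) (uI l' s')
    rw [degI_apply]
    rcases p with ⟨l, ps⟩
    by_cases hl : l' = l
    · subst hl
      by_cases hs : s' = ps
      · subst hs
        cases s' <;> simp [genIx, bit, side]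
      · rw [Pi.single_eq_of_ne (fun e => hs (uI_inj e).2)]
        cases s' <;> cases ps <;> simp_all [genIx, bit, side]
    · rw [Pi.single_eq_of_ne (fun e => hl (uI_inj e).1)]
      cases s' <;> simp [genIx, Pi.single_eq_of_ne hl, bit, side]

/-- The parameters are squares of operators, so the multidegree is divisible by `2 ^ (2 m)`. -/
theorem psi_two_pow {A B : Submodule (RR m n) (Ix m → RR m n)} (hAh : (grdE m n).Homog A)
    (hBh : (grdE m n).Homog B) (hAB : A ≤ B)
    (hstabA : ∀ J, ∀ v ∈ A, (opRight J).f v ∈ A) (hstabR : ∀ J, ∀ v ∈ B, (opRight J).f v ∈ B)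
    {c : ℕ} (hordB : psi chi (opsFree (k := ℚ) (wt m n) degI (varList m n)) A B ∈ ordIdeal c) :
    ∃ y : Wt (m + m), (2 : Wt (m + m)) ^ (2 * m) * y =
      PowerSeries.coeff c (psi chi (opsFree (k := ℚ) (wt m n) degI (varList m n)) A B) := by
  classical
  set ops := opsFree (k := ℚ) (wt m n) degI (varList m n)
  set le := ((Finset.univ : Finset (Fin m × Bool)).toList.map fun p => opRight (n := n) (genIx p))
  set pre := ((Finset.univ : Finset ((Bool ⊕ Fin n) × NZ m)).toList.map Sum.inr).map
    (opVar (wt m n) (grdE m n) (hXFree (wt m n) degI))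
  set lu := ((Finset.univ : Finset (Fin m × Bool)).toList.map Sum.inl).map
    (opVar (wt m n) (grdE m n) (hXFree (wt m n) degI))
  have hops : ops = pre ++ lu := by
    show List.map _ (varList m n) = _
    rw [varList, List.map_append]
  have hsq : List.Forall₂ SqOp le lu := by
    rw [show lu = (Finset.univ : Finset (Fin m × Bool)).toList.map (fun p =>
      opVar (wt m n) (grdE m n) (hXFree (wt m n) degI) (Sum.inl p)) from List.map_map ..,
      List.forall₂_map_left_iff, List.forall₂_map_right_iff]
    exact List.forall₂_same.2 fun p _ => sqOp_gen p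
  have hpreMul : IsMul pre := isMul_map_opVar _ _ _ _
  have hpw : (pre ++ le).Pairwise SemiComm := by
    rw [List.pairwise_iff_forall_sublist]
    intro o o' hs
    have ho : o ∈ pre ++ le := hs.subset (by simp)
    have ho' : o' ∈ pre ++ le := hs.subset (by simp)
    rcases List.mem_append.1 ho with h | h
    · obtain ⟨r, hr⟩ := hpreMul o h
      exact ⟨1, one_ne_zero, fun v => by rw [one_smul, hr, hr, o'.f.map_smul]⟩
    · rcases List.mem_append.1 ho' with h' | h'
      · obtain ⟨r, hr⟩ := hpreMul o' h'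
        exact ⟨1, one_ne_zero, fun v => by rw [one_smul, hr, hr, o.f.map_smul]⟩
      · obtain ⟨p, -, rfl⟩ := List.mem_map.1 h
        obtain ⟨p', -, rfl⟩ := List.mem_map.1 h'
        refine ⟨(eps (genIx p') (genIx p) : ℚ), Int.cast_ne_zero.2 (eps_ne_zero _ _), fun v => ?_⟩
        show (((⟨v⟩ : EE m n) * Quat.e _ (genIx p')) * Quat.e _ (genIx p)).coe =
          (eps (genIx p') (genIx p) : ℚ) •
            (((⟨v⟩ : EE m n) * Quat.e _ (genIx p)) * Quat.e _ (genIx p')).coe
        rw [mul_assoc, mul_assoc, Quat.e_comm, mul_smul_comm, Quat.smul_coe, Int.cast_smul_eq_zsmul,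
          Int.cast_smul_eq_zsmul]
  have hvsq : VarsSq (varSet (Var m n) ℚ) pre le A B := by
    rintro _ ⟨v, rfl⟩
    rcases v with v | v
    · refine Or.inr (Or.inr ⟨_, List.mem_map.2 ⟨v, Finset.mem_toList.2 (Finset.mem_univ _), rfl⟩,
        0, fun x => ?_⟩)
      rw [zero_smul, sub_zero]
      obtain ⟨h1, -⟩ := (List.forall₂_map_right_iff.1
        (List.forall₂_map_left_iff.1 hsq)) |> fun h => (List.forall₂_same.1
          (List.forall₂_map_right_iff.1 h)) v (Finset.mem_toList.2 (Finset.mem_univ _))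
      exact (h1 x).symm
    · refine Or.inr (Or.inl ⟨_, List.mem_map.2 ⟨Sum.inr v, List.mem_map.2
        ⟨v, Finset.mem_toList.2 (Finset.mem_univ _), rfl⟩, rfl⟩, 0, fun x => ?_⟩)
      show (X (Sum.inr v) : RR m n) • x = _
      simp
  have hgle : Good (varSet (Var m n) ℚ) (pre ++ le) A B := by
    refine ⟨hAB, ⟨hAh, fun o ho v hv => ?_⟩, ⟨hBh, fun o ho v hv => ?_⟩, hpw,
      ((IsNoetherian.noetherian B).map _), fun v hv => ?_⟩
    · rcases List.mem_append.1 ho with h | h
      · exact (hpreMul.stab hAh).stab o h v hv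
      · obtain ⟨p, -, rfl⟩ := List.mem_map.1 h
        exact hstabA _ v hv
    · rcases List.mem_append.1 ho with h | h
      · exact (hpreMul.stab hBh).stab o h v hv
      · obtain ⟨p, -, rfl⟩ := List.mem_map.1 h
        exact hstabR _ v hv
    · rcases hvsq v hv with h | ⟨o, ho, d, h⟩ | ⟨o, ho, d, h⟩
      · exact Or.inl h
      · exact Or.inr ⟨o, List.mem_append_left _ ho, d, Or.inl h⟩
      · exact Or.inr ⟨o, List.mem_append_right _ ho, d, Or.inr h⟩
  have hglu : Good (varSet (Var m n) ℚ) (pre ++ lu) A B := hops ▸ good_full hAh hBh hAB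
  have hsq' := psi_sq_prefix varSet_gen chi_add chi_zero hsq hglu hgle hvsq
  rw [← hops] at hsq'
  set P := (le.map fun e => 1 + chi e.d).prod
  have hP : PowerSeries.constantCoeff P = (2 : Wt (m + m)) ^ (2 * m) := by
    rw [show PowerSeries.constantCoeff P =
      ((le.map fun e => 1 + chi e.d).map PowerSeries.constantCoeff).prod from map_list_prod _ _,
      List.map_map, List.map_congr_left (g := fun _ => (2 : Wt (m + m))) (fun e _ => by
        simp only [Function.comp_apply, map_add, map_one, constCoeff_chi]; norm_num),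
      List.map_const', List.prod_replicate, List.length_map, Finset.length_toList,
      Finset.card_univ, Fintype.card_prod, Fintype.card_fin, Fintype.card_bool, mul_comm]
  have hP0 : PowerSeries.constantCoeff P ≠ 0 := by
    rw [hP]; exact pow_ne_zero _ two_ne_zero
  have hord' : psi chi (pre ++ le) A B ∈ ordIdeal c := ord_of_mul hP0 (hsq' ▸ hordB)
  refine ⟨PowerSeries.coeff c (psi chi (pre ++ le) A B), ?_⟩
  rw [← hP, ← coeff_mul_of_ord hord']
  exact congrArg _ hsq'.symm

theorem opRight_apply (J : Ix m) (a : EE m n) :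
    (opRight J).f a.coe = (a * Quat.e (uVar m n) J).coe := rfl

theorem opRight_orbit (J J' : Ix m) (a : EE m n) :
    (opRight J).f (a * Quat.e (uVar m n) J').coe =
      kap (uVar m n) J' J • (a * Quat.e (uVar m n) (J' + J)).coe := by
  rw [opRight_apply, mul_assoc, Quat.e_mul_e, mul_smul_comm, Quat.smul_coe]

theorem opRight_stab {q : Ideal (RR m n)} (a : EE m n) (J : Ix m) (v : Ix m → RR m n)
    (hv : v ∈ vecIdeal q ⊔
      Submodule.span (RR m n) (Set.range fun J' => (a * Quat.e (uVar m n) J').coe)) :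
    (opRight J).f v ∈ vecIdeal q ⊔
      Submodule.span (RR m n) (Set.range fun J' => (a * Quat.e (uVar m n) J').coe) := by
  obtain ⟨y, hy, y', hy', rfl⟩ := Submodule.mem_sup.1 hv
  rw [map_add]
  refine Submodule.add_mem _
    (Submodule.mem_sup_left (mul_mem_vecIdeal_left (a := (⟨y⟩ : EE m n)) _ hy))
    (Submodule.mem_sup_right ?_)
  clear hv
  induction hy' using Submodule.span_induction with
  | mem x hx =>
      obtain ⟨J', rfl⟩ := hx
      rw [opRight_orbit]
      exact Submodule.smul_mem _ _ (Submodule.subset_span ⟨_, rfl⟩)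
  | zero => rw [map_zero]; exact Submodule.zero_mem _
  | add x x' _ _ hx hx' => rw [map_add]; exact Submodule.add_mem _ hx hx'
  | smul c x _ hx => rw [LinearMap.map_smul]; exact Submodule.smul_mem _ _ hx

/-- An odd multidegree forces the absence of zero divisors. -/
theorem no_zero_divisors {q : Ideal (RR m n)} (hqp : q.IsPrime)
    (hq : (grd0 (wt m n)).Homog q)
    (hlead : red2 (m + m) (lead (wt m n) (varList m n) q) ≠ 0) {z w : EE m n}
    (hzw : (z * w).coe ∈ vecIdeal q) : z.coe ∈ vecIdeal q ∨ w.coe ∈ vecIdeal q := by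
  classical
  have := hqp
  by_contra hcon
  push Not at hcon
  obtain ⟨a, ha0, ha⟩ := exists_top_component hcon.1
  obtain ⟨b, hb0, hb⟩ := exists_top_component hcon.2
  have hprod := top_mul_mem hq hzw ha hb
  set z' : EE m n := ⟨(grdE m n).pr a z.coe⟩
  set w' : EE m n := ⟨(grdE m n).pr b w.coe⟩
  have hz' : HomQ a z' := homQ_pr a z
  set zJ : Ix m → Ix m → RR m n := fun J => (z' * Quat.e _ J).coe with hzJdef
  have hzJ : ∀ J, (grdE m n).pr (a + degI J) (zJ J) = zJ J := fun J => by
    show (grdE m n).pr (a + degI J) ((opRight J).f z'.coe) = (opRight J).f z'.coe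
    rw [show a + degI J = a + (opRight (n := n) J).d from rfl, (opRight J).hom, pr_of_homQ hz']
  obtain ⟨s, hspos, hsI, hord, hcoef⟩ := psi_rank hq zJ (fun J => a + degI J) hzJ (by
    simp only [hzJdef, Quat.e_zero, mul_one]; exact ha0)
  have hBh : (grdE m n).Homog (vecIdeal q ⊔ Submodule.span (RR m n) (Set.range zJ)) := by
    have := (vecIdeal_homog hq).sup (homog_span_image hzJ Set.univ)
    rwa [Set.image_univ] at this
  have hstabA : ∀ J, ∀ v ∈ vecIdeal q, (opRight (n := n) J).f v ∈ vecIdeal q :=
    fun J v hv => mul_mem_vecIdeal_left (a := (⟨v⟩ : EE m n)) _ hv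
  have hstab := opRight_stab (q := q) z'
  obtain ⟨y, hy⟩ := psi_two_pow (vecIdeal_homog hq) hBh le_sup_left hstabA hstab hord
  have hdiv := hy.trans hcoef
  -- parity
  obtain ⟨M, hM⟩ := MvPolynomial.ne_zero_iff.1 hlead
  rw [red2, MvPolynomial.coeff_map] at hM
  have hodd : ¬ (2 : ℤ) ∣ MvPolynomial.coeff M (lead (wt m n) (varList m n) q) := by
    intro h
    exact hM (by rw [eq_intCast, (ZMod.intCast_zmod_eq_zero_iff_dvd _ 2)]; exact_mod_cast h)
  have hd : (2 : ℤ) ^ (2 * m) ∣ (s.card : ℤ) := by
    have h1 := congrArg (MvPolynomial.coeff M) hdiv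
    rw [show (2 : Wt (m + m)) = C (2 : ℤ) from (map_ofNat C 2).symm, ← map_pow, coeff_C_mul,
      show (s.card : Wt (m + m)) = C (s.card : ℤ) from (map_natCast C _).symm, coeff_C_mul] at h1
    exact Int.dvd_of_dvd_mul_left_of_gcd_one ⟨_, h1.symm⟩ (by
      rw [← Int.isCoprime_iff_gcd_eq_one]
      exact ((Int.prime_two).coprime_iff_not_dvd.2 hodd).pow_left)
  have hcard : s.card = 2 ^ (2 * m) := by
    refine le_antisymm ?_ (Nat.le_of_dvd hspos (by exact_mod_cast hd))
    have h := Finset.card_le_univ s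
    rw [Fintype.card_fun, Fintype.card_prod, ZMod.card, Fintype.card_fin] at h
    rw [pow_mul]
    rw [show (2 : ℕ) ^ 2 = 2 * 2 by norm_num]
    exact h
  have hsU : s = Finset.univ := Finset.eq_univ_of_card s (by
    rw [hcard, Fintype.card_fun, Fintype.card_prod, ZMod.card, Fintype.card_fin, pow_mul]; norm_num)
  -- contradiction
  have hli : LinearIndependent (FractionRing (RR m n ⧸ q)) (fun J => fracVec q (zJ J)) := by
    have := hsI
    rwa [hsU, Finset.coe_univ, linearIndepOn_univ_iff] at this
  apply hb0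
  intro K
  rw [← toFrac_eq_zero q]
  refine Fintype.linearIndependent_iff.1 hli (fun J => toFrac q (w'.coe J))
    (funext fun K' => ?_) K
  rw [Finset.sum_apply]
  have e : z' * w' = ∑ J, w'.coe J • (z' * Quat.e _ J) := by
    conv_lhs => rw [← Quat.sum_e w', Finset.mul_sum]
    exact Finset.sum_congr rfl fun J _ => by rw [mul_smul_comm]
  have h2 := (toFrac_eq_zero q _).2 (hprod K')
  have h3 : (z' * w').coe K' = ∑ J, w'.coe J * zJ J K' := by
    rw [e, show (∑ J, w'.coe J • (z' * Quat.e (uVar m n) J)).coe =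
        ∑ J, (w'.coe J • (z' * Quat.e (uVar m n) J)).coe from map_sum Quat.coeHom _ _,
        Finset.sum_apply]
    exact Finset.sum_congr rfl fun J _ => by simp [hzJdef]
  rw [h3, map_sum] at h2
  refine Eq.trans (Finset.sum_congr rfl fun J _ => ?_) h2
  simp [fracVec]

end Vale.Agent.P199
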