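import Vale.Agent.P199.Pauli

/-!
The local equations for the elements of small degree.
-/

set_option linter.unusedSectionVars false

noncomputable section

namespace Vale.Agent.P199

open Finset Matrix

variable {m : ℕ} {S T : Type} [CommRing S] [CommRing T] {u : Fin m → Bool → S}

/-- The Gram matrix of the powers of `Y`. -/
def gram (e : ℕ) (Y : Quat u) : Matrix (Fin e) (Fin e) S :=
  fun a b => Quat.tau (Y ^ ((a : ℕ) + b))

/-- The traces of the products with `Y ^ d`. -/
def tvec (d : ℕ) (Y : Quat u) : Fin d → S := fun a => Quat.tau (Y ^ (d + a))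

/-- The part of `Y ^ d` orthogonal to the smaller powers, with cleared denominator. -/
def Wel (d : ℕ) (Y : Quat u) : Quat u :=
  (gram d Y).det • Y ^ d - ∑ k : Fin d, ((gram d Y).adjugate *ᵥ tvec d Y) k • Y ^ (k : ℕ)

/-- The linear map detecting the vanishing of `Wel`. -/
def TM (j : ℕ) (Y : Quat u) : Matrix (Ix m) (Ix m) S := fun K I =>
  if K ∈ Cset m j then (if K = I then 1 else 0)
  else if K ∈ Aset m j then
    (∑ k : Fin (2 ^ j), Quat.tau (Quat.e u I * Y ^ (k : ℕ)) • Y ^ (k : ℕ)).coe K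
  else (Y * Quat.e u I - Quat.e u I * Y).coe K

theorem map_e (φ : S →+* T) (I : Ix m) :
    Quat.map φ u (Quat.e u I) = Quat.e (fun l s => φ (u l s)) I := by
  ext K
  by_cases h : K = I
  · subst h; simp [Quat.e]
  · simp [Quat.e, Pi.single_eq_of_ne h]

theorem map_sum_smul (φ : S →+* T) {ι : Type} (s : Finset ι) (c : ι → S) (a : ι → Quat u) :
    Quat.map φ u (∑ i ∈ s, c i • a i) = ∑ i ∈ s, φ (c i) • Quat.map φ u (a i) := by
  rw [map_sum]; exact Finset.sum_congr rfl fun i _ => Quat.map_smul φ _ _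

theorem gram_map (φ : S →+* T) (e : ℕ) (Y : Quat u) :
    (gram e Y).map φ = gram e (Quat.map φ u Y) := by
  ext a b; simp [gram, ← map_pow, Quat.map_tau]

theorem det_gram_map (φ : S →+* T) (e : ℕ) (Y : Quat u) :
    φ (gram e Y).det = (gram e (Quat.map φ u Y)).det := by
  rw [RingHom.map_det, RingHom.mapMatrix_apply, gram_map]

theorem Wel_map (φ : S →+* T) (d : ℕ) (Y : Quat u) :
    Quat.map φ u (Wel d Y) = Wel d (Quat.map φ u Y) := by
  have h1 : (gram d (Quat.map φ u Y)).adjugate = (gram d Y).adjugate.map φ := by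
    rw [← gram_map, ← RingHom.mapMatrix_apply, ← RingHom.map_adjugate, RingHom.mapMatrix_apply]
  have h2 : tvec d (Quat.map φ u Y) = φ ∘ tvec d Y := by
    funext a; simp [tvec, ← map_pow, Quat.map_tau]
  unfold Wel
  rw [map_sub, Quat.map_smul, map_pow, map_sum_smul, det_gram_map, h1, h2]
  congr 1
  refine Finset.sum_congr rfl fun k _ => ?_
  rw [map_pow, RingHom.map_mulVec]

theorem TM_map (φ : S →+* T) (j : ℕ) (Y : Quat u) :
    (TM j Y).map φ = TM j (Quat.map φ u Y) := by
  ext K I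
  simp only [Matrix.map_apply, TM]
  split_ifs
  · simp
  · simp
  · rw [← Quat.map_coe φ, map_sum_smul]
    simp only [map_pow, map_mul, map_e, ← Quat.map_tau]
  · rw [← Quat.map_coe φ, map_sub, map_mul, map_mul, map_e]

theorem Wel_commute (d : ℕ) (Y : Quat u) : Y * Wel d Y = Wel d Y * Y := by
  simp only [Wel, mul_sub, sub_mul, Finset.mul_sum, Finset.sum_mul, mul_smul_comm, smul_mul_assoc,
    ← pow_succ, ← pow_succ']

theorem tau_Wel (d : ℕ) (Y : Quat u) (l : Fin d) : Quat.tau (Wel d Y * Y ^ (l : ℕ)) = 0 := by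
  simp only [Wel, sub_mul, smul_mul_assoc, Finset.sum_mul, ← pow_add, map_sub, map_sum, map_smul,
    smul_eq_mul]
  have h : (gram d Y *ᵥ ((gram d Y).adjugate *ᵥ tvec d Y)) l = (gram d Y).det * tvec d Y l := by
    rw [Matrix.mulVec_mulVec, Matrix.mul_adjugate, Matrix.smul_mulVec, Matrix.one_mulVec]
    rfl
  rw [Matrix.mulVec, dotProduct] at h
  rw [sub_eq_zero]
  refine Eq.trans ?_ (h.symm.trans (Finset.sum_congr rfl fun k _ => ?_))
  · rfl
  · simp only [gram]; rw [add_comm (l : ℕ)]; ring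

theorem TM_mulVec (j : ℕ) (Y : Quat u) (W : Quat u) (K : Ix m) :
    (TM j Y *ᵥ W.coe) K =
      if K ∈ Cset m j then W.coe K
      else if K ∈ Aset m j then
        (∑ k : Fin (2 ^ j), Quat.tau (W * Y ^ (k : ℕ)) • Y ^ (k : ℕ)).coe K
      else (Y * W - W * Y).coe K := by
  have hsum : ∀ {ι : Type} (s : Finset ι) (f : ι → Quat u),
      (∑ i ∈ s, f i).coe K = ∑ i ∈ s, (f i).coe K := fun s f => by
    rw [show (∑ i ∈ s, f i).coe = ∑ i ∈ s, (f i).coe from map_sum Quat.coeHom _ _,
      Finset.sum_apply]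
  show ∑ I, TM j Y K I * W.coe I = _
  by_cases h1 : K ∈ Cset m j
  · rw [if_pos h1, Finset.sum_eq_single K]
    · simp [TM, h1]
    · intro I _ hI; simp [TM, h1, Ne.symm hI]
    · simp
  rw [if_neg h1]
  conv_rhs => rw [← Quat.sum_e W]
  by_cases h2 : K ∈ Aset m j
  · simp only [TM, if_neg h1, if_pos h2, hsum, Finset.sum_mul, map_sum, smul_mul_assoc, map_smul,
      Quat.smul_coe, Pi.smul_apply, smul_eq_mul]
    rw [Finset.sum_comm]
    refine Finset.sum_congr rfl fun k _ => Finset.sum_congr rfl fun I _ => ?_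
    ring
  · simp only [TM, if_neg h1, if_neg h2, Finset.mul_sum, Finset.sum_mul, mul_smul_comm,
      smul_mul_assoc, ← Finset.sum_sub_distrib, ← smul_sub, hsum, Quat.smul_coe, Pi.smul_apply,
      smul_eq_mul]
    exact Finset.sum_congr rfl fun I _ => mul_comm _ _

theorem pow_coe_zero_notMem {j : ℕ} (k : ℕ) (W : Quat (u0 m j)) :
    Quat.tau (W * y0 m j ^ k) = ∑ K ∈ Aset m j, W.coe K * (y0 m j ^ k).coe K := by
  rw [Quat.tau_apply, Quat.mul_coe, ← Finset.sum_subset (Finset.subset_univ (Aset m j))]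
  · refine Finset.sum_congr rfl fun K hK => ?_
    rw [zero_add, kap_self_Aset hK, one_mul]
  · intro K _ hK
    rw [zero_add, y0_pow_coe k K hK, mul_zero]

theorem det_gram_y0 {j : ℕ} (hj : j ≤ m) : (gram (2 ^ j) (y0 m j)).det ≠ 0 := by
  classical
  intro h
  obtain ⟨v, hv0, hv⟩ := Matrix.exists_mulVec_eq_zero_iff.2 h
  set w : Quat (u0 m j) := ∑ k, v k • y0 m j ^ (k : ℕ) with hw
  have hz : ∀ a : Fin (2 ^ j), Quat.tau (w * y0 m j ^ (a : ℕ)) = 0 := by
    intro a
    have := congrFun hv a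
    rw [hw]
    simp only [Finset.sum_mul, smul_mul_assoc, map_sum, map_smul, smul_eq_mul, ← pow_add]
    refine Eq.trans (Finset.sum_congr rfl fun k _ => ?_) this
    simp only [gram]; rw [mul_comm, add_comm]
  have hsupp : ∀ K ∉ Aset m j, w.coe K = 0 := fun K hK => by
    rw [hw, sum_coe]
    exact Finset.sum_eq_zero fun k _ => by simp [y0_pow_coe _ K hK]
  have h2 : ∑ K ∈ Aset m j, w.coe K * w.coe K = 0 := by
    have : ∀ K, w.coe K = ∑ k, v k * (y0 m j ^ (k : ℕ)).coe K := fun K => by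
      rw [hw, sum_coe]; simp
    calc ∑ K ∈ Aset m j, w.coe K * w.coe K
        = ∑ K ∈ Aset m j, ∑ k, v k * (w.coe K * (y0 m j ^ (k : ℕ)).coe K) :=
          Finset.sum_congr rfl fun K _ => by
            conv_lhs => arg 2; rw [this K]
            rw [Finset.mul_sum]; exact Finset.sum_congr rfl fun k _ => by ring
      _ = ∑ k, v k * Quat.tau (w * y0 m j ^ (k : ℕ)) := by
          rw [Finset.sum_comm]
          exact Finset.sum_congr rfl fun k _ => by rw [pow_coe_zero_notMem, Finset.mul_sum]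
      _ = 0 := Finset.sum_eq_zero fun k _ => by rw [hz, mul_zero]
  have hw0 : w = 0 := by
    ext K
    by_cases hK : K ∈ Aset m j
    · exact mul_self_eq_zero.1
        ((Finset.sum_eq_zero_iff_of_nonneg fun x _ => mul_self_nonneg _).1 h2 K hK)
    · exact hsupp K hK
  exact hv0 (y0_indep hj v hw0)

theorem det_TM_y0 {j : ℕ} (hj : j ≤ m) : (TM j (y0 m j)).det ≠ 0 := by
  classical
  intro h
  obtain ⟨v, hv0, hv⟩ := Matrix.exists_mulVec_eq_zero_iff.2 h
  set W : Quat (u0 m j) := ⟨v⟩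
  have hK : ∀ K, (TM j (y0 m j) *ᵥ W.coe) K = 0 := fun K => congrFun hv K
  simp only [TM_mulVec] at hK
  have hC : ∀ K ∈ Cset m j, v K = 0 := fun K hKC => by simpa [hKC, W] using hK K
  -- the span of the powers
  have hAC : ∀ K ∈ Aset m j, K ∉ Cset m j := fun K hKA h => (Finset.mem_sdiff.1 h).2 hKA
  set c : Fin (2 ^ j) → ℚ := fun k => Quat.tau (W * y0 m j ^ (k : ℕ))
  have hc : c = 0 := by
    refine y0_indep hj c ?_
    ext K
    by_cases hKA : K ∈ Aset m j
    · have := hK K
      rw [if_neg (hAC K hKA), if_pos hKA] at this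
      simpa [c] using this
    · rw [sum_coe]
      exact Finset.sum_eq_zero fun k _ => by simp [y0_pow_coe _ K hKA]
  let M : Matrix (Fin (2 ^ j)) {K // K ∈ Aset m j} ℚ := fun k K => (y0 m j ^ (k : ℕ)).coe K.1
  have hcard : Fintype.card {K // K ∈ Aset m j} = 2 ^ j := by
    rw [Fintype.card_coe, card_Aset hj]
  let eqv : Fin (2 ^ j) ≃ {K // K ∈ Aset m j} := (Fintype.equivFinOfCardEq hcard).symm
  let M' : Matrix (Fin (2 ^ j)) (Fin (2 ^ j)) ℚ := fun k i => M k (eqv i)
  have hM' : M'.det ≠ 0 := by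
    intro h0
    obtain ⟨a, ha0, ha⟩ := Matrix.exists_vecMul_eq_zero_iff.2 h0
    apply ha0
    refine y0_indep hj a ?_
    ext K
    rw [sum_coe]
    by_cases hKA : K ∈ Aset m j
    · have := congrFun ha (eqv.symm ⟨K, hKA⟩)
      simpa [M', M, Matrix.vecMul, dotProduct] using this
    · exact Finset.sum_eq_zero fun k _ => by simp [y0_pow_coe _ K hKA]
  have hA : ∀ K ∈ Aset m j, v K = 0 := by
    intro K hKA
    have h1 : M' *ᵥ (fun i => v (eqv i).1) = 0 := by
      funext k
      have h2 := congrFun hc k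
      simp only [c, pow_coe_zero_notMem, Pi.zero_apply] at h2
      show ∑ i, M k (eqv i) * v (eqv i).1 = 0
      rw [← h2, ← Finset.sum_coe_sort (Aset m j), ← Equiv.sum_comp eqv]
      exact Finset.sum_congr rfl fun i _ => mul_comm _ _
    have := congrFun (Matrix.eq_zero_of_mulVec_eq_zero hM' h1) (eqv.symm ⟨K, hKA⟩)
    simpa using this
  apply hv0
  funext K
  by_cases hKC : K ∈ Cset m j
  · exact hC K hKC
  by_cases hKA : K ∈ Aset m j
  · exact hA K hKA
  -- the commutator part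
  set b := bset j K with hb
  have hbne : b.Nonempty := by
    rw [Finset.nonempty_iff_ne_empty]
    intro he
    exact hKC (Finset.mem_sdiff.2 ⟨bset_eq_empty.1 he, hKA⟩)
  have := shift_injective j b (fun l hl => (Finset.mem_filter.1 (Finset.mem_filter.1 hl).1).2) 0
    (fun s => by rw [zero_add]; exact signed_sum_ne_zero b hbne s)
    (fun K' => if bset j K' = b then v K' else 0) ?_
  · simpa [hb] using congrFun this K
  intro K'
  simp only [bset_add_Pix, zero_mul, zero_add]
  by_cases hK' : bset j K' = b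
  · simp only [if_pos hK']
    have hne : K' ∉ ACset m j := fun h => by
      have := bset_eq_empty.2 h
      rw [hK'] at this
      exact hbne.ne_empty this
    have h3 := hK K'
    rw [if_neg (show K' ∉ Cset m j from fun h => hne (Finset.mem_sdiff.1 h).1),
      if_neg (show K' ∉ Aset m j from fun h => hne (mem_ACset.2 (mem_Aset.1 h).1)),
      commutator_y0, hK',
      ← Finset.mul_sum] at h3
    exact (mul_eq_zero.1 h3).resolve_left two_ne_zero
  · simp [if_neg hK']

/-- The local lemma. -/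
theorem local_degree [IsDomain S] (π : S →+* ℚ) {j : ℕ} (hj : j ≤ m) (Y : Quat u)
    (hu : (fun l s => π (u l s)) = u0 m j)
    (hY : (Quat.map π u Y).coe = (y0 m j).coe)
    (hC : ∀ K ∈ Cset m j, (Wel (2 ^ j) Y).coe K = 0) :
    ∀ e, 2 ^ j < e → (gram e Y).det = 0 := by
  classical
  have key : ∀ (u' : Fin m → Bool → ℚ) (Y' : Quat u'), u' = u0 m j → Y'.coe = (y0 m j).coe →
      (gram (2 ^ j) Y').det ≠ 0 ∧ (TM j Y').det ≠ 0 := by
    rintro u' Y' rfl hY'
    rw [Quat.ext hY']
    exact ⟨det_gram_y0 hj, det_TM_y0 hj⟩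
  obtain ⟨hg, hT⟩ := key _ _ hu hY
  have hg' : (gram (2 ^ j) Y).det ≠ 0 := fun h => hg (by rw [← det_gram_map, h, map_zero])
  have hT' : (TM j Y).det ≠ 0 := fun h => hT (by
    rw [← TM_map, ← RingHom.mapMatrix_apply, ← RingHom.map_det, h, map_zero])
  have hW : (Wel (2 ^ j) Y).coe = 0 := by
    refine Matrix.eq_zero_of_mulVec_eq_zero hT' ?_
    funext K
    rw [TM_mulVec]
    by_cases h1 : K ∈ Cset m j
    · rw [if_pos h1]; exact hC K h1
    rw [if_neg h1]
    by_cases h2 : K ∈ Aset m j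
    · rw [if_pos h2]; simp [tau_Wel]
    · rw [if_neg h2, Wel_commute]; simp
  intro e he
  rw [← Matrix.exists_mulVec_eq_zero_iff]
  set d := 2 ^ j
  let v : Fin e → S := fun a => if h : a.val < d then -((gram d Y).adjugate *ᵥ tvec d Y) ⟨a, h⟩
    else if a.val = d then (gram d Y).det else 0
  refine ⟨v, ?_, ?_⟩
  · intro hv
    have := congrFun hv ⟨d, he⟩
    simp [v] at this
    exact hg' this
  have hsum : ∑ a : Fin e, v a • Y ^ (a : ℕ) = 0 := by
    have h0 : Wel d Y = 0 := Quat.ext hW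
    rw [← h0, Wel]
    obtain ⟨r, rfl⟩ : ∃ r, e = d + (1 + r) := ⟨e - d - 1, by omega⟩
    rw [Fin.sum_univ_add, Fin.sum_univ_add, Fin.sum_univ_one]
    have e1 : ∀ i : Fin d, v (Fin.castAdd (1 + r) i) • Y ^ ((Fin.castAdd (1 + r) i : Fin _) : ℕ) =
        -(((gram d Y).adjugate *ᵥ tvec d Y) i • Y ^ (i : ℕ)) := fun i => by
      simp [v, Fin.castAdd, i.isLt, neg_smul]
    have e3 : ∀ i : Fin r, v (Fin.natAdd d (Fin.natAdd 1 i)) •
        Y ^ ((Fin.natAdd d (Fin.natAdd 1 i) : Fin _) : ℕ) = 0 := fun i => by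
      simp [v, Fin.natAdd]
    rw [Finset.sum_congr rfl fun i _ => e1 i, Finset.sum_congr rfl fun i _ => e3 i,
      Finset.sum_const_zero, add_zero, Finset.sum_neg_distrib]
    simp [v, Fin.castAdd, Fin.natAdd]
    abel
  funext a
  have := congrArg (fun x => Quat.tau (x * Y ^ (a : ℕ))) hsum
  simp only [Finset.sum_mul, smul_mul_assoc, ← pow_add, map_sum, map_smul, smul_eq_mul, zero_mul,
    map_zero] at this
  show ∑ b, gram e Y a b * v b = 0
  refine Eq.trans (Finset.sum_congr rfl fun b _ => ?_) this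
  simp only [gram]; rw [mul_comm, add_comm]

end Vale.Agent.P199
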