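import Vale.Agent.P199.Div
import Vale.Agent.P199.Local

/-!
Construction of the field of parameters.
-/

set_option linter.unusedSectionVars false

noncomputable section

namespace Vale.Agent.P199

open MvPolynomial
open scoped PowerSeries

variable {m n : ℕ}

/-- Keep the coordinates of the levels `≥ j`. -/
def keepJ (m j : ℕ) : Fin (m + m) → Bool :=
  Fin.addCases (fun l => decide (j ≤ l.val)) (fun l => decide (j ≤ l.val))

theorem keepJ_uI (j : ℕ) (l : Fin m) (s : Bool) : keepJ m j (uI l s) = decide (j ≤ l.val) := by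
  unfold keepJ uI
  cases s
  · rw [if_neg Bool.false_ne_true, Fin.addCases_left]
  · rw [if_pos rfl, Fin.addCases_right]

/-- Parity of the multidegree seen by the levels `≥ j`. -/
def evJ (m j : ℕ) : Wt (m + m) →+* MvPolynomial (Fin (m + m)) (ZMod 2) :=
  (red2 (m + m)).comp (evKeep (keepJ m j))

/-- Substitution of `0` modulo 2. -/
def evKeep2 {r : ℕ} (keep : Fin r → Bool) :
    MvPolynomial (Fin r) (ZMod 2) →+* MvPolynomial (Fin r) (ZMod 2) :=
  (aeval fun i => if keep i then X i else 0 :
    MvPolynomial (Fin r) (ZMod 2) →ₐ[ZMod 2] MvPolynomial (Fin r) (ZMod 2)).toRingHom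

theorem red2_evKeep {r : ℕ} (keep : Fin r → Bool) :
    (red2 r).comp (evKeep keep) = (evKeep2 keep).comp (red2 r) := by
  refine MvPolynomial.ringHom_ext (fun c => ?_) (fun i => ?_)
  · simp [red2, evKeep, evKeep2]
  · by_cases h : keep i <;> simp [red2, evKeep, evKeep2, h]

theorem evKeep_comp {j j' : ℕ} (h : j ≤ j') :
    (evKeep (keepJ m j')).comp (evKeep (keepJ m j)) = evKeep (keepJ m j') := by
  refine MvPolynomial.ringHom_ext (fun c => ?_) (fun i => ?_)
  · simp [evKeep]
  · obtain ⟨l, s, rfl⟩ := uI_surj i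
    by_cases h1 : j ≤ l.val
    · simp [evKeep, keepJ_uI, h1]
    · simp [evKeep, keepJ_uI, h1, show ¬ j' ≤ l.val by omega]

theorem evJ_zero : evJ m 0 = red2 (m + m) := by
  refine MvPolynomial.ringHom_ext (fun c => ?_) (fun i => ?_)
  · simp [evJ, evKeep]
  · obtain ⟨l, s, rfl⟩ := uI_surj i
    simp [evJ, evKeep, keepJ_uI]

theorem evJ_mono {j j' : ℕ} (h : j ≤ j') {x : Wt (m + m)} (hx : evJ m j' x ≠ 0) :
    evJ m j x ≠ 0 := by
  intro h0
  apply hx
  have e1 : evJ m j' x = evKeep2 (keepJ m j') (evJ m j x) := by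
    show red2 _ (evKeep (keepJ m j') x) = _
    conv_lhs => rw [← evKeep_comp h]
    exact RingHom.congr_fun (red2_evKeep (keepJ m j')) _
  rw [e1, h0, map_zero]

theorem evJ_lin_ne_zero {j : ℕ} {K : Ix m} (hK : ∃ l : Fin m, j ≤ l.val ∧ K l ≠ 0) :
    evJ m j (lin (-degI K)) ≠ 0 := by
  classical
  obtain ⟨l, hl, hKl⟩ := hK
  obtain ⟨s, hs⟩ : ∃ s, side (K l) s = 1 := by
    rcases lv_cases (K l) with e | e | e | e
    · exact absurd e hKl
    · exact ⟨true, by simp [e, side]⟩
    · exact ⟨false, by simp [e, side]⟩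
    · exact ⟨false, by simp [e, side]⟩
  show red2 _ (evKeep (keepJ m j) (lin (-degI K))) ≠ 0
  rw [lin_degKeep]
  intro h
  have h1 := congrArg (coeff (Finsupp.single (uI l s) 1)) h
  rw [red2, coeff_map, coeff_zero, lin, coeff_sum, Finset.sum_eq_single (uI l s)] at h1
  · rw [coeff_C_mul, coeff_X, if_pos rfl, mul_one] at h1
    have e : ofLex (degKeep (keepJ m j) (-degI K)) (uI l s) = -1 := by
      show (if keepJ m j (uI l s) then -(ofLex (degI K) (uI l s)) else 0) = -1
      rw [keepJ_uI, degI_apply, hs]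
      simp [bit, hl]
    rw [e] at h1
    revert h1
    decide
  · intro i _ hi
    rw [coeff_C_mul, coeff_X, if_neg (fun e => hi (Finsupp.single_left_injective one_ne_zero e)),
      mul_zero]
  · simp

/-- Polynomials of degree zero. -/
def deg0 (m n : ℕ) : Subring (RR m n) where
  carrier := {p | IsWeightedHomogeneous (wt m n) p 0}
  mul_mem' {a b} ha hb := by simpa using IsWeightedHomogeneous.mul ha hb
  one_mem' := isWeightedHomogeneous_one ℚ _
  add_mem' {a b} ha hb := IsWeightedHomogeneous.add ha hb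
  zero_mem' := isWeightedHomogeneous_zero _ _ _
  neg_mem' {a} ha := IsWeightedHomogeneous.neg ha

theorem det_mem_subring {S : Type} [CommRing S] {R : Subring S} {k : ℕ}
    {M : Matrix (Fin k) (Fin k) S} (h : ∀ a b, M a b ∈ R) : M.det ∈ R := by
  let M0 : Matrix (Fin k) (Fin k) R := fun a b => ⟨M a b, h a b⟩
  rw [show M.det = R.subtype M0.det by rw [RingHom.map_det]; rfl]
  exact M0.det.2

theorem adjugate_mem_subring {S : Type} [CommRing S] {R : Subring S} {k : ℕ}
    {M : Matrix (Fin k) (Fin k) S} (h : ∀ a b, M a b ∈ R) (a b : Fin k) :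
    M.adjugate a b ∈ R := by
  let M0 : Matrix (Fin k) (Fin k) R := fun a b => ⟨M a b, h a b⟩
  rw [show M.adjugate = M0.adjugate.map R.subtype by
    rw [← RingHom.mapMatrix_apply, RingHom.map_adjugate]; rfl]
  exact (M0.adjugate a b).2

theorem cov_Wel {Y : EE m n} (hY : Cov Y) (d : ℕ) : Cov (Wel d Y) := by
  have hg : ∀ a b : Fin d, gram d Y a b ∈ deg0 m n := fun a b => (hY.pow _).tau
  refine (Cov.smul (hY.pow d) (det_mem_subring hg)).sub (Cov.sum fun k _ =>
    Cov.smul (hY.pow _) ?_)
  exact (deg0 m n).sum_mem (t := Finset.univ) fun b _ =>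
    (deg0 m n).mul_mem (adjugate_mem_subring hg k b) ((hY.pow _).tau)

/-- The point used for the `i`-th auxiliary element. -/
def ptI (m : ℕ) {n : ℕ} (j : ℕ) (i : Fin n) : Var m n → ℚ
  | Sum.inl (l, _) => if l.val < j then 1 else 0
  | Sum.inr (a, I) => if a = Sum.inr i then (y0 m j).coe I.1 else 0

theorem y0_coe_ne_zero {j : ℕ} {I : Ix m} (h : (y0 m j).coe I ≠ 0) :
    ∃ l : Fin m, l.val < j ∧ I = Pix l := by
  by_contra hne
  push Not at hne
  apply h
  rw [y0, sum_coe]
  refine Finset.sum_eq_zero fun l hl => ?_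
  simp [Quat.e, Pi.single_eq_of_ne (hne l (Finset.mem_filter.1 hl).2)]

theorem ptI_degKeep {j : ℕ} {i : Fin n} (v : Var m n) (hv : ptI m j i v ≠ 0) :
    degKeep (keepJ m j) (wt m n v) = 0 := by
  refine ext_uI fun l' s' => ?_
  show (if keepJ m j (uI l' s') then ofLex (wt m n v) (uI l' s') else 0) = 0
  rw [keepJ_uI]
  by_cases hl' : j ≤ l'.val
  · rw [if_pos (by simpa using hl')]
    rcases v with ⟨l, s⟩ | ⟨a, I⟩
    · have hl : l.val < j := by
        by_contra h
        exact hv (if_neg h)
      show (Pi.single (uI l s) (2 : ℤ) : Fin (m + m) → ℤ) (uI l' s') = 0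
      refine Pi.single_eq_of_ne (fun e => ?_) _
      have := (uI_inj e).1
      subst this
      omega
    · have h : (y0 m j).coe I.1 ≠ 0 := by
        intro h
        apply hv
        show (if _ then _ else _) = _
        rw [h, ite_self]
      obtain ⟨l, hl, e⟩ := y0_coe_ne_zero h
      show -(ofLex (degI I.1) (uI l' s')) = 0
      rw [degI_apply, e, Pix_ne (fun e' : l' = l => by subst e'; omega)]
      cases s' <;> simp [bit, side]
  · simp [hl']

/-- The degree bounds at the `i`-th auxiliary element. -/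
def DegBound (q : Ideal (RR m n)) (i : Fin n) : Prop :=
  ∀ e, 2 ^ (i.val + 3) < e → (gram e (gen (Sum.inr i) : EE m n)).det ∈ q

theorem degBound_of_coords {q : Ideal (RR m n)} (hqp : q.IsPrime)
    (hq : (grd0 (wt m n)).Homog q) (i : Fin n) (hi : i.val + 3 ≤ m)
    (hlead : evJ m (i.val + 3) (lead (wt m n) (varList m n) q) ≠ 0)
    (hC : ∀ K ∈ Cset m (i.val + 3),
      (Wel (2 ^ (i.val + 3)) (gen (Sum.inr i) : EE m n)).coe K ∈ q) :
    DegBound q i := by
  set j := i.val + 3
  have hker : ∀ D ∈ q, eval (ptI m j i) D = 0 := by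
    intro D hD
    by_contra hne
    apply hlead
    have h := KK_vanish (wt m n) (keepJ m j) (varList_mem (m := m) (n := n)) (ptI m j i)
      ptI_degKeep hq hD hne
    have h1 := congrArg (PowerSeries.coeff (codim q)) h
    rw [PowerSeries.coeff_map, map_zero] at h1
    show red2 _ (evKeep _ _) = 0
    rw [lead, h1, map_zero]
  have := hqp
  let π : RR m n ⧸ q →+* ℚ := Ideal.Quotient.lift q (eval (ptI m j i)) hker
  set mk := Ideal.Quotient.mk q
  intro e he
  rw [← Ideal.Quotient.eq_zero_iff_mem, det_gram_map]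
  refine local_degree π hi (Quat.map mk (uVar m n) (gen (Sum.inr i) : EE m n)) ?_ ?_ ?_ e he
  · funext l s
    show π (mk (X (Sum.inl (l, s)))) = _
    simp [π, mk, ptI, u0, j]
  · funext I
    show π (mk ((gen (Sum.inr i) : EE m n).coe I)) = _
    by_cases hI : I = 0
    · subst hI
      rw [gen_coe_zero, map_zero, map_zero]
      by_contra hne
      obtain ⟨l, -, e⟩ := y0_coe_ne_zero (Ne.symm hne)
      have := congrFun e l
      rw [Pix_at, Pi.zero_apply] at this
      exact absurd this (by simp [Prod.ext_iff])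
    · rw [gen_coe (Sum.inr i) ⟨I, hI⟩]
      simp [π, mk, ptI, j]
  · intro K hK
    rw [← Wel_map, Quat.map_coe]
    exact Ideal.Quotient.eq_zero_iff_mem.2 (hC K hK)

theorem exists_prime_degrees : ∀ L : List (Fin n), L.Pairwise (fun a b => a ≤ b) →
    (∀ i ∈ L, i.val + 3 ≤ m) →
    ∃ q : Ideal (RR m n), q.IsPrime ∧ (grd0 (wt m n)).Homog q ∧ (∀ i ∈ L, DegBound q i) ∧
      codim q ≤ (L.map fun i => (Cset m (i.val + 3)).card).sum ∧
      ∀ j, (∀ i ∈ L, j ≤ i.val + 3) → evJ m j (lead (wt m n) (varList m n) q) ≠ 0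
  | [] => by
      intro _ _
      have hp : (⊥ : Ideal (RR m n)).IsPrime := Ideal.isPrime_bot
      have hc : codim (⊥ : Ideal (RR m n)) = 0 := by rw [codim, pdim_bot, Nat.sub_self]
      refine ⟨⊥, hp, Grd.homog_bot _, by simp, by simp [hc], fun j _ => ?_⟩
      rw [lead, hc, KK_bot (k := ℚ) (wt m n) varList_nodup varList_mem]
      simp
  | a :: L => by
      intro hs hm
      rw [List.pairwise_cons] at hs
      obtain ⟨q, hqp, hq, hdeg, hcod, hlead⟩ :=
        exists_prime_degrees L hs.2 (fun i hi => hm i (List.mem_cons_of_mem _ hi))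
      have hla : evJ m (a.val + 3) (lead (wt m n) (varList m n) q) ≠ 0 :=
        hlead _ fun i hi => by
          have : a.val ≤ i.val := hs.1 i hi
          omega
      let G : List (RR m n × Gr (m + m)) := (Cset m (a.val + 3)).toList.map fun K =>
        ((Wel (2 ^ (a.val + 3)) (gen (Sum.inr a) : EE m n)).coe K, -degI K)
      obtain ⟨q', hqp', hq', hle, hG, hc', hl'⟩ := steps (k := ℚ) (wt m n) lin_wt_ne_zero
        varList_nodup varList_mem (evJ m (a.val + 3)) G (by
          intro gd hgd
          obtain ⟨K, hK, rfl⟩ := List.mem_map.1 hgd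
          refine ⟨cov_Wel (cov_gen _) _ K, evJ_lin_ne_zero ?_⟩
          rw [Finset.mem_toList, Cset, Finset.mem_sdiff, mem_ACset, mem_Aset] at hK
          by_contra hne
          push Not at hne
          exact hK.2 ⟨hK.1, hne⟩) q hqp hq hla
      refine ⟨q', hqp', hq', ?_, ?_, fun j hj => evJ_mono (hj a List.mem_cons_self) hl'⟩
      · intro i hi
        rcases List.mem_cons.1 hi with e | hi
        · subst e
          exact degBound_of_coords hqp' hq' i (hm i List.mem_cons_self) hl' fun K hK =>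
            hG _ (List.mem_map.2 ⟨K, Finset.mem_toList.2 hK, rfl⟩)
        · exact fun e he => hle (hdeg i hi e he)
      · have hlen : G.length = (Cset m (a.val + 3)).card := by
          rw [List.length_map, Finset.length_toList]
        simp only [List.map_cons, List.sum_cons]
        omega

theorem sum_Cset_le (hm : n + 3 ≤ m) :
    4 * ∑ i : Fin n, (Cset m (i.val + 3)).card ≤ 4 ^ m := by
  have key : ∀ k, k ≤ n → (∑ i ∈ Finset.range k, (Cset m (i + 3)).card) * 2 ^ (k + 2) + 4 ^ m ≤
      4 ^ m * 2 ^ k := by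
    intro k
    induction k with
    | zero => simp
    | succ k ih =>
        intro hk
        have hc : (Cset m (k + 3)).card * 2 ^ (k + 3) ≤ 4 ^ m := by
          have h1 : (Cset m (k + 3)).card ≤ 2 ^ (k + 3) * 4 ^ (m - (k + 3)) := by
            rw [← card_ACset (m := m) (by omega)]
            exact Finset.card_le_card Finset.sdiff_subset
          calc (Cset m (k + 3)).card * 2 ^ (k + 3)
              ≤ 2 ^ (k + 3) * 4 ^ (m - (k + 3)) * 2 ^ (k + 3) := Nat.mul_le_mul_right _ h1
            _ = 4 ^ m := by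
              rw [mul_right_comm, ← mul_pow, show (2 : ℕ) * 2 = 4 by rfl, ← pow_add]
              congr 1
              omega
        have h2 := ih (by omega)
        rw [Finset.sum_range_succ, add_mul, show k + 1 + 2 = k + 3 by omega]
        have e1 : (2 : ℕ) ^ (k + 3) = 2 * 2 ^ (k + 2) := by ring
        have e2 : (2 : ℕ) ^ (k + 1) = 2 * 2 ^ k := by ring
        rw [e1] at hc
        rw [e1, e2]
        nlinarith
  have h := key n le_rfl
  rw [Finset.sum_range] at h
  refine Nat.le_of_mul_le_mul_right ?_ (show 0 < 2 ^ n by positivity)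
  have e : (2 : ℕ) ^ (n + 2) = 4 * 2 ^ n := by ring
  rw [e] at h
  calc (4 * ∑ i : Fin n, (Cset m (i.val + 3)).card) * 2 ^ n
      = (∑ i : Fin n, (Cset m (i.val + 3)).card) * (4 * 2 ^ n) := by ring
    _ ≤ 4 ^ m * 2 ^ n := le_trans (Nat.le_add_right _ _) h

theorem exists_prime (fexp : Fin n → Expr) (hm : n + 3 ≤ m) :
    ∃ q : Ideal (RR m n), q.IsPrime ∧ (grd0 (wt m n)).Homog q ∧
      red2 (m + m) (lead (wt m n) (varList m n) q) ≠ 0 ∧ (∀ i, DegBound q i) ∧
      (∀ (i : Fin n) (I : Ix m), I ≠ 0 → (gen (Sum.inr i) : EE m n).coe I -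
        ((fexp i).eval fun b => (gen (Sum.inl b) : EE m n)).coe I ∈ q) ∧
      8 * m + 7 * 4 ^ m ≤ 4 * pdim q + 8 := by
  classical
  have := sum_Cset_le (m := m) hm
  obtain ⟨q, hqp, hq, hdeg, hcod, hlead⟩ := exists_prime_degrees (m := m) (List.finRange n)
    (List.pairwise_le_finRange n) (fun i _ => by omega)
  have h0 := hlead 0 fun i _ => Nat.zero_le _
  rw [evJ_zero] at h0
  let G : List (RR m n × Gr (m + m)) :=
    (Finset.univ : Finset (Fin n × NZ m)).toList.map fun p =>
      ((gen (Sum.inr p.1) : EE m n).coe p.2.1 -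
        ((fexp p.1).eval fun b => (gen (Sum.inl b) : EE m n)).coe p.2.1, -degI p.2.1)
  obtain ⟨q', hqp', hq', hle, hG, hc', hl'⟩ := steps (k := ℚ) (wt m n) lin_wt_ne_zero
    varList_nodup varList_mem (red2 (m + m)) G (by
      intro gd hgd
      obtain ⟨⟨i, I⟩, -, rfl⟩ := List.mem_map.1 hgd
      refine ⟨(cov_gen _ I.1).sub (cov_eval _ I.1), ?_⟩
      rw [← evJ_zero]
      obtain ⟨l, hl⟩ := Function.ne_iff.1 I.2
      exact evJ_lin_ne_zero ⟨l, Nat.zero_le _, hl⟩) q hqp hq h0
  refine ⟨q', hqp', hq', hl', fun i e he => hle (hdeg i (List.mem_finRange i) e he),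
    fun i I hI => hG _ (List.mem_map.2 ⟨(i, ⟨I, hI⟩), Finset.mem_toList.2 (Finset.mem_univ _), rfl⟩),
    ?_⟩
  have hlen : G.length = n * Fintype.card (NZ m) := by
    rw [List.length_map, Finset.length_toList, Finset.card_univ, Fintype.card_prod,
      Fintype.card_fin]
  have hsum : ((List.finRange n).map fun i => (Cset m (i.val + 3)).card).sum =
      ∑ i : Fin n, (Cset m (i.val + 3)).card := (Fin.sum_univ_def _).symm
  have hNZ : Fintype.card (NZ m) + 1 = 4 ^ m := by
    rw [Fintype.card_subtype_compl, Fintype.card_subtype_eq]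
    simp only [Fintype.card_fun, Fintype.card_prod, ZMod.card, Fintype.card_fin]
    have : 1 ≤ (2 * 2) ^ m := Nat.one_le_pow _ _ (by norm_num)
    norm_num at this ⊢
    omega
  have hcard : Fintype.card (Var m n) = 2 * m + (2 + n) * Fintype.card (NZ m) := by
    simp only [Fintype.card_sum, Fintype.card_prod, Fintype.card_fin, Fintype.card_bool]
    ring
  have hp := pdim_le q'
  have hc2 : codim q' = Fintype.card (Var m n) - pdim q' := rfl
  rw [hcard] at hp hc2
  have hexp : (2 + n) * Fintype.card (NZ m) =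
      2 * Fintype.card (NZ m) + n * Fintype.card (NZ m) := by ring
  omega

end Vale.Agent.P199
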