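import Mathlib

/-!
Matrices commuting with an idempotent of half rank are described by few parameters.
-/

set_option linter.unusedSectionVars false

noncomputable section

namespace Vale.Agent.P199

open Matrix Module

variable {K : Type} [Field K] {ι : Type} [Fintype ι] [DecidableEq ι]

/-- A subspace in normalised graph form. -/
theorem exists_graph_basis (V : Submodule K (ι → K)) {h : ℕ} (hV : finrank K V = h) :
    ∃ (a : Fin h → ι) (G : Fin h → ι → K), Function.Injective a ∧ (∀ k, G k ∈ V) ∧
      (∀ k l, G k (a l) = if l = k then 1 else 0) ∧ LinearIndependent K G ∧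
      ∀ v ∈ V, v = ∑ l, v (a l) • G l := by
  classical
  let φ : ι → Dual K V := fun i => (LinearMap.proj i).comp V.subtype
  have hspan : Submodule.span K (Set.range φ) = ⊤ := by
    rw [eq_top_iff]
    intro f _
    obtain ⟨g, rfl⟩ := LinearMap.dualMap_surjective_of_injective V.injective_subtype f
    have e : V.subtype.dualMap g = ∑ i, g (Pi.single i 1) • φ i := by
      refine LinearMap.ext fun v => ?_
      show g (v : ι → K) = _
      rw [LinearMap.sum_apply]
      conv_lhs => rw [pi_eq_sum_univ' (v : ι → K)]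
      rw [map_sum]
      exact Finset.sum_congr rfl fun i _ => by simp [φ, mul_comm]
    rw [e]
    exact Submodule.sum_mem _ fun i _ => Submodule.smul_mem _ _ (Submodule.subset_span ⟨i, rfl⟩)
  obtain ⟨κ, a, ha, hsp, hli⟩ := exists_linearIndependent' K φ
  have := Finite.of_injective a ha
  have := Fintype.ofFinite κ
  have hcard : Fintype.card κ = h := by
    rw [← hV, ← Subspace.dual_finrank_eq,
      finrank_eq_card_basis (Basis.mk hli (by rw [hsp, hspan]))]
  let e : Fin h ≃ κ := (Fintype.equivFinOfCardEq hcard).symm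
  let Ψ : V →ₗ[K] (Fin h → K) := LinearMap.pi fun k => φ (a (e k))
  have hinj : Function.Injective Ψ := by
    rw [injective_iff_map_eq_zero]
    intro v hv
    have hall : ∀ f ∈ Submodule.span K (Set.range (φ ∘ a)), f v = 0 := by
      intro f hf
      induction hf using Submodule.span_induction with
      | mem f hf =>
          obtain ⟨x, rfl⟩ := hf
          simpa [Ψ] using congrFun hv (e.symm x)
      | zero => rfl
      | add f g _ _ hf hg => rw [LinearMap.add_apply, hf, hg, add_zero]
      | smul c f _ hf => rw [LinearMap.smul_apply, hf, smul_zero]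
    rw [hsp, hspan] at hall
    ext i
    exact hall (φ i) trivial
  let Φ := LinearMap.linearEquivOfInjective Ψ hinj (by simp [hV])
  have hΦ : ∀ w k, ((Φ.symm w : V) : ι → K) (a (e k)) = w k := fun w k =>
    congrFun (Φ.apply_symm_apply w) k
  refine ⟨a ∘ e, fun k => ((Φ.symm (Pi.single k 1) : V) : ι → K), ha.comp e.injective,
    fun k => Subtype.mem _, fun k l => ?_, ?_, fun v hv => ?_⟩
  · show ((Φ.symm (Pi.single k 1) : V) : ι → K) (a (e l)) = _
    rw [hΦ, Pi.single_apply]
  · have h1 := ((Pi.basisFun K (Fin h)).map Φ.symm).linearIndependent.map' V.subtype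
      V.ker_subtype
    have h2 : (fun k => ((Φ.symm (Pi.single k 1) : V) : ι → K)) =
        V.subtype ∘ ((Pi.basisFun K (Fin h)).map Φ.symm) := by funext k; simp
    rw [h2]
    exact h1
  · have h1 : Φ.symm (fun l => v (a (e l))) = ⟨v, hv⟩ :=
      (LinearEquiv.symm_apply_eq Φ).2 (funext fun l => rfl)
    have h2 : (fun l => v (a (e l))) = ∑ l, v (a (e l)) • (Pi.single l 1 : Fin h → K) :=
      pi_eq_sum_univ' _
    rw [h2, map_sum] at h1
    have h3 := congrArg V.subtype h1
    rw [map_sum] at h3
    simpa [map_smul] using h3.symm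

/-- The parameters of a subspace in graph form. -/
def graphParams {h : ℕ} [DecidableEq K] (a : Fin h → ι) (G : Fin h → ι → K) : Finset K :=
  ((Finset.univ \ Finset.univ.image a) ×ˢ Finset.univ).image fun p => G p.2 p.1

theorem card_graphParams {h : ℕ} [DecidableEq K] {a : Fin h → ι} (ha : Function.Injective a)
    (G : Fin h → ι → K) (hι : Fintype.card ι = 2 * h) :
    (graphParams a G).card ≤ h * h := by
  refine le_trans Finset.card_image_le ?_
  rw [Finset.card_product, Finset.card_sdiff, Finset.inter_univ,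
    Finset.card_image_of_injective _ ha, Finset.card_univ, Finset.card_univ, Fintype.card_fin,
    hι, two_mul, Nat.add_sub_cancel]

theorem graph_mem {h : ℕ} [DecidableEq K] {a : Fin h → ι} {G : Fin h → ι → K}
    (hpiv : ∀ k l, G k (a l) = if l = k then 1 else 0) {L : Subfield K}
    (hL : (graphParams a G : Set K) ⊆ L) (k : Fin h) (i : ι) : G k i ∈ L := by
  by_cases hi : i ∈ Finset.univ.image a
  · obtain ⟨l, -, rfl⟩ := Finset.mem_image.1 hi
    rw [hpiv]
    split_ifs
    · exact L.one_mem
    · exact L.zero_mem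
  · exact hL (Finset.mem_image.2 ⟨(i, k), by simp [hi], rfl⟩)

/-- Matrices commuting with an idempotent of half rank lie in a small field. -/
theorem exists_param [CharZero K] {P : Matrix ι ι K} (hP : P * P = P) {h : ℕ}
    (hι : Fintype.card ι = 2 * h) (htr : P.trace = (h : K)) (M : Bool → Matrix ι ι K)
    (hM : ∀ b, M b * P = P * M b) :
    ∃ S : Finset K, S.card ≤ 6 * (h * h) ∧ ∀ b i j, M b i j ∈ Subfield.closure (S : Set K) := by
  classical
  set p := Matrix.toLin' P
  have hp : IsIdempotentElem p := by
    show p * p = p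
    rw [Module.End.mul_eq_comp, ← Matrix.toLin'_mul, hP]
  have hV : finrank K (LinearMap.range p) = h := by
    have h1 := (LinearMap.IsIdempotentElem.isProj_range _ hp).trace
    rw [show LinearMap.trace K (ι → K) p = P.trace from Matrix.trace_toLin'_eq P, htr] at h1
    exact_mod_cast h1.symm
  have hW : finrank K (LinearMap.ker p) = h := by
    have h1 := LinearMap.finrank_range_add_finrank_ker p
    rw [hV, Module.finrank_pi, hι] at h1
    omega
  obtain ⟨a, G, ha, hGV, hGa, hGli, hGv⟩ := exists_graph_basis _ hV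
  obtain ⟨a', G', ha', hGW, hGa', hGli', hGv'⟩ := exists_graph_basis _ hW
  -- invariance
  have hcomm : ∀ b v, p (M b *ᵥ v) = M b *ᵥ p v := fun b v => by
    simp [p, Matrix.mulVec_mulVec, hM b]
  have hinvV : ∀ b k, M b *ᵥ G k ∈ LinearMap.range p := fun b k => by
    obtain ⟨w, hw⟩ := hGV k
    exact ⟨M b *ᵥ w, by rw [hcomm, hw]⟩
  have hinvW : ∀ b k, M b *ᵥ G' k ∈ LinearMap.ker p := fun b k => by
    rw [LinearMap.mem_ker, hcomm, LinearMap.mem_ker.1 (hGW k), Matrix.mulVec_zero]
  let c : Fin h ⊕ Fin h → ι → K := Sum.elim G G'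
  have hc : LinearIndependent K c := by
    refine hGli.sum_type hGli' ?_
    have h1 : Submodule.span K (Set.range G) ≤ LinearMap.range p :=
      Submodule.span_le.2 (by rintro _ ⟨k, rfl⟩; exact hGV k)
    have h2 : Submodule.span K (Set.range G') ≤ LinearMap.ker p :=
      Submodule.span_le.2 (by rintro _ ⟨k, rfl⟩; exact hGW k)
    refine Disjoint.mono h1 h2 ?_
    rw [Submodule.disjoint_def]
    rintro x ⟨w, rfl⟩ hx
    rw [← LinearMap.mem_ker.1 hx, ← Module.End.mul_apply, hp.eq]
  let e : ι ≃ Fin h ⊕ Fin h := Fintype.equivOfCardEq (by simp [hι]; omega)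
  let g : Matrix ι ι K := fun i j => c (e j) i
  let Bk : Bool → Matrix (Fin h ⊕ Fin h) (Fin h ⊕ Fin h) K := fun b =>
    Matrix.fromBlocks (fun l k => (M b *ᵥ G k) (a l)) 0 0 (fun l k => (M b *ᵥ G' k) (a' l))
  let B : Bool → Matrix ι ι K := fun b => (Bk b).submatrix e e
  have hMg : ∀ b, M b * g = g * B b := by
    intro b
    ext i j
    show (M b *ᵥ c (e j)) i = ∑ x, c (e x) i * Bk b (e x) (e j)
    rw [Equiv.sum_comp e (fun y => c y i * Bk b y (e j)), Fintype.sum_sum_type]
    rcases e j with k | k
    · have h1 := congrFun (hGv _ (hinvV b k)) i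
      simp only [c, Sum.elim_inl] at h1 ⊢
      rw [h1]
      simp [Bk, Matrix.fromBlocks, Finset.sum_apply, mul_comm]
    · have h1 := congrFun (hGv' _ (hinvW b k)) i
      simp only [c, Sum.elim_inr] at h1 ⊢
      rw [h1]
      simp [Bk, Matrix.fromBlocks, Finset.sum_apply, mul_comm]
  have hgu : IsUnit g := by
    rw [← Matrix.linearIndependent_cols_iff_isUnit]
    exact hc.comp e e.injective
  set S1 : Finset K := graphParams a G ∪ graphParams a' G'
  set S2 : Finset K := (Finset.univ : Finset (Bool × Fin h × Fin h)).image fun p =>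
    (M p.1 *ᵥ G p.2.1) (a p.2.2)
  set S3 : Finset K := (Finset.univ : Finset (Bool × Fin h × Fin h)).image fun p =>
    (M p.1 *ᵥ G' p.2.1) (a' p.2.2)
  refine ⟨S1 ∪ S2 ∪ S3, ?_, fun b => ?_⟩
  · have h1 := Finset.card_union_le (S1 ∪ S2) S3
    have h2 := Finset.card_union_le S1 S2
    have h3 := Finset.card_union_le (graphParams a G) (graphParams a' G')
    have h4 := card_graphParams ha G hι
    have h5 := card_graphParams ha' G' hι
    have h6 : S2.card ≤ 2 * (h * h) := le_trans Finset.card_image_le (by simp)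
    have h7 : S3.card ≤ 2 * (h * h) := le_trans Finset.card_image_le (by simp)
    change (S1 ∪ S2 ∪ S3).card ≤ _
    have h8 : S1.card ≤ h * h + h * h := h3.trans (Nat.add_le_add h4 h5)
    omega
  set L := Subfield.closure ((S1 ∪ S2 ∪ S3 : Finset K) : Set K)
  have hsub : ((S1 ∪ S2 ∪ S3 : Finset K) : Set K) ⊆ L := Subfield.subset_closure
  have hg : ∀ i j, g i j ∈ L := by
    intro i j
    show c (e j) i ∈ L
    rcases e j with k | k
    · exact graph_mem hGa (fun x hx => hsub (by
        simp only [S1, Finset.coe_union, Set.mem_union]; tauto)) k i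
    · exact graph_mem hGa' (fun x hx => hsub (by
        simp only [S1, Finset.coe_union, Set.mem_union]; tauto)) k i
  have hB : ∀ i j, B b i j ∈ L := by
    intro i j
    show Bk b (e i) (e j) ∈ L
    rcases e i with l | l <;> rcases e j with k | k
    · exact hsub (Finset.mem_union_left _ (Finset.mem_union_right _
        (Finset.mem_image.2 ⟨(b, k, l), Finset.mem_univ _, rfl⟩)))
    · exact L.zero_mem
    · exact L.zero_mem
    · exact hsub (Finset.mem_union_right _
        (Finset.mem_image.2 ⟨(b, k, l), Finset.mem_univ _, rfl⟩))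
  let gL : Matrix ι ι L := fun i j => ⟨g i j, hg i j⟩
  let BL : Matrix ι ι L := fun i j => ⟨B b i j, hB i j⟩
  have hdet : g.det ≠ 0 := ((Matrix.isUnit_iff_isUnit_det g).1 hgu).ne_zero
  have hdetL : L.subtype gL.det = g.det := by rw [RingHom.map_det]; rfl
  have hM' : M b = ((gL * BL * gL.adjugate).map L.subtype).map (fun x => x * (g.det)⁻¹) := by
    rw [Matrix.map_mul, Matrix.map_mul,
      show gL.adjugate.map L.subtype = g.adjugate by
        rw [← RingHom.mapMatrix_apply, RingHom.map_adjugate]; rfl,
      show gL.map L.subtype = g from rfl, show BL.map L.subtype = B b from rfl, ← hMg,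
      Matrix.mul_assoc, Matrix.mul_adjugate, Matrix.mul_smul, Matrix.mul_one]
    ext i j
    simp [mul_comm g.det, mul_assoc, hdet]
  intro i j
  rw [hM', Matrix.map_apply, Matrix.map_apply, ← hdetL]
  exact L.mul_mem (Subtype.mem _) (L.inv_mem (Subtype.mem _))

end Vale.Agent.P199
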