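import Vale.Agent.P199.Idem
import Vale.Agent.P199.Param

/-!
Two elements with many independent coordinates generate the algebra.
-/

set_option linter.unusedSectionVars false

noncomputable section

namespace Vale.Agent.P199

variable {m : ℕ} {F : Type} [Field F] {u : Fin m → Bool → F}

theorem kap_self_ne_zero (hdiv : ∀ a b : Quat u, a * b = 0 → a = 0 ∨ b = 0) (I : Ix m) :
    kap u I I ≠ 0 := by
  intro h
  have h1 : Quat.e u I * Quat.e u I = 0 := by rw [Quat.e_mul_e, h, zero_smul]
  have h2 : Quat.e u I ≠ 0 := fun e => one_ne_zero (α := F) (by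
    simpa [Quat.e] using congrFun (congrArg Quat.coe e) I)
  exact h2 ((hdiv _ _ h1).elim id id)

theorem inv_mem (hdiv : ∀ a b : Quat u, a * b = 0 → a = 0 ∨ b = 0)
    (Δ : Subalgebra F (Quat u)) {z : Quat u} (hz : z ∈ Δ) (h0 : z ≠ 0) :
    ∃ w ∈ Δ, z * w = 1 := by
  let L : Δ →ₗ[F] Δ := LinearMap.mulLeft F (⟨z, hz⟩ : Δ)
  have hinj : Function.Injective L := by
    rw [injective_iff_map_eq_zero]
    intro w hw
    exact Subtype.ext ((hdiv _ _ (congrArg Subtype.val hw)).resolve_left h0)
  obtain ⟨w, hw⟩ := LinearMap.injective_iff_surjective.1 hinj 1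
  exact ⟨w, w.2, congrArg Subtype.val hw⟩

theorem sum_conj (hk : ∀ I : Ix m, kap u I I ≠ 0) (y : Quat u) :
    ∑ I : Ix m, (kap u I I)⁻¹ • (Quat.e u I * y * Quat.e u I) =
      ((4 : F) ^ m * Quat.tau y) • (1 : Quat u) := by
  classical
  have key : ∀ I J, (kap u I I)⁻¹ • (Quat.e u I * Quat.e u J * Quat.e u I) =
      (eps I J : F) • Quat.e u J := fun I J => by
    rw [Quat.e_comm, smul_mul_assoc, mul_assoc, Quat.e_mul_e, ix_add_self, Quat.e_zero,
      mul_smul_comm, mul_one, smul_smul, smul_smul, mul_right_comm, inv_mul_cancel₀ (hk I),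
      one_mul]
  conv_lhs => rw [← Quat.sum_e y]
  simp only [Finset.mul_sum, Finset.sum_mul, mul_smul_comm, smul_mul_assoc, Finset.smul_sum]
  rw [Finset.sum_comm]
  simp only [smul_comm ((kap u _ _)⁻¹) (y.coe _), key, ← Finset.smul_sum, ← Finset.sum_smul]
  rw [Finset.sum_eq_single (0 : Ix m)]
  · rw [← Int.cast_sum, eps_sum, if_pos rfl, Quat.e_zero, smul_smul, Quat.tau_apply, mul_comm]
    push_cast
    rfl
  · intro J _ hJ
    rw [← Int.cast_sum, eps_sum, if_neg hJ, Int.cast_zero, zero_smul, smul_zero]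
  · simp

theorem eq_zero_of_sum_mul [CharZero F] (hk : ∀ I : Ix m, kap u I I ≠ 0) (v : Ix m → Quat u)
    (h : ∀ z, ∑ I, Quat.e u I * z * v I = 0) (J : Ix m) : v J = 0 := by
  classical
  have h1 : ∑ K, ((kap u K K)⁻¹ • (Quat.e u K * ((kap u J J)⁻¹ • Quat.e u J))) *
      (∑ I, Quat.e u I * Quat.e u K * v I) = 0 := by simp only [h, mul_zero, Finset.sum_const_zero]
  simp only [Finset.mul_sum] at h1
  rw [Finset.sum_comm] at h1
  have h2 : ∀ I, ∑ K, ((kap u K K)⁻¹ • (Quat.e u K * ((kap u J J)⁻¹ • Quat.e u J))) *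
      (Quat.e u I * Quat.e u K * v I) =
      ((4 : F) ^ m * Quat.tau (((kap u J J)⁻¹ • Quat.e u J) * Quat.e u I)) • v I := fun I => by
    have := congrArg (· * v I) (sum_conj hk (((kap u J J)⁻¹ • Quat.e u J) * Quat.e u I))
    simp only [Finset.sum_mul, smul_mul_assoc, one_mul] at this
    refine Eq.trans (Finset.sum_congr rfl fun K _ => ?_) (this.trans ?_)
    · simp only [smul_mul_assoc, mul_assoc]
    · simp only [smul_mul_assoc]
  rw [Finset.sum_congr rfl fun I _ => h2 I, Finset.sum_eq_single J] at h1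
  · refine (smul_eq_zero.1 h1).resolve_left (mul_ne_zero (pow_ne_zero _ (by norm_num)) ?_)
    rw [smul_mul_assoc, map_smul, Quat.e_mul_e, map_smul, ix_add_self, Quat.e_zero, Quat.tau_one,
      smul_eq_mul, smul_eq_mul, mul_one, inv_mul_cancel₀ (hk J)]
    exact one_ne_zero
  · intro I _ hI
    rw [smul_mul_assoc, Quat.e_mul_e, map_smul, map_smul,
      show Quat.tau (Quat.e u (J + I)) = 0 from Pi.single_eq_of_ne (fun e => hI (by
        rw [← add_zero I, e, add_left_comm, ix_add_self, add_zero])) 1]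
    simp
  · simp

/-- A proper subalgebra has a nonscalar element in its centraliser. -/
theorem exists_commutant [CharZero F] (hdiv : ∀ a b : Quat u, a * b = 0 → a = 0 ∨ b = 0)
    (Δ : Subalgebra F (Quat u)) (hΔ : Δ ≠ ⊤) :
    ∃ z, z ∉ Set.range (algebraMap F (Quat u)) ∧ ∀ a ∈ Δ, a * z = z * a := by
  classical
  have hk := kap_self_ne_zero hdiv
  by_contra hno
  push Not at hno
  let B : LinearMap.BilinForm F Δ := LinearMap.mk₂ F
    (fun a b => Quat.tau ((a : Quat u) * (b : Quat u)))
    (fun a a' b => by simp [add_mul])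
    (fun c a b => by simp)
    (fun a b b' => by simp [mul_add])
    (fun c a b => by simp)
  have hB : B.Nondegenerate := by
    constructor <;> intro a ha <;> by_contra h0
    all_goals obtain ⟨w, hw, hw1⟩ := inv_mem hdiv Δ a.2 (fun e => h0 (Subtype.ext e))
    · have h1 : Quat.tau ((a : Quat u) * w) = 0 := ha ⟨w, hw⟩
      rw [hw1, Quat.tau_one] at h1
      exact one_ne_zero h1
    · have h1 : Quat.tau (w * (a : Quat u)) = 0 := ha ⟨w, hw⟩
      rw [Quat.tau_mul_comm, hw1, Quat.tau_one] at h1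
      exact one_ne_zero h1
  let b := Module.finBasis F Δ
  let bd := B.dualBasis hB b
  have exp2 : ∀ w : Δ, (w : Quat u) = ∑ i, B w (b i) • (bd i : Quat u) := fun w => by
    conv_lhs => rw [← bd.sum_repr w]
    simp [bd]
  have exp1 : ∀ w : Δ, (w : Quat u) = ∑ j, B (bd j) w • (b j : Quat u) := fun w => by
    have hrep : ∀ j, B (bd j) w = b.repr w j := fun j => by
      conv_lhs => rw [← b.sum_repr w]
      simp only [map_sum, map_smul, smul_eq_mul, bd, LinearMap.BilinForm.apply_dualBasis_left]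
      rw [Finset.sum_eq_single j] <;> simp +contextual
    simp only [hrep]
    conv_lhs => rw [← b.sum_repr w]
    rw [AddSubmonoidClass.coe_finsetSum]
    rfl
  let Φ : Quat u → Quat u := fun z => ∑ i, (b i : Quat u) * z * (bd i : Quat u)
  have hΦ : ∀ z, ∀ a ∈ Δ, a * Φ z = Φ z * a := by
    intro z a ha
    simp only [Φ, Finset.mul_sum, Finset.sum_mul]
    have l : ∀ i, a * ((b i : Quat u) * z * (bd i : Quat u)) =
        ∑ j, B (bd j) (⟨a, ha⟩ * b i) • ((b j : Quat u) * z * (bd i : Quat u)) := fun i => by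
      rw [← mul_assoc, ← mul_assoc, show a * (b i : Quat u) = ((⟨a, ha⟩ * b i : Δ) : Quat u) from rfl,
        exp1 (⟨a, ha⟩ * b i)]
      simp only [Finset.sum_mul, smul_mul_assoc]
    have r : ∀ j, (b j : Quat u) * z * (bd j : Quat u) * a =
        ∑ i, B (bd j * ⟨a, ha⟩) (b i) • ((b j : Quat u) * z * (bd i : Quat u)) := fun j => by
      rw [mul_assoc, show (bd j : Quat u) * a = ((bd j * ⟨a, ha⟩ : Δ) : Quat u) from rfl,
        exp2 (bd j * ⟨a, ha⟩)]
      simp only [Finset.mul_sum, mul_smul_comm]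
    rw [Finset.sum_congr rfl fun i _ => l i, Finset.sum_congr rfl fun j _ => r j, Finset.sum_comm]
    refine Finset.sum_congr rfl fun j _ => Finset.sum_congr rfl fun i _ => ?_
    congr 1
    show Quat.tau ((bd j : Quat u) * (a * (b i : Quat u))) =
      Quat.tau ((bd j : Quat u) * a * (b i : Quat u))
    rw [mul_assoc]
  set c : Quat u := ∑ i, (bd i : Quat u) * (b i : Quat u) with hc
  have hscal : ∀ z, Φ z = Quat.tau (z * c) • (1 : Quat u) := by
    intro z
    obtain ⟨s, hs⟩ : Φ z ∈ Set.range (algebraMap F (Quat u)) := by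
      by_contra h
      obtain ⟨a, ha, hne⟩ := hno _ h
      exact hne (hΦ z a ha)
    have h1 : Quat.tau (Φ z) = Quat.tau (z * c) := by
      simp only [Φ, hc, Finset.mul_sum, map_sum]
      refine Finset.sum_congr rfl fun i _ => ?_
      rw [mul_assoc, Quat.tau_mul_comm, mul_assoc]
    rw [← hs, Algebra.algebraMap_eq_smul_one] at h1 ⊢
    rw [map_smul, Quat.tau_one, smul_eq_mul, mul_one] at h1
    rw [h1]
  let v : Ix m → Quat u := fun I => c * ((kap u I I)⁻¹ • Quat.e u I) -
    (4 : F) ^ m • ∑ i, (b i : Quat u).coe I • (bd i : Quat u)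
  have hv : ∀ I, v I = 0 := by
    refine eq_zero_of_sum_mul hk v fun z => ?_
    have h1 := sum_conj hk (z * c)
    have h2 : ∑ I, Quat.e u I * z * (∑ i, (b i : Quat u).coe I • (bd i : Quat u)) = Φ z := by
      simp only [Finset.mul_sum, mul_smul_comm, Φ]
      rw [Finset.sum_comm]
      refine Finset.sum_congr rfl fun i _ => ?_
      conv_rhs => rw [← Quat.sum_e (b i : Quat u)]
      simp only [Finset.sum_mul, smul_mul_assoc]
    simp only [v, mul_sub, Finset.sum_sub_distrib, mul_smul_comm, ← Finset.smul_sum]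
    rw [h2, hscal, smul_smul, sub_eq_zero, ← h1]
    exact Finset.sum_congr rfl fun I _ => by simp only [mul_assoc]
  obtain ⟨f, hf0, hfΔ⟩ := Submodule.exists_dual_map_eq_bot_of_lt_top
    (p := Δ.toSubmodule) (lt_top_iff_ne_top.2 fun e => hΔ (Algebra.toSubmodule_eq_top.1 e))
    inferInstance
  have hfb : ∀ a ∈ Δ, f a = 0 := fun a ha =>
    (Submodule.mem_bot F).1 (hfΔ ▸ Submodule.mem_map_of_mem (f := f) ha)
  have hc0 : c = 0 := by
    set w : Quat u := ∑ I, f (Quat.e u I) • ((kap u I I)⁻¹ • Quat.e u I) with hw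
    have hw0 : w ≠ 0 := by
      intro e
      apply hf0
      refine (Quat.basis u).ext fun I => ?_
      have hcoe : w.coe I = f (Quat.e u I) * (kap u I I)⁻¹ := by
        rw [hw, show ∀ s : Ix m → Quat u, (∑ J, s J).coe I = ∑ J, (s J).coe I from fun s => by
          rw [show (∑ J, s J).coe = ∑ J, (s J).coe from map_sum Quat.coeHom _ _, Finset.sum_apply],
          Finset.sum_eq_single I]
        · simp [Quat.e]
        · intro J _ hJ; simp [Quat.e, Pi.single_eq_of_ne (Ne.symm hJ)]
        · simp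
      rw [e] at hcoe
      have he : (Quat.basis u) I = Quat.e u I := by
        ext K; simp [Quat.basis, Quat.e]
      rw [he, LinearMap.zero_apply]
      exact (mul_eq_zero.1 hcoe.symm).resolve_right (inv_ne_zero (hk I))
    have h0 : c * w = 0 := by
      have h1 : ∀ I, c * ((kap u I I)⁻¹ • Quat.e u I) =
          (4 : F) ^ m • ∑ i, (b i : Quat u).coe I • (bd i : Quat u) :=
        fun I => sub_eq_zero.1 (hv I)
      rw [hw, Finset.mul_sum]
      simp only [mul_smul_comm] at h1 ⊢
      simp only [h1, Finset.smul_sum, smul_smul]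
      rw [Finset.sum_comm]
      refine Finset.sum_eq_zero fun i _ => ?_
      rw [← Finset.sum_smul]
      have h2 : ∑ I, (b i : Quat u).coe I * f (Quat.e u I) = 0 := by
        have := hfb _ (b i).2
        rw [← Quat.sum_e (b i : Quat u), map_sum] at this
        simpa using this
      rw [show ∑ I, f (Quat.e u I) * ((4 : F) ^ m * (b i : Quat u).coe I) =
          (4 : F) ^ m * ∑ I, (b i : Quat u).coe I * f (Quat.e u I) by
        rw [Finset.mul_sum]; exact Finset.sum_congr rfl fun I _ => by ring, h2, mul_zero, zero_smul]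
    exact (hdiv _ _ h0).resolve_right hw0
  have hb0 : ∀ i, b i = 0 := by
    intro i
    refine Subtype.ext (Quat.ext (funext fun I => ?_))
    have h1 := hv I
    simp only [v, hc0, zero_mul, zero_sub, neg_eq_zero, smul_eq_zero,
      pow_ne_zero m (show (4 : F) ≠ 0 by norm_num), false_or] at h1
    have h2 : ∑ j, (b j : Quat u).coe I • bd j = 0 := Subtype.ext (by simpa using h1)
    exact Fintype.linearIndependent_iff.1 bd.linearIndependent _ h2 i
  have : (1 : Δ) = 0 := by
    rw [← b.sum_repr (1 : Δ)]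
    simp [hb0]
  exact one_ne_zero (congrArg Subtype.val this)

theorem trdeg_adjoin_le {Ω : Type} [Field Ω] [Algebra ℚ Ω] (T : Finset Ω) :
    Algebra.trdeg ℚ (IntermediateField.adjoin ℚ (T : Set Ω)) ≤ (T.card : Cardinal) := by
  have hf : FaithfulSMul ℚ (Algebra.adjoin ℚ (T : Set Ω)) :=
    (faithfulSMul_iff_algebraMap_injective _ _).2 (RingHom.injective _)
  open scoped IntermediateField.algebraAdjoinAdjoin in
  have h1 := trdeg_add_eq ℚ (Algebra.adjoin ℚ (T : Set Ω))
    (A := IntermediateField.adjoin ℚ (T : Set Ω))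
  open scoped IntermediateField.algebraAdjoinAdjoin in
  rw [trdeg_eq_zero (R := Algebra.adjoin ℚ (T : Set Ω)), add_zero] at h1
  rw [← h1]
  have hr : (MvPolynomial.aeval (Subtype.val : ↥(T : Set Ω) → Ω) :
      MvPolynomial ↥(T : Set Ω) ℚ →ₐ[ℚ] Ω).range = Algebra.adjoin ℚ (T : Set Ω) := by
    rw [← Algebra.adjoin_range_eq_range_aeval, Subtype.range_coe]
  rw [← hr]
  refine (trdeg_le_of_surjective _
    (AlgHom.rangeRestrict_surjective (MvPolynomial.aeval (Subtype.val : ↥(T : Set Ω) → Ω)))).trans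
    (le_of_eq ?_)
  rw [MvPolynomial.trdeg_of_isDomain, Cardinal.lift_id]
  simp

/-- Two elements with a large field of coordinates generate the algebra. -/
theorem generates [CharZero F] (hdiv : ∀ a b : Quat u, a * b = 0 → a = 0 ∨ b = 0)
    (x : Bool → Quat u)
    (hgen : Subfield.closure (Set.range (fun p : Fin m × Bool => u p.1 p.2) ∪
      Set.range (fun p : Bool × Ix m => (x p.1).coe p.2)) = ⊤)
    {d : ℕ} (hd : (d : Cardinal) ≤ Algebra.trdeg ℚ F) (hbig : 8 * m + 7 * 4 ^ m ≤ 4 * d + 8)
    (hm : 2 ≤ m) : Algebra.adjoin F (Set.range x) = ⊤ := by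
  classical
  by_contra hne
  obtain ⟨z, hz, hcomm⟩ := exists_commutant hdiv _ hne
  let Ω := AlgebraicClosure F
  have : CharZero Ω := charZero_of_injective_algebraMap (algebraMap F Ω).injective
  choose r hr using fun p : Fin m × Bool =>
    IsAlgClosed.exists_pow_nat_eq (algebraMap F Ω (u p.1 p.2)) (n := 2) two_pos
  let r' : Fin m → Bool → Ω := fun l s => r (l, s)
  have hr' : ∀ l s, r' l s * r' l s = algebraMap F Ω (u l s) := fun l s => by
    rw [← sq]; exact hr (l, s)
  obtain ⟨h, P, hh, hP, htr, hPc⟩ := exists_half_idem hdiv r' hr' z hz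
  obtain ⟨S, hS, hM⟩ := exists_param hP (by simpa using hh.symm) htr
    (fun b => rho r' hr' (x b))
    (fun b => hPc _ (hcomm _ (Algebra.subset_adjoin (Set.mem_range_self b))))
  let T : Finset Ω := S ∪ Finset.univ.image r
  set K0 := IntermediateField.adjoin ℚ (T : Set Ω) with hK0
  have hSK : Subfield.closure (S : Set Ω) ≤ K0.toSubfield :=
    Subfield.closure_le.2 fun y hy =>
      IntermediateField.subset_adjoin ℚ _ (Finset.mem_union_left _ hy)
  have hrK : ∀ l s, r' l s ∈ K0 := fun l s =>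
    IntermediateField.subset_adjoin ℚ _
      (Finset.mem_union_right _ (Finset.mem_image_of_mem _ (Finset.mem_univ (l, s))))
  have huK : ∀ l s, algebraMap F Ω (u l s) ∈ K0 := fun l s => by
    rw [← hr']; exact mul_mem (hrK l s) (hrK l s)
  have hmon : ∀ I i k, mon r' I i k ∈ K0 := by
    intro I i k
    unfold mon cf
    split_ifs
    · refine prod_mem fun l _ => ?_
      unfold cf1
      refine mul_mem ?_ ?_ <;> split_ifs <;>
        first | exact one_mem _ | exact neg_mem (hrK _ _) | exact hrK _ _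
    · exact zero_mem _
  have hxK : ∀ b I, algebraMap F Ω ((x b).coe I) ∈ K0 := by
    intro b I
    have h1 : (rho r' hr' (x b) * mon r' I).trace ∈ K0 := by
      simp only [Matrix.trace, Matrix.diag_apply, Matrix.mul_apply]
      exact sum_mem fun i _ => sum_mem fun k _ => mul_mem (hSK (hM b i k)) (hmon I k i)
    rw [trace_rho_mul_mon] at h1
    have hkap : algebraMap F Ω (kap u I I) ∈ K0 := by
      rw [kap_map]
      unfold kap kap1
      refine prod_mem fun l _ => ?_
      refine mul_mem (mul_mem ?_ ?_) ?_ <;> split_ifs <;>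
        first | exact one_mem _ | exact neg_mem (one_mem _) | exact huK _ _
    have h2 : algebraMap F Ω (kap u I I) ≠ 0 := by
      simpa using kap_self_ne_zero hdiv I
    have h3 : algebraMap F Ω ((x b).coe I) =
        (2 : Ω) ^ m * algebraMap F Ω ((x b).coe I) * algebraMap F Ω (kap u I I) /
          ((2 : Ω) ^ m * algebraMap F Ω (kap u I I)) := by
      rw [eq_div_iff (mul_ne_zero (pow_ne_zero _ two_ne_zero) h2)]; ring
    rw [h3]
    exact div_mem h1 (mul_mem (pow_mem (ofNat_mem K0 2) m) hkap)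
  have hall : ∀ y : F, algebraMap F Ω y ∈ K0.toSubfield := by
    intro y
    have hle : (⊤ : Subfield F) ≤ K0.toSubfield.comap (algebraMap F Ω) := by
      rw [← hgen, Subfield.closure_le]
      rintro _ (⟨⟨l, s⟩, rfl⟩ | ⟨⟨b, I⟩, rfl⟩)
      · exact huK l s
      · exact hxK b I
    exact hle trivial
  let φ : F →+* K0 := (algebraMap F Ω).codRestrict K0 hall
  have hφ : Function.Injective φ := φ.injective
  have h1 : (d : Cardinal) ≤ (T.card : Cardinal) :=
    hd.trans ((trdeg_le_of_injective φ.toRatAlgHom hφ).trans (trdeg_adjoin_le T))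
  have h2 : d ≤ T.card := by exact_mod_cast h1
  have h3 : T.card ≤ 6 * (h * h) + 2 * m := by
    refine (Finset.card_union_le _ _).trans (Nat.add_le_add hS ?_)
    refine Finset.card_image_le.trans ?_
    simp [mul_comm]
  have h4 : 4 ^ m = 4 * (h * h) := by
    rw [show (4 : ℕ) = 2 * 2 from rfl, mul_pow, ← hh]; ring
  have h5 : 16 ≤ 4 ^ m := Nat.pow_le_pow_right (show 0 < 4 by norm_num) hm
  omega

end Vale.Agent.P199
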