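import Mathlib

/-!
Tensor products of quaternion algebras over a commutative ring.
-/

set_option linter.unusedSectionVars false

noncomputable section

namespace Vale.Agent.P199

/-- Exponents at one level. -/
abbrev Lv := ZMod 2 × ZMod 2

/-- Monomial indices. -/
abbrev Ix (m : ℕ) := Fin m → Lv

variable {m : ℕ} {S : Type} [CommRing S]

theorem zmod2_cases (x : ZMod 2) : x = 0 ∨ x = 1 := by revert x; decide

theorem lv_cases (x : Lv) : x = (0, 0) ∨ x = (0, 1) ∨ x = (1, 0) ∨ x = (1, 1) := by
  revert x; decide

theorem lv_add_self (x : Lv) : x + x = 0 := by revert x; decide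

theorem ix_add_self (I : Ix m) : I + I = 0 := funext fun l => lv_add_self (I l)

theorem ix_neg (I : Ix m) : -I = I := neg_eq_of_add_eq_zero_left (ix_add_self I)

theorem ix_sub (I J : Ix m) : I - J = I + J := by rw [sub_eq_add_neg, ix_neg]

/-- The structure constant at one level: `P^a R^b P^c R^d`. -/
def kap1 (u v : S) (x y : Lv) : S :=
  (if x.2 = 1 ∧ y.1 = 1 then -1 else 1) * (if x.1 = 1 ∧ y.1 = 1 then u else 1) *
    (if x.2 = 1 ∧ y.2 = 1 then v else 1)

/-- The commutation sign at one level. -/
def eps1 (x y : Lv) : ℤ :=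
  (if x.2 = 1 ∧ y.1 = 1 then -1 else 1) * (if x.1 = 1 ∧ y.2 = 1 then -1 else 1)

theorem kap1_assoc (u v : S) (x y z : Lv) :
    kap1 u v x y * kap1 u v (x + y) z = kap1 u v y z * kap1 u v x (y + z) := by
  rcases lv_cases x with rfl | rfl | rfl | rfl <;> rcases lv_cases y with rfl | rfl | rfl | rfl <;>
    rcases lv_cases z with rfl | rfl | rfl | rfl <;>
    simp [kap1, show (1 : ZMod 2) + 1 = 0 by decide] <;> ring

theorem kap1_comm (u v : S) (x y : Lv) : kap1 u v x y = (eps1 x y : S) * kap1 u v y x := by
  rcases lv_cases x with rfl | rfl | rfl | rfl <;> rcases lv_cases y with rfl | rfl | rfl | rfl <;>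
    simp [kap1, eps1]

theorem kap1_zero (u v : S) (x : Lv) : kap1 u v 0 x = 1 ∧ kap1 u v x 0 = 1 := by
  simp [kap1]

theorem eps1_sum (y : Lv) : ∑ x : Lv, eps1 x y = if y = 0 then 4 else 0 := by
  revert y; decide

theorem kap1_map {T : Type} [CommRing T] (φ : S →+* T) (u v : S) (x y : Lv) :
    φ (kap1 u v x y) = kap1 (φ u) (φ v) x y := by
  simp only [kap1, map_mul]
  split_ifs <;> simp

/-- The structure constants. -/
def kap (u : Fin m → Bool → S) (I J : Ix m) : S :=
  ∏ l, kap1 (u l false) (u l true) (I l) (J l)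

/-- The commutation sign. -/
def eps (I J : Ix m) : ℤ := ∏ l, eps1 (I l) (J l)

theorem kap_assoc (u : Fin m → Bool → S) (I J K : Ix m) :
    kap u I J * kap u (I + J) K = kap u J K * kap u I (J + K) := by
  simp only [kap, ← Finset.prod_mul_distrib]
  exact Finset.prod_congr rfl fun l _ => kap1_assoc _ _ _ _ _

theorem kap_comm (u : Fin m → Bool → S) (I J : Ix m) :
    kap u I J = (eps I J : S) * kap u J I := by
  simp only [kap, eps, Int.cast_prod, ← Finset.prod_mul_distrib]
  exact Finset.prod_congr rfl fun l _ => kap1_comm _ _ _ _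

theorem kap_zero_left (u : Fin m → Bool → S) (I : Ix m) : kap u 0 I = 1 :=
  Finset.prod_eq_one fun l _ => (kap1_zero _ _ _).1

theorem kap_zero_right (u : Fin m → Bool → S) (I : Ix m) : kap u I 0 = 1 :=
  Finset.prod_eq_one fun l _ => (kap1_zero _ _ _).2

theorem kap_map {T : Type} [CommRing T] (φ : S →+* T) (u : Fin m → Bool → S) (I J : Ix m) :
    φ (kap u I J) = kap (fun l s => φ (u l s)) I J := by
  rw [kap, map_prod]; exact Finset.prod_congr rfl fun l _ => kap1_map φ _ _ _ _

theorem eps_sum (J : Ix m) : ∑ I : Ix m, eps I J = if J = 0 then (4 : ℤ) ^ m else 0 := by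
  classical
  unfold eps
  rw [← Fintype.prod_sum (fun l x => eps1 x (J l))]
  simp only [eps1_sum]
  by_cases h : J = 0
  · subst h; simp
  · rw [if_neg h]
    obtain ⟨l, hl⟩ := Function.ne_iff.1 h
    exact Finset.prod_eq_zero (Finset.mem_univ l) (if_neg hl)

/-- The algebra with structure constants `kap u`. -/
@[ext] structure Quat (u : Fin m → Bool → S) where
  coe : Ix m → S

namespace Quat

variable {u : Fin m → Bool → S}

instance : Zero (Quat u) := ⟨⟨0⟩⟩
instance : Add (Quat u) := ⟨fun a b => ⟨a.coe + b.coe⟩⟩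
instance : Neg (Quat u) := ⟨fun a => ⟨-a.coe⟩⟩
instance : Sub (Quat u) := ⟨fun a b => ⟨a.coe - b.coe⟩⟩
instance {R : Type} [SMul R S] : SMul R (Quat u) := ⟨fun c a => ⟨c • a.coe⟩⟩

theorem coe_injective : Function.Injective (Quat.coe : Quat u → Ix m → S) := fun _ _ h =>
  Quat.ext h

instance : AddCommGroup (Quat u) :=
  coe_injective.addCommGroup Quat.coe rfl (fun _ _ => rfl) (fun _ => rfl) (fun _ _ => rfl)
    (fun _ _ => rfl) (fun _ _ => rfl)

/-- The coordinates as an additive map. -/
def coeHom : Quat u →+ (Ix m → S) where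
  toFun := Quat.coe
  map_zero' := rfl
  map_add' _ _ := rfl

instance : Module S (Quat u) :=
  coe_injective.module S coeHom fun _ _ => rfl

instance : One (Quat u) := ⟨⟨Pi.single 0 1⟩⟩
instance : Mul (Quat u) :=
  ⟨fun a b => ⟨fun K => ∑ I, kap u I (K + I) * a.coe I * b.coe (K + I)⟩⟩

theorem mul_coe (a b : Quat u) (K : Ix m) :
    (a * b).coe K = ∑ I, kap u I (K + I) * a.coe I * b.coe (K + I) := rfl

@[simp] theorem zero_coe : (0 : Quat u).coe = 0 := rfl
@[simp] theorem add_coe (a b : Quat u) : (a + b).coe = a.coe + b.coe := rfl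
@[simp] theorem sub_coe (a b : Quat u) : (a - b).coe = a.coe - b.coe := rfl
@[simp] theorem neg_coe (a : Quat u) : (-a).coe = -a.coe := rfl
@[simp] theorem smul_coe (c : S) (a : Quat u) : (c • a).coe = c • a.coe := rfl

theorem mul_assoc' (a b c : Quat u) : a * b * c = a * (b * c) := by
  ext L
  simp only [mul_coe, Finset.mul_sum, Finset.sum_mul]
  rw [Finset.sum_comm]
  refine Finset.sum_congr rfl fun I _ => ?_
  rw [← Equiv.sum_comp (Equiv.addLeft I)]
  refine Finset.sum_congr rfl fun K _ => ?_
  simp only [Equiv.coe_addLeft]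
  rw [show I + K + I = K by rw [add_comm I K, add_assoc, ix_add_self, add_zero],
    show L + (I + K) = L + I + K by rw [add_assoc]]
  have h := kap_assoc u I K (L + I + K)
  rw [show K + (L + I + K) = L + I by rw [add_comm, add_assoc, ix_add_self, add_zero]] at h
  linear_combination (a.coe I * b.coe K * c.coe (L + I + K)) * h

instance : Ring (Quat u) where
  left_distrib a b c := by
    ext K; simp only [mul_coe, add_coe, Pi.add_apply, mul_add, Finset.sum_add_distrib]
  right_distrib a b c := by
    ext K
    simp only [mul_coe, add_coe, Pi.add_apply, mul_add, add_mul, Finset.sum_add_distrib]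
  zero_mul a := by ext K; simp [mul_coe]
  mul_zero a := by ext K; simp [mul_coe]
  mul_assoc := mul_assoc'
  one_mul a := by
    ext K
    rw [mul_coe, Finset.sum_eq_single (0 : Ix m)]
    · show kap u 0 (K + 0) * (Pi.single 0 1 : Ix m → S) 0 * a.coe (K + 0) = _
      simp [kap_zero_left]
    · intro I _ hI
      show _ * (Pi.single 0 1 : Ix m → S) I * _ = 0
      rw [Pi.single_eq_of_ne hI, mul_zero, zero_mul]
    · simp
  mul_one a := by
    ext K
    rw [mul_coe, Finset.sum_eq_single K]
    · show kap u K (K + K) * a.coe K * (Pi.single 0 1 : Ix m → S) (K + K) = _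
      rw [ix_add_self, Pi.single_eq_same, kap_zero_right, one_mul, mul_one]
    · intro I _ hI
      show _ * _ * (Pi.single 0 1 : Ix m → S) (K + I) = 0
      rw [Pi.single_eq_of_ne, mul_zero]
      intro h
      exact hI (by rw [← add_zero I, ← h, add_comm K, ← add_assoc, ix_add_self, zero_add])
    · simp

instance : Algebra S (Quat u) :=
  Algebra.ofModule
    (fun c a b => by
      ext K
      simp only [mul_coe, smul_coe, Pi.smul_apply, smul_eq_mul, Finset.mul_sum]
      exact Finset.sum_congr rfl fun I _ => by ring)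
    (fun c a b => by
      ext K
      simp only [mul_coe, smul_coe, Pi.smul_apply, smul_eq_mul, Finset.mul_sum]
      exact Finset.sum_congr rfl fun I _ => by ring)

@[simp] theorem one_coe : (1 : Quat u).coe = Pi.single 0 1 := rfl

theorem algebraMap_eq (c : S) : algebraMap S (Quat u) c = ⟨Pi.single 0 c⟩ := by
  rw [Algebra.algebraMap_eq_smul_one]
  ext K
  by_cases h : K = 0 <;> simp [h]

/-- The monomial basis. -/
def e (u : Fin m → Bool → S) (I : Ix m) : Quat u := ⟨Pi.single I 1⟩

theorem e_zero : e u 0 = 1 := rfl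

theorem e_mul_e (I J : Ix m) : e u I * e u J = kap u I J • e u (I + J) := by
  ext K
  rw [mul_coe, Finset.sum_eq_single I]
  · show kap u I (K + I) * (Pi.single I 1 : Ix m → S) I * (Pi.single J 1 : Ix m → S) (K + I) =
      kap u I J * (Pi.single (I + J) 1 : Ix m → S) K
    rw [Pi.single_eq_same, mul_one]
    by_cases h : K = I + J
    · subst h
      rw [show I + J + I = J by rw [add_comm I J, add_assoc, ix_add_self, add_zero],
        Pi.single_eq_same, Pi.single_eq_same]
    · rw [Pi.single_eq_of_ne h, Pi.single_eq_of_ne, mul_zero, mul_zero]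
      intro h'
      exact h (by rw [← h', add_comm I, add_assoc, ix_add_self, add_zero])
  · intro K' _ hK
    show _ * (Pi.single I 1 : Ix m → S) K' * _ = 0
    rw [Pi.single_eq_of_ne hK, mul_zero, zero_mul]
  · simp

theorem sum_e (a : Quat u) : ∑ I, a.coe I • e u I = a := by
  ext K
  have : (∑ I, a.coe I • e u I).coe = ∑ I, (a.coe I • e u I).coe := map_sum coeHom _ _
  rw [this, Finset.sum_apply, Finset.sum_eq_single K]
  · simp [e]
  · intro I _ hI; simp [e, Pi.single_eq_of_ne hI.symm]
  · simp

theorem e_comm (I J : Ix m) : e u I * e u J = (eps I J : S) • (e u J * e u I) := by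
  rw [e_mul_e, e_mul_e, kap_comm, smul_smul, add_comm I J]

/-- The monomial basis as a basis. -/
def basis (u : Fin m → Bool → S) : Module.Basis (Ix m) S (Quat u) :=
  Module.Basis.ofEquivFun
    { toFun := Quat.coe
      map_add' := fun _ _ => rfl
      map_smul' := fun _ _ => rfl
      invFun := Quat.mk
      left_inv := fun _ => rfl
      right_inv := fun _ => rfl }

instance : Module.Finite S (Quat u) := Module.Finite.of_basis (basis u)

theorem finrank_eq [Nontrivial S] : Module.finrank S (Quat u) = 4 ^ m := by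
  rw [Module.finrank_eq_card_basis (basis u)]
  simp [Fintype.card_prod, ZMod.card]

instance [Nontrivial S] : Nontrivial (Quat u) :=
  ⟨⟨0, 1, fun h => zero_ne_one (α := S) (by
    have := congrFun (congrArg Quat.coe h) 0
    simpa using this)⟩⟩

/-- The normalised trace: the coefficient of `1`. -/
def tau : Quat u →ₗ[S] S where
  toFun a := a.coe 0
  map_add' _ _ := rfl
  map_smul' _ _ := rfl

theorem tau_apply (a : Quat u) : tau a = a.coe 0 := rfl

theorem tau_one : tau (1 : Quat u) = 1 := by simp [tau_apply]

theorem tau_mul_comm (a b : Quat u) : tau (a * b) = tau (b * a) := by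
  simp only [tau_apply, mul_coe, zero_add]
  exact Finset.sum_congr rfl fun I _ => by ring

/-- Functoriality in the ring of coefficients. -/
def map {T : Type} [CommRing T] (φ : S →+* T) (u : Fin m → Bool → S) :
    Quat u →+* Quat (fun l s => φ (u l s)) where
  toFun a := ⟨fun I => φ (a.coe I)⟩
  map_zero' := by ext I; simp
  map_one' := by
    ext I
    by_cases h : I = 0 <;> simp [h]
  map_add' a b := by ext I; simp
  map_mul' a b := by
    ext K
    simp only [mul_coe, map_sum, map_mul, kap_map]

@[simp] theorem map_coe {T : Type} [CommRing T] (φ : S →+* T) (a : Quat u) (I : Ix m) :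
    (map φ u a).coe I = φ (a.coe I) := rfl

theorem map_smul {T : Type} [CommRing T] (φ : S →+* T) (c : S) (a : Quat u) :
    map φ u (c • a) = φ c • map φ u a := by ext I; simp

theorem map_tau {T : Type} [CommRing T] (φ : S →+* T) (a : Quat u) :
    tau (map φ u a) = φ (tau a) := rfl

end Quat

end Vale.Agent.P199
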