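import Vale.Agent.P199.Poly3
import Vale.Agent.P199.Quat

/-!
The graded polynomial ring carrying the generic elements of the quaternion tensor algebra.
-/

set_option linter.unusedSectionVars false

noncomputable section

namespace Vale.Agent.P199

open MvPolynomial

variable {m n : ℕ}

/-- Nonzero indices. -/
abbrev NZ (m : ℕ) := {I : Ix m // I ≠ 0}

/-- The variables: parameters, two generators, and `n` auxiliary elements. -/
abbrev Var (m n : ℕ) := (Fin m × Bool) ⊕ ((Bool ⊕ Fin n) × NZ m)

/-- The coefficient ring. -/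
abbrev RR (m n : ℕ) := MvPolynomial (Var m n) ℚ

/-- The coordinate attached to a parameter. -/
def uI (l : Fin m) (s : Bool) : Fin (m + m) := if s then Fin.natAdd m l else Fin.castAdd m l

theorem uI_surj (i : Fin (m + m)) : ∃ l s, uI l s = i := by
  refine Fin.addCases (fun l => ⟨l, false, ?_⟩) (fun l => ⟨l, true, ?_⟩) i <;> simp [uI]

/-- A bit as an integer. -/
def bit (x : ZMod 2) : ℤ := if x = 1 then 1 else 0

/-- The component of a level exponent on a side. -/
def side (x : Lv) (s : Bool) : ZMod 2 := if s then x.2 else x.1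

/-- The degree of a monomial. -/
def degI (I : Ix m) : Gr (m + m) :=
  toLex (Fin.addCases (fun l => bit (I l).1) (fun l => bit (I l).2))

theorem degI_apply (I : Ix m) (l : Fin m) (s : Bool) :
    ofLex (degI I) (uI l s) = bit (side (I l) s) := by
  cases s <;> simp only [degI, uI, side, if_true, if_false, ofLex_toLex, Fin.addCases_left,
    Fin.addCases_right, Bool.false_eq_true]

theorem degI_zero : degI (0 : Ix m) = 0 := by
  apply ofLex.injective
  funext i
  obtain ⟨l, s, rfl⟩ := uI_surj i
  rw [degI_apply]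
  show _ = (0 : ℤ)
  cases s <;> simp [bit, side]

theorem ext_uI {g h : Gr (m + m)} (H : ∀ l s, ofLex g (uI l s) = ofLex h (uI l s)) : g = h := by
  apply ofLex.injective
  funext i
  obtain ⟨l, s, rfl⟩ := uI_surj i
  exact H l s

/-- The degrees of the variables. -/
def wt (m n : ℕ) : Var m n → Gr (m + m)
  | Sum.inl (l, s) => toLex (Pi.single (uI l s) (2 : ℤ))
  | Sum.inr (_, I) => -degI I.1

theorem lin_ne_zero {r : ℕ} {g : Gr r} (hg : g ≠ 0) : lin g ≠ 0 := by
  classical
  intro h
  apply hg
  apply ofLex.injective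
  funext i
  have h1 := congrArg (coeff (Finsupp.single i 1)) h
  rw [lin, coeff_sum, Finset.sum_eq_single i] at h1
  · rw [coeff_C_mul, coeff_X, if_pos rfl, mul_one, coeff_zero] at h1
    exact h1
  · intro j _ hj
    classical
    rw [coeff_C_mul, coeff_X, if_neg, mul_zero]
    exact fun e => hj (Finsupp.single_left_injective one_ne_zero e)
  · simp

theorem degI_ne_zero {I : Ix m} (hI : I ≠ 0) : degI I ≠ 0 := by
  intro h
  apply hI
  funext l
  have h1 := degI_apply I l false
  have h2 := degI_apply I l true
  rw [h] at h1 h2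
  change (0 : ℤ) = _ at h1 h2
  rcases lv_cases (I l) with e | e | e | e <;> simp [e, bit, side] at h1 h2 ⊢

theorem lin_wt_ne_zero : ∀ v : Var m n, lin (wt m n v) ≠ 0 := by
  rintro (⟨l, s⟩ | ⟨a, I⟩)
  · refine lin_ne_zero fun h => ?_
    have : (Pi.single (uI l s) (2 : ℤ) : Fin (m + m) → ℤ) (uI l s) = 0 :=
      congrFun (congrArg ofLex h) (uI l s)
    simp at this
  · exact lin_ne_zero (neg_ne_zero.2 (degI_ne_zero I.2))

/-- The parameters. -/
def uVar (m n : ℕ) : Fin m → Bool → RR m n := fun l s => X (Sum.inl (l, s))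

/-- The generic algebra. -/
abbrev EE (m n : ℕ) := Quat (uVar m n)

/-- A generic traceless element. -/
def gen (a : Bool ⊕ Fin n) : EE m n :=
  ⟨fun I => if h : I = 0 then 0 else X (Sum.inr (a, ⟨I, h⟩))⟩

theorem gen_coe (a : Bool ⊕ Fin n) (I : NZ m) :
    (gen a : EE m n).coe I.1 = X (Sum.inr (a, I)) := by
  simp [gen, I.2]

theorem gen_coe_zero (a : Bool ⊕ Fin n) : (gen a : EE m n).coe 0 = 0 := by simp [gen]

theorem isWH_kap (I J : Ix m) :
    IsWeightedHomogeneous (wt m n) (kap (uVar m n) I J) (degI I + degI J - degI (I + J)) := by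
  classical
  set c : Fin m → Gr (m + m) := fun l =>
    (if (I l).1 = 1 ∧ (J l).1 = 1 then wt m n (Sum.inl (l, false)) else 0) +
    (if (I l).2 = 1 ∧ (J l).2 = 1 then wt m n (Sum.inl (l, true)) else 0) with hc
  have hdeg : degI I + degI J - degI (I + J) = ∑ l, c l := by
    refine ext_uI fun l s => ?_
    rw [show ofLex (degI I + degI J - degI (I + J)) (uI l s) =
      ofLex (degI I) (uI l s) + ofLex (degI J) (uI l s) - ofLex (degI (I + J)) (uI l s) from rfl,
      degI_apply, degI_apply, degI_apply,
      show ofLex (∑ l', c l') (uI l s) = ∑ l', ofLex (c l') (uI l s) from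
        map_sum ({ toFun := fun g => ofLex g (uI l s), map_zero' := rfl,
                   map_add' := fun _ _ => rfl } : Gr (m + m) →+ ℤ) _ _,
      Finset.sum_eq_single l]
    · have h1 : uI l true ≠ uI l false := by
        simp only [uI, if_true, ne_eq]
        intro e
        have := congrArg Fin.val e
        simp [Fin.natAdd, Fin.castAdd] at this
        omega
      simp only [hc]
      rw [show ∀ a b : Gr (m + m), ofLex (a + b) (uI l s) = ofLex a (uI l s) + ofLex b (uI l s)
        from fun _ _ => rfl, apply_ite ofLex, apply_ite ofLex, ite_apply, ite_apply,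
        show ofLex (0 : Gr (m + m)) (uI l s) = 0 from rfl]
      cases s <;> rcases lv_cases (I l) with e | e | e | e <;>
        rcases lv_cases (J l) with e' | e' | e' | e' <;>
        simp [wt, e, e', bit, side, h1, h1.symm, show (1 : ZMod 2) + 1 = 0 by decide]
    · intro l' _ hl'
      have hne : ∀ s', uI l s ≠ uI l' s' := by
        intro s' e
        apply hl'
        have := congrArg Fin.val e
        have hl := l.isLt
        have hl2 := l'.isLt
        cases s <;> cases s' <;> simp [uI, Fin.natAdd, Fin.castAdd] at this <;>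
          first | exact (Fin.ext (by omega)) | omega
      simp only [hc]
      rw [show ∀ a b : Gr (m + m), ofLex (a + b) (uI l s) = ofLex a (uI l s) + ofLex b (uI l s)
        from fun _ _ => rfl, apply_ite ofLex, apply_ite ofLex, ite_apply, ite_apply,
        show ofLex (0 : Gr (m + m)) (uI l s) = 0 from rfl]
      by_cases h1 : (I l').1 = 1 ∧ (J l').1 = 1 <;> by_cases h2 : (I l').2 = 1 ∧ (J l').2 = 1 <;>
        simp [h1, h2, wt, Pi.single_apply, hne]
    · simp
  rw [hdeg]
  refine IsWeightedHomogeneous.prod _ _ _ fun l _ => ?_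
  show IsWeightedHomogeneous _ (kap1 _ _ _ _) _
  unfold kap1
  have h0 : c l = 0 + (if (I l).1 = 1 ∧ (J l).1 = 1 then wt m n (Sum.inl (l, false)) else 0) +
    (if (I l).2 = 1 ∧ (J l).2 = 1 then wt m n (Sum.inl (l, true)) else 0) := by rw [zero_add]
  rw [h0]
  refine (IsWeightedHomogeneous.mul ?_ ?_).mul ?_
  · split_ifs
    · exact (isWeightedHomogeneous_one ℚ _).neg
    · exact isWeightedHomogeneous_one ℚ _
  · split_ifs
    · exact isWeightedHomogeneous_X ℚ _ _
    · exact isWeightedHomogeneous_one ℚ _
  · split_ifs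
    · exact isWeightedHomogeneous_X ℚ _ _
    · exact isWeightedHomogeneous_one ℚ _

/-- Elements of degree zero. -/
def Cov (a : EE m n) : Prop := ∀ I, IsWeightedHomogeneous (wt m n) (a.coe I) (-degI I)

theorem cov_gen (a : Bool ⊕ Fin n) : Cov (gen a : EE m n) := by
  intro I
  by_cases h : I = 0
  · subst h; rw [gen_coe_zero]; exact isWeightedHomogeneous_zero _ _ _
  · rw [gen_coe a ⟨I, h⟩]; exact isWeightedHomogeneous_X ℚ _ _

theorem Cov.zero : Cov (0 : EE m n) := fun _ => isWeightedHomogeneous_zero _ _ _

theorem Cov.add {a b : EE m n} (ha : Cov a) (hb : Cov b) : Cov (a + b) :=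
  fun I => (ha I).add (hb I)

theorem Cov.neg {a : EE m n} (ha : Cov a) : Cov (-a) := fun I => (ha I).neg

theorem Cov.sub {a b : EE m n} (ha : Cov a) (hb : Cov b) : Cov (a - b) :=
  fun I => (ha I).sub (hb I)

theorem Cov.sum {ι : Type} {s : Finset ι} {f : ι → EE m n} (h : ∀ i ∈ s, Cov (f i)) :
    Cov (∑ i ∈ s, f i) := by
  classical
  induction s using Finset.induction_on with
  | empty => exact Cov.zero
  | insert i s hi ih =>
      rw [Finset.sum_insert hi]
      exact (h i (Finset.mem_insert_self i s)).add
        (ih fun j hj => h j (Finset.mem_insert_of_mem hj))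

theorem Cov.smul {a : EE m n} (ha : Cov a) {c : RR m n}
    (hc : IsWeightedHomogeneous (wt m n) c 0) : Cov (c • a) := fun I => by
  rw [← zero_add (-degI I)]; exact hc.mul (ha I)

theorem Cov.one : Cov (1 : EE m n) := fun I => by
  rw [Quat.one_coe]
  by_cases h : I = 0
  · subst h; rw [Pi.single_eq_same, degI_zero, neg_zero]; exact isWeightedHomogeneous_one ℚ _
  · rw [Pi.single_eq_of_ne h]; exact isWeightedHomogeneous_zero _ _ _

theorem Cov.mul {a b : EE m n} (ha : Cov a) (hb : Cov b) : Cov (a * b) := fun K => by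
  rw [Quat.mul_coe]
  refine IsWeightedHomogeneous.sum _ _ _ fun I _ => ?_
  have h := ((isWH_kap (n := n) I (K + I)).mul (ha I)).mul (hb (K + I))
  rw [show I + (K + I) = K by rw [add_left_comm, ix_add_self, add_zero]] at h
  convert! h using 1
  abel

theorem Cov.pow {a : EE m n} (ha : Cov a) : ∀ j : ℕ, Cov (a ^ j)
  | 0 => by rw [pow_zero]; exact Cov.one
  | j + 1 => by rw [pow_succ]; exact (ha.pow j).mul ha

theorem Cov.tau {a : EE m n} (ha : Cov a) :
    IsWeightedHomogeneous (wt m n) (Quat.tau a) 0 := by
  have := ha 0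
  rw [degI_zero, neg_zero] at this
  exact this

theorem Cov.scalar {c : RR m n} (hc : IsWeightedHomogeneous (wt m n) c 0) :
    Cov (algebraMap (RR m n) (EE m n) c) := by
  rw [Algebra.algebraMap_eq_smul_one]; exact Cov.one.smul hc

/-- Expressions in two letters with a trace. -/
inductive Expr : Type
  | var : Bool → Expr
  | one : Expr
  | add : Expr → Expr → Expr
  | neg : Expr → Expr
  | mul : Expr → Expr → Expr
  | tr : Expr → Expr

/-- Evaluation of an expression. -/
def Expr.eval {S : Type} [CommRing S] {u : Fin m → Bool → S} (x : Bool → Quat u) :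
    Expr → Quat u
  | .var b => x b
  | .one => 1
  | .add p q => p.eval x + q.eval x
  | .neg p => -(p.eval x)
  | .mul p q => p.eval x * q.eval x
  | .tr p => algebraMap S (Quat u) (Quat.tau (p.eval x))

theorem Expr.eval_map {S T : Type} [CommRing S] [CommRing T] (φ : S →+* T)
    {u : Fin m → Bool → S} (x : Bool → Quat u) (p : Expr) :
    Quat.map φ u (p.eval x) = p.eval fun b => Quat.map φ u (x b) := by
  induction p with
  | var b => rfl
  | one => exact _root_.map_one _
  | add p q hp hq => simp only [Expr.eval, map_add, hp, hq]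
  | neg p hp => simp only [Expr.eval, map_neg, hp]
  | mul p q hp hq => simp only [Expr.eval, map_mul, hp, hq]
  | tr p hp =>
      simp only [Expr.eval, ← hp, Quat.map_tau]
      rw [Algebra.algebraMap_eq_smul_one, Algebra.algebraMap_eq_smul_one, Quat.map_smul,
        _root_.map_one]

theorem cov_eval (p : Expr) : Cov (p.eval fun b => (gen (Sum.inl b) : EE m n)) := by
  induction p with
  | var b => exact cov_gen _
  | one => exact Cov.one
  | add p q hp hq => exact hp.add hq
  | neg p hp => exact hp.neg
  | mul p q hp hq => exact hp.mul hq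
  | tr p hp => exact Cov.scalar hp.tau

/-- The grading of the free module of coordinates. -/
abbrev grdE (m n : ℕ) : Grd (Gr (m + m)) ℚ (Ix m → RR m n) := grdFree (wt m n) degI

theorem mulRight_coe (v : Ix m → RR m n) (J K : Ix m) :
    ((⟨v⟩ : EE m n) * Quat.e (uVar m n) J).coe K = kap (uVar m n) (K + J) J * v (K + J) := by
  rw [Quat.mul_coe, Finset.sum_eq_single (K + J)]
  · show kap (uVar m n) (K + J) (K + (K + J)) * v (K + J) *
      (Pi.single J 1 : Ix m → RR m n) (K + (K + J)) = _
    rw [← add_assoc K K, ix_add_self, zero_add, Pi.single_eq_same, mul_one]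
  · intro I _ hI
    show _ * (Pi.single J 1 : Ix m → RR m n) (K + I) = 0
    rw [Pi.single_eq_of_ne, mul_zero]
    intro h
    exact hI (by rw [← h, ← add_assoc, ix_add_self, zero_add])
  · simp

/-- Right multiplication by a monomial. -/
def opRight (J : Ix m) : Op (RR m n) (grdE m n) where
  f :=
    { toFun := fun v => ((⟨v⟩ : EE m n) * Quat.e (uVar m n) J).coe
      map_add' := fun v v' => by
        rw [show (⟨v + v'⟩ : EE m n) = ⟨v⟩ + ⟨v'⟩ from rfl, add_mul, Quat.add_coe]
      map_smul' := fun c v => by
        rw [show (⟨c • v⟩ : EE m n) = c • ⟨v⟩ from rfl, smul_mul_assoc, Quat.smul_coe,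
          RingHom.id_apply] }
  d := degI J
  hom g v := by
    funext K
    show (grd0 (wt m n)).pr (g + degI J - degI K)
        (((⟨v⟩ : EE m n) * Quat.e (uVar m n) J).coe K) =
      ((⟨(grdE m n).pr g v⟩ : EE m n) * Quat.e (uVar m n) J).coe K
    rw [mulRight_coe, mulRight_coe, pr_hom_mul (isWH_kap (n := n) (K + J) J), grdFree_pr]
    congr 2
    rw [add_assoc K J J, ix_add_self, add_zero]
    congr 1
    abel

end Vale.Agent.P199
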