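import Vale.Agent.P199.Rep

/-!
An element of even degree yields an idempotent of half rank in the commutant.
-/

set_option linter.unusedSectionVars false

noncomputable section

namespace Vale.Agent.P199

open Polynomial

variable {Ω : Type} [Field Ω] [CharZero Ω]

/-- The trace of an idempotent matrix is a natural number. -/
theorem trace_idem {ι : Type} [Fintype ι] [DecidableEq ι] {P : Matrix ι ι Ω} (hP : P * P = P) :
    ∃ k : ℕ, P.trace = (k : Ω) := by
  have h : IsIdempotentElem (Matrix.toLin' P) := by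
    show Matrix.toLin' P * Matrix.toLin' P = Matrix.toLin' P
    rw [Module.End.mul_eq_comp, ← Matrix.toLin'_mul, hP]
  refine ⟨Module.finrank Ω (LinearMap.range (Matrix.toLin' P)), ?_⟩
  rw [← Matrix.trace_toLin'_eq]
  exact (LinearMap.IsIdempotentElem.isProj_range _ h).trace

theorem vanish_dvd (R : Finset Ω) {q : (Polynomial Ω)} (h : ∀ x ∈ R, q.eval x = 0) :
    (∏ x ∈ R, (X - C x)) ∣ q :=
  Finset.prod_dvd_of_coprime
    (fun a _ b _ hab => Polynomial.pairwise_coprime_X_sub_C Function.injective_id hab)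
    (fun x hx => dvd_iff_isRoot.2 (h x hx))

theorem eval_sum_lagrange {R S : Finset Ω} [DecidableEq Ω] (hS : S ⊆ R) {x : Ω} (hx : x ∈ R) :
    (∑ t ∈ S, Lagrange.basis R id t).eval x = if x ∈ S then 1 else 0 := by
  rw [eval_finsetSum]
  by_cases h : x ∈ S
  · rw [if_pos h, Finset.sum_eq_single x]
    · exact Lagrange.eval_basis_self Function.injective_id.injOn hx
    · intro t _ ht; exact Lagrange.eval_basis_of_ne (v := id) ht hx
    · exact fun h' => absurd h h'
  · rw [if_neg h]
    exact Finset.sum_eq_zero fun t ht =>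
      Lagrange.eval_basis_of_ne (v := id) (fun e => h (by subst e; exact ht)) hx

variable {F : Type} [Field F] [CharZero F] [Algebra F Ω] [IsAlgClosure F Ω] {m : ℕ}
  {u : Fin m → Bool → F}

theorem map_lagrange [DecidableEq Ω] (σ : Ω ≃ₐ[F] Ω) {R : Finset Ω} (hR : R.image σ = R) (x : Ω) :
    (Lagrange.basis R id x).map (σ : Ω →+* Ω) = Lagrange.basis R id (σ x) := by
  unfold Lagrange.basis
  rw [Polynomial.map_prod]
  conv_rhs => rw [← hR, ← Finset.image_erase σ.injective,
    Finset.prod_image fun a _ b _ h => σ.injective h]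
  refine Finset.prod_congr rfl fun y _ => ?_
  simp [Lagrange.basisDivisor]

/-- A nonscalar element yields an idempotent of half rank commuting with its commutant. -/
theorem exists_half_idem (hdiv : ∀ a b : Quat u, a * b = 0 → a = 0 ∨ b = 0)
    (r : Fin m → Bool → Ω) (hr : ∀ l s, r l s * r l s = algebraMap F Ω (u l s))
    (z : Quat u) (hz : z ∉ Set.range (algebraMap F (Quat u))) :
    ∃ (h : ℕ) (P : Matrix (Rw m) (Rw m) Ω), 2 * h = 2 ^ m ∧ P * P = P ∧ P.trace = (h : Ω) ∧
      ∀ y : Quat u, y * z = z * y → rho r hr y * P = P * rho r hr y := by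
  classical
  have : IsAlgClosed Ω := IsAlgClosure.isAlgClosed F
  have : Algebra.IsAlgebraic F Ω := IsAlgClosure.isAlgebraic
  have : Normal F Ω := IsAlgClosure.normal F Ω
  have : NoZeroDivisors (Quat u) := ⟨fun {a b} h => hdiv a b h⟩
  have : IsDomain (Quat u) := NoZeroDivisors.to_isDomain _
  have hint : IsIntegral F z := IsIntegral.of_finite F z
  set p := minpoly F z with hp
  have hirr : Irreducible p := minpoly.irreducible hint
  have hmon : p.Monic := minpoly.monic hint
  have hdeg : 2 ≤ p.natDegree := (minpoly.two_le_natDegree_iff hint).2 hz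
  set M := rho r hr z with hM
  set pΩ := p.map (algebraMap F Ω) with hpΩ
  have hsep : pΩ.Separable := hirr.separable.map
  have hnd := Polynomial.nodup_roots hsep
  set R := pΩ.roots.toFinset with hRdef
  have hsplit : pΩ.Splits := IsAlgClosed.splits pΩ
  have hrootscard : Multiset.card pΩ.roots = pΩ.natDegree := hsplit.natDegree_eq_card_roots.symm
  have hcardR : R.card = p.natDegree := by
    rw [hRdef, Multiset.toFinset_card_of_nodup hnd, hrootscard, hpΩ, natDegree_map]
  have hprod : (∏ x ∈ R, (X - C x)) = pΩ := by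
    rw [hRdef, Finset.prod_eq_multiset_prod, Multiset.toFinset_val, hnd.dedup]
    exact prod_multiset_X_sub_C_of_monic_of_roots_card_eq (hmon.map _) hrootscard
  have hMp : aeval M pΩ = 0 := by
    rw [hpΩ, aeval_map_algebraMap, hM, aeval_algHom_apply, hp, minpoly.aeval, map_zero]
  have hvan : ∀ q : (Polynomial Ω), (∀ x ∈ R, q.eval x = 0) → aeval M q = 0 := by
    intro q hq
    obtain ⟨c, rfl⟩ := vanish_dvd R hq
    rw [map_mul, hprod, hMp, zero_mul]
  have hidem : ∀ S ⊆ R, aeval M (∑ t ∈ S, Lagrange.basis R id t) *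
      aeval M (∑ t ∈ S, Lagrange.basis R id t) = aeval M (∑ t ∈ S, Lagrange.basis R id t) := by
    intro S hS
    rw [← map_mul, ← sub_eq_zero, ← map_sub]
    refine hvan _ fun x hx => ?_
    rw [eval_sub, eval_mul, eval_sum_lagrange hS hx]
    split_ifs <;> ring
  have hT : ∀ (σ : Ω ≃ₐ[F] Ω) (q : (Polynomial Ω)),
      (aeval M (q.map (σ : Ω →+* Ω))).trace = σ (aeval M q).trace := by
    intro σ q
    induction q using Polynomial.induction_on' with
    | add a b ha hb =>
        simp only [Polynomial.map_add, map_add, Matrix.trace_add, ha, hb]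
    | monomial k a =>
        have hk : (M ^ k).trace = algebraMap F Ω ((2 : F) ^ m * Quat.tau (z ^ k)) := by
          rw [hM, ← map_pow (rho r hr), trace_rho, map_mul (algebraMap F Ω),
            map_pow (algebraMap F Ω), map_ofNat]
        rw [Polynomial.map_monomial, aeval_monomial, aeval_monomial, ← Algebra.smul_def,
          ← Algebra.smul_def, Matrix.trace_smul, Matrix.trace_smul, hk, smul_eq_mul, smul_eq_mul,
          map_mul σ, AlgEquiv.commutes]
        rfl
  have hR0 : ∀ x ∈ R, IsRoot pΩ x := fun x hx => by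
    rw [hRdef, Multiset.mem_toFinset, mem_roots'] at hx; exact hx.2
  have hmin : ∀ x ∈ R, minpoly F x = p := fun x hx => by
    refine (minpoly.eq_of_irreducible_of_monic hirr ?_ hmon).symm
    rw [← eval_map_algebraMap]
    exact hR0 x hx
  have hRσ : ∀ σ : Ω ≃ₐ[F] Ω, R.image σ = R := by
    intro σ
    refine Finset.eq_of_subset_of_card_le (fun y hy => ?_)
      (le_of_eq (Finset.card_image_of_injective _ σ.injective).symm)
    obtain ⟨x, hx, rfl⟩ := Finset.mem_image.1 hy
    rw [hRdef, Multiset.mem_toFinset, mem_roots']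
    refine ⟨(hmon.map _).ne_zero, ?_⟩
    show eval (σ x) pΩ = 0
    rw [hpΩ, eval_map_algebraMap, ← AlgEquiv.coe_toAlgHom σ, aeval_algHom_apply,
      ← eval_map_algebraMap]
    simp only [show eval x (p.map (algebraMap F Ω)) = 0 from hR0 x hx, map_zero]
  obtain ⟨x0, hx0⟩ : R.Nonempty := Finset.card_pos.1 (by omega)
  obtain ⟨k, hk⟩ := trace_idem (hidem {x0} (Finset.singleton_subset_iff.2 hx0))
  rw [Finset.sum_singleton] at hk
  have heq : ∀ x ∈ R, (aeval M (Lagrange.basis R id x)).trace = (k : Ω) := by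
    intro x hx
    obtain ⟨σ, hσ⟩ := (isConjRoot_iff_exists_algEquiv (K := F) (x := x) (y := x0)).1
      (by rw [isConjRoot_def, hmin x hx, hmin x0 hx0])
    rw [← hσ, ← map_lagrange σ (hRσ σ), hT, hk, map_natCast]
  have htr : ∀ S ⊆ R,
      (aeval M (∑ t ∈ S, Lagrange.basis R id t)).trace = ((S.card * k : ℕ) : Ω) := by
    intro S hS
    rw [map_sum, Matrix.trace_sum, Finset.sum_congr rfl fun x hx => heq x (hS hx),
      Finset.sum_const, nsmul_eq_mul, Nat.cast_mul]
  have hek : R.card * k = 2 ^ m := by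
    have h1 := htr R subset_rfl
    rw [Lagrange.sum_basis Function.injective_id.injOn ⟨x0, hx0⟩, map_one, Matrix.trace_one] at h1
    have h2 : R.card * k = Fintype.card (Rw m) := by exact_mod_cast h1.symm
    simpa using h2
  obtain ⟨a, -, ha⟩ := (Nat.dvd_prime_pow Nat.prime_two).1 (Dvd.intro k hek)
  have ha1 : 1 ≤ a := by
    by_contra h
    rw [show a = 0 by omega] at ha
    omega
  obtain ⟨b, rfl⟩ : ∃ b, a = b + 1 := ⟨a - 1, by omega⟩
  obtain ⟨S, hS, hScard⟩ := Finset.exists_subset_card_eq (s := R) (n := 2 ^ b) (by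
    rw [ha, pow_succ]; omega)
  refine ⟨S.card * k, aeval M (∑ t ∈ S, Lagrange.basis R id t), ?_, hidem S hS, htr S hS,
    fun y hy => ?_⟩
  · rw [← hek, hScard, ha]; ring
  · have hc : Commute (rho r hr y) M := by
      show _ * _ = _ * _
      rw [hM, ← map_mul, ← map_mul, hy]
    have hq : ∀ q : (Polynomial Ω), Commute (rho r hr y) (aeval M q) := by
      intro q
      rw [aeval_eq_sum_range]
      exact Commute.sum_right _ _ _ fun i _ => (hc.pow_right i).smul_right _
    exact hq _

end Vale.Agent.P199
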