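import Vale.Agent.P199.Quat

/-!
A regular element of degree `2^j` at a split point, and the linear map used in the local lemma.
-/

set_option linter.unusedSectionVars false

noncomputable section

namespace Vale.Agent.P199

open Finset

variable {m : ℕ}

/-- The index of the first generator at level `l`. -/
def Pix (l : Fin m) : Ix m := Pi.single l ((1, 0) : Lv)

theorem Pix_at (l : Fin m) : Pix l l = ((1, 0) : Lv) := Pi.single_eq_same _ _

theorem Pix_ne {l l' : Fin m} (h : l' ≠ l) : Pix l l' = 0 := Pi.single_eq_of_ne h _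

/-- The parameters at the point: `1` on the low levels and `0` above. -/
def u0 (m j : ℕ) : Fin m → Bool → ℚ := fun l _ => if l.val < j then 1 else 0

/-- The low levels. -/
def low (m j : ℕ) : Finset (Fin m) := univ.filter fun l => l.val < j

/-- The element `∑ 2^l P_l`. -/
def y0 (m j : ℕ) : Quat (u0 m j) := ∑ l ∈ low m j, (2 : ℚ) ^ l.val • Quat.e _ (Pix l)

/-- Indices without the second generator at low levels. -/
def ACset (m j : ℕ) : Finset (Ix m) :=
  Fintype.piFinset fun l => if l.val < j then ({(0, 0), (1, 0)} : Finset Lv) else univ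

/-- The indices of the span of the powers of `y0`. -/
def Aset (m j : ℕ) : Finset (Ix m) :=
  Fintype.piFinset fun l => if l.val < j then ({(0, 0), (1, 0)} : Finset Lv) else {0}

/-- The indices carrying the equations. -/
def Cset (m j : ℕ) : Finset (Ix m) := ACset m j \ Aset m j

/-- The low levels at which `I` contains the second generator. -/
def bset (j : ℕ) (I : Ix m) : Finset (Fin m) := (low m j).filter fun l => (I l).2 = 1

theorem mem_ACset {j : ℕ} {I : Ix m} : I ∈ ACset m j ↔ ∀ l : Fin m, l.val < j → (I l).2 = 0 := by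
  simp only [ACset, Fintype.mem_piFinset]
  refine forall_congr' fun l => ?_
  by_cases h : l.val < j
  · rcases lv_cases (I l) with e | e | e | e <;> simp [h, e]
  · simp [h]

theorem mem_Aset {j : ℕ} {I : Ix m} :
    I ∈ Aset m j ↔ (∀ l : Fin m, l.val < j → (I l).2 = 0) ∧ ∀ l : Fin m, j ≤ l.val → I l = 0 := by
  simp only [Aset, Fintype.mem_piFinset]
  constructor
  · intro h
    refine ⟨fun l hl => ?_, fun l hl => ?_⟩
    · have := h l; rw [if_pos hl] at this
      rcases lv_cases (I l) with e | e | e | e <;> simp [e] at this ⊢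
    · have := h l; rw [if_neg (by omega)] at this
      exact Finset.mem_singleton.1 this
  · intro h l
    by_cases hl : l.val < j
    · have := h.1 l hl
      rw [if_pos hl]
      rcases lv_cases (I l) with e | e | e | e <;> simp [e] at this ⊢
    · rw [if_neg hl, h.2 l (by omega)]; exact Finset.mem_singleton_self _

theorem bset_eq_empty {j : ℕ} {I : Ix m} : bset j I = ∅ ↔ I ∈ ACset m j := by
  rw [mem_ACset, bset, Finset.filter_eq_empty_iff]
  simp only [low, Finset.mem_filter, Finset.mem_univ, true_and]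
  refine forall_congr' fun l => imp_congr_right fun _ => ?_
  rcases zmod2_cases (I l).2 with e | e <;> simp [e]

theorem card_piFinset_low (j : ℕ) (hj : j ≤ m) (a b : ℕ) (f : Fin m → Finset Lv)
    (hf : ∀ l, (f l).card = if l.val < j then a else b) :
    (Fintype.piFinset f).card = a ^ j * b ^ (m - j) := by
  rw [Fintype.card_piFinset]
  rw [Finset.prod_congr rfl fun l _ => hf l,
    Fin.prod_univ_eq_prod_range (fun i => if i < j then a else b) m,
    ← Finset.prod_range_mul_prod_Ico _ hj]
  congr 1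
  · rw [Finset.prod_congr rfl fun i hi => if_pos (Finset.mem_range.1 hi)]; simp
  · rw [Finset.prod_congr rfl fun i hi => if_neg (not_lt.2 (Finset.mem_Ico.1 hi).1)]; simp

theorem card_ACset {j : ℕ} (hj : j ≤ m) : (ACset m j).card = 2 ^ j * 4 ^ (m - j) :=
  card_piFinset_low j hj 2 4 _ fun l => by by_cases h : l.val < j <;> simp [h]

theorem card_Aset {j : ℕ} (hj : j ≤ m) : (Aset m j).card = 2 ^ j := by
  have := card_piFinset_low j hj 2 1
    (fun l : Fin m => if l.val < j then ({(0, 0), (1, 0)} : Finset Lv) else {0})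
    fun l => by by_cases h : l.val < j <;> simp [h]
  simpa [Aset] using this

theorem add_Pix_mem_Aset {j : ℕ} {l : Fin m} (hl : l.val < j) {K : Ix m} :
    K + Pix l ∈ Aset m j ↔ K ∈ Aset m j := by
  simp only [mem_Aset, Pi.add_apply]
  constructor <;> intro h <;> refine ⟨fun l' hl' => ?_, fun l' hl' => ?_⟩
  · have := h.1 l' hl'
    by_cases e : l' = l
    · subst e; simpa [Pix_at] using this
    · simpa [Pix_ne e] using this
  · have := h.2 l' hl'
    have e : l' ≠ l := fun e => by subst e; omega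
    simpa [Pix_ne e] using this
  · have := h.1 l' hl'
    by_cases e : l' = l
    · subst e; simpa [Pix_at] using this
    · simpa [Pix_ne e] using this
  · have := h.2 l' hl'
    have e : l' ≠ l := fun e => by subst e; omega
    simpa [Pix_ne e] using this

theorem bset_add_Pix {j : ℕ} (l : Fin m) (K : Ix m) : bset j (K + Pix l) = bset j K := by
  unfold bset
  refine Finset.filter_congr fun l' _ => ?_
  by_cases e : l' = l
  · subst e; simp [Pix_at]
  · simp [Pix_ne e]

theorem kap_Pix_left {j : ℕ} {l : Fin m} (hl : l.val < j) (J : Ix m) :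
    kap (u0 m j) (Pix l) J = 1 := by
  refine Finset.prod_eq_one fun l' _ => ?_
  by_cases e : l' = l
  · subst e; simp [kap1, Pix_at, u0, hl]
  · rw [Pix_ne e]; exact (kap1_zero _ _ _).1

theorem kap_Pix_right {j : ℕ} {l : Fin m} (hl : l.val < j) (J : Ix m) :
    kap (u0 m j) J (Pix l) = if (J l).2 = 1 then -1 else 1 := by
  rw [kap, Finset.prod_eq_single l]
  · simp [kap1, Pix_at, u0, hl]
  · intro l' _ e; rw [Pix_ne e]; exact (kap1_zero _ _ _).2
  · simp

theorem e_Pix_mul {j : ℕ} {l : Fin m} (hl : l.val < j) (a : Quat (u0 m j)) (K : Ix m) :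
    (Quat.e (u0 m j) (Pix l) * a).coe K = a.coe (K + Pix l) := by
  rw [Quat.mul_coe, Finset.sum_eq_single (Pix l)]
  · rw [kap_Pix_left hl]; simp [Quat.e]
  · intro I _ hI; simp [Quat.e, Pi.single_eq_of_ne hI]
  · simp

theorem mul_e_Pix {j : ℕ} {l : Fin m} (hl : l.val < j) (a : Quat (u0 m j)) (K : Ix m) :
    (a * Quat.e (u0 m j) (Pix l)).coe K =
      (if (K l).2 = 1 then -1 else 1) * a.coe (K + Pix l) := by
  rw [Quat.mul_coe, Finset.sum_eq_single (K + Pix l)]
  · rw [← add_assoc K K, ix_add_self, zero_add, kap_Pix_right hl]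
    simp [Quat.e, Pix_at]
  · intro I _ hI
    have : K + I ≠ Pix l := fun h => hI (by rw [← h, ← add_assoc, ix_add_self, zero_add])
    simp [Quat.e, Pi.single_eq_of_ne this]
  · simp

theorem sum_coe {u : Fin m → Bool → ℚ} {ι : Type} (s : Finset ι) (f : ι → Quat u) (K : Ix m) :
    (∑ i ∈ s, f i).coe K = ∑ i ∈ s, (f i).coe K := by
  rw [show (∑ i ∈ s, f i).coe = ∑ i ∈ s, (f i).coe from map_sum Quat.coeHom _ _, Finset.sum_apply]

theorem y0_mul (j : ℕ) (a : Quat (u0 m j)) (K : Ix m) :
    (y0 m j * a).coe K = ∑ l ∈ low m j, (2 : ℚ) ^ l.val * a.coe (K + Pix l) := by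
  rw [y0, Finset.sum_mul, sum_coe]
  refine Finset.sum_congr rfl fun l hl => ?_
  rw [smul_mul_assoc, Quat.smul_coe, Pi.smul_apply, smul_eq_mul,
    e_Pix_mul (Finset.mem_filter.1 hl).2]

theorem commutator_y0 (j : ℕ) (a : Quat (u0 m j)) (K : Ix m) :
    (y0 m j * a - a * y0 m j).coe K =
      ∑ l ∈ bset j K, 2 * ((2 : ℚ) ^ l.val * a.coe (K + Pix l)) := by
  rw [Quat.sub_coe, Pi.sub_apply, y0_mul, y0, Finset.mul_sum, sum_coe, bset, Finset.sum_filter,
    ← Finset.sum_sub_distrib]
  refine Finset.sum_congr rfl fun l hl => ?_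
  rw [mul_smul_comm, Quat.smul_coe, Pi.smul_apply, smul_eq_mul,
    mul_e_Pix (Finset.mem_filter.1 hl).2]
  by_cases h : (K l).2 = 1
  · rw [if_pos h, if_pos h]; ring
  · rw [if_neg h, if_neg h]; ring

theorem signed_sum_ne_zero (b : Finset (Fin m)) (hb : b.Nonempty) (s : Fin m → Bool) :
    (∑ l ∈ b, if s l then (2 : ℚ) ^ l.val else -(2 : ℚ) ^ l.val) ≠ 0 := by
  classical
  set M := b.max' hb with hM
  have hMb : M ∈ b := b.max'_mem hb
  have h1 : (∑ l ∈ b.erase M, |if s l then (2 : ℚ) ^ l.val else -(2 : ℚ) ^ l.val|) < 2 ^ M.val := by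
    have e : ∀ l : Fin m, |if s l then (2 : ℚ) ^ l.val else -(2 : ℚ) ^ l.val| = (2 : ℚ) ^ l.val := by
      intro l; split <;> simp
    simp only [e]
    have h2 : (∑ l ∈ b.erase M, (2 : ℕ) ^ l.val) < 2 ^ M.val := by
      rw [show (∑ l ∈ b.erase M, (2 : ℕ) ^ l.val) =
        ∑ i ∈ (b.erase M).map ⟨Fin.val, Fin.val_injective⟩, (2 : ℕ) ^ i from
        (Finset.sum_map (b.erase M) ⟨Fin.val, Fin.val_injective⟩ (fun i => (2 : ℕ) ^ i)).symm]
      refine Nat.geomSum_lt (le_refl 2) fun k hk => ?_
      obtain ⟨l, hl, rfl⟩ := Finset.mem_map.1 hk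
      exact lt_of_le_of_ne (b.le_max' l (Finset.mem_of_mem_erase hl))
        (Fin.val_ne_of_ne (Finset.ne_of_mem_erase hl))
    exact_mod_cast h2
  intro h0
  rw [← Finset.add_sum_erase _ _ hMb] at h0
  have h3 := Finset.abs_sum_le_sum_abs
    (fun l => if s l then (2 : ℚ) ^ l.val else -(2 : ℚ) ^ l.val) (b.erase M)
  rw [show (∑ l ∈ b.erase M, if s l then (2 : ℚ) ^ l.val else -(2 : ℚ) ^ l.val) =
    -(if s M then (2 : ℚ) ^ M.val else -(2 : ℚ) ^ M.val) by linarith, abs_neg] at h3
  have h4 : |if s M then (2 : ℚ) ^ M.val else -(2 : ℚ) ^ M.val| = (2 : ℚ) ^ M.val := by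
    split <;> simp
  linarith

theorem shift_injective (j : ℕ) (b : Finset (Fin m)) (hb : ∀ l ∈ b, l.val < j) :
    ∀ (μ : ℚ), (∀ s : Fin m → Bool,
      μ + (∑ l ∈ b, if s l then (2 : ℚ) ^ l.val else -(2 : ℚ) ^ l.val) ≠ 0) →
    ∀ v : Ix m → ℚ, (∀ K, μ * v K + ∑ l ∈ b, (2 : ℚ) ^ l.val * v (K + Pix l) = 0) → v = 0 := by
  classical
  induction b using Finset.induction_on with
  | empty =>
      intro μ hμ v hv
      funext K
      have := hv K
      simp only [Finset.sum_empty, add_zero] at this
      exact (mul_eq_zero.1 this).resolve_left (by simpa using hμ fun _ => true)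
  | insert l b hl ih =>
      intro μ hμ v hv
      have hlb : ∀ x ∈ b, x ≠ l := fun x hx e => hl (e ▸ hx)
      have h2 : Pix l + Pix l = 0 := ix_add_self _
      have hp : ∀ σ : Bool, (fun K => v K + (if σ then 1 else -1) * v (K + Pix l)) = 0 := by
        intro σ
        refine ih (fun x hx => hb x (Finset.mem_insert_of_mem hx))
          (μ + (if σ then 1 else -1) * (2 : ℚ) ^ l.val) (fun s h => ?_) _ (fun K => ?_)
        · refine hμ (Function.update s l σ) ?_
          rw [Finset.sum_insert hl, Function.update_self]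
          rw [Finset.sum_congr rfl fun x hx => by rw [Function.update_of_ne (hlb x hx)]]
          cases σ <;> simp at h ⊢ <;> linarith
        · have a := hv K
          have b' := hv (K + Pix l)
          rw [Finset.sum_insert hl] at a b'
          rw [add_assoc K (Pix l) (Pix l), h2, add_zero] at b'
          have e : ∀ x ∈ b, (2 : ℚ) ^ x.val *
              (v (K + Pix x) + (if σ then (1 : ℚ) else -1) * v (K + Pix x + Pix l)) =
              (2 : ℚ) ^ x.val * v (K + Pix x) + (if σ then (1 : ℚ) else -1) *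
                ((2 : ℚ) ^ x.val * v (K + Pix l + Pix x)) := fun x _ => by
            rw [add_right_comm K (Pix x) (Pix l)]; ring
          rw [Finset.sum_congr rfl e, Finset.sum_add_distrib, ← Finset.mul_sum]
          cases σ
          · simp only [if_false, Bool.false_eq_true]; linear_combination a - b'
          · simp only [if_true]; linear_combination a + b'
      funext K
      have a := congrFun (hp true) K
      have b' := congrFun (hp false) K
      simp at a b'
      show v K = 0
      linarith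

/-- The character on the indices of the span of the powers of `y0`. -/
def chiA (j : ℕ) (s : Fin m → Bool) (a : Quat (u0 m j)) : ℚ :=
  ∑ K ∈ Aset m j, (∏ l ∈ low m j, if (K l).1 = 1 ∧ s l = false then (-1 : ℚ) else 1) * a.coe K

theorem chiA_y0_mul (j : ℕ) (s : Fin m → Bool) (a : Quat (u0 m j)) :
    chiA j s (y0 m j * a) =
      (∑ l ∈ low m j, if s l then (2 : ℚ) ^ l.val else -(2 : ℚ) ^ l.val) * chiA j s a := by
  classical
  unfold chiA
  simp only [y0_mul]
  rw [Finset.sum_congr rfl fun K _ => Finset.mul_sum _ _ _, Finset.sum_comm, Finset.sum_mul]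
  refine Finset.sum_congr rfl fun l hl => ?_
  have hl' : l.val < j := (Finset.mem_filter.1 hl).2
  rw [Finset.mul_sum]
  refine Finset.sum_nbij' (fun K => K + Pix l) (fun K => K + Pix l)
    (fun K hK => (add_Pix_mem_Aset hl').2 hK) (fun K hK => (add_Pix_mem_Aset hl').2 hK)
    (fun K _ => by simp [add_assoc, ix_add_self]) (fun K _ => by simp [add_assoc, ix_add_self])
    fun K hK => ?_
  have hrest : (∏ l' ∈ (low m j).erase l,
      if ((K + Pix l) l').1 = 1 ∧ s l' = false then (-1 : ℚ) else 1) =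
      ∏ l' ∈ (low m j).erase l, if (K l').1 = 1 ∧ s l' = false then (-1 : ℚ) else 1 :=
    Finset.prod_congr rfl fun l' hl' => by simp [Pix_ne (Finset.ne_of_mem_erase hl')]
  rw [← Finset.mul_prod_erase _ _ hl, ← Finset.mul_prod_erase _ _ hl, hrest]
  rcases zmod2_cases (K l).1 with e | e <;> cases hs : s l <;>
    simp [e, Pix_at, show (1 : ZMod 2) + 1 = 0 by decide] <;> ring

theorem chiA_one {j : ℕ} (s : Fin m → Bool) : chiA j s (1 : Quat (u0 m j)) = 1 := by
  unfold chiA
  rw [Finset.sum_eq_single (0 : Ix m)]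
  · simp
  · intro K _ hK; simp [Pi.single_eq_of_ne hK]
  · intro h; exact absurd (mem_Aset.2 ⟨fun l _ => rfl, fun l _ => rfl⟩) h

theorem chiA_pow {j : ℕ} (s : Fin m → Bool) (k : ℕ) :
    chiA j s (y0 m j ^ k) =
      (∑ l ∈ low m j, if s l then (2 : ℚ) ^ l.val else -(2 : ℚ) ^ l.val) ^ k := by
  induction k with
  | zero => rw [pow_zero, pow_zero, chiA_one]
  | succ k ih => rw [pow_succ', pow_succ', chiA_y0_mul, ih]

/-- The signed sums are distinct. -/
theorem signed_sum_inj {j : ℕ} {s t : Fin m → Bool}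
    (h : (∑ l ∈ low m j, if s l then (2 : ℚ) ^ l.val else -(2 : ℚ) ^ l.val) =
      ∑ l ∈ low m j, if t l then (2 : ℚ) ^ l.val else -(2 : ℚ) ^ l.val) :
    ∀ l ∈ low m j, s l = t l := by
  classical
  intro l hl
  by_contra hne
  have hb : ((low m j).filter fun l => s l ≠ t l).Nonempty :=
    ⟨l, Finset.mem_filter.2 ⟨hl, hne⟩⟩
  apply signed_sum_ne_zero _ hb s
  rw [← sub_eq_zero, ← Finset.sum_sub_distrib] at h
  rw [Finset.sum_filter]
  have h' : ∀ x ∈ low m j, ((if s x then (2 : ℚ) ^ x.val else -(2 : ℚ) ^ x.val) -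
      if t x then (2 : ℚ) ^ x.val else -(2 : ℚ) ^ x.val) =
      2 * if s x ≠ t x then (if s x then (2 : ℚ) ^ x.val else -(2 : ℚ) ^ x.val) else 0 := by
    intro x _
    cases hs : s x <;> cases ht : t x <;> simp <;> ring
  rw [Finset.sum_congr rfl h', ← Finset.mul_sum] at h
  exact (mul_eq_zero.1 h).resolve_left (by norm_num)

theorem y0_pow_coe {j : ℕ} : ∀ (k : ℕ) (K : Ix m), K ∉ Aset m j → (y0 m j ^ k).coe K = 0
  | 0, K, hK => by
      rw [pow_zero, Quat.one_coe, Pi.single_eq_of_ne]
      rintro rfl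
      exact hK (mem_Aset.2 ⟨fun l _ => rfl, fun l _ => rfl⟩)
  | k + 1, K, hK => by
      rw [pow_succ', y0_mul]
      refine Finset.sum_eq_zero fun l hl => ?_
      rw [y0_pow_coe k _ (fun h => hK ((add_Pix_mem_Aset (Finset.mem_filter.1 hl).2).1 h)),
        mul_zero]

theorem y0_indep {j : ℕ} (hj : j ≤ m) (c : Fin (2 ^ j) → ℚ)
    (h : ∑ k, c k • (y0 m j ^ (k : ℕ)) = 0) : c = 0 := by
  classical
  let S : (Fin j → Bool) → Fin m → Bool := fun t l => if h : l.val < j then t ⟨l, h⟩ else true
  let lam : (Fin j → Bool) → ℚ := fun t =>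
    ∑ l ∈ low m j, if S t l then (2 : ℚ) ^ l.val else -(2 : ℚ) ^ l.val
  have hlam : Function.Injective lam := by
    intro t t' he
    funext i
    have := signed_sum_inj he ⟨i.val, by omega⟩ (Finset.mem_filter.2 ⟨mem_univ _, i.isLt⟩)
    simpa [S, i.isLt] using this
  let p : Polynomial ℚ := ∑ k : Fin (2 ^ j), Polynomial.monomial (k : ℕ) (c k)
  have hp : ∀ t, p.eval (lam t) = 0 := by
    intro t
    have e : chiA j (S t) (∑ k, c k • (y0 m j ^ (k : ℕ))) = p.eval (lam t) := by
      simp only [chiA, sum_coe, Quat.smul_coe, Pi.smul_apply, smul_eq_mul, Finset.mul_sum, p,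
        Polynomial.eval_finsetSum, Polynomial.eval_monomial]
      rw [Finset.sum_comm]
      refine Finset.sum_congr rfl fun k _ => ?_
      rw [← chiA_pow (S t) k, chiA, Finset.mul_sum]
      exact Finset.sum_congr rfl fun K _ => by ring
    rw [← e, h]; simp [chiA]
  have hdeg : p.degree < (Fintype.card (Fin j → Bool) : ℕ) := by
    refine (Polynomial.degree_sum_le _ _).trans_lt ?_
    rw [Finset.sup_lt_iff (WithBot.bot_lt_coe _)]
    intro k _
    refine (Polynomial.degree_monomial_le _ _).trans_lt ?_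
    simp
    exact_mod_cast k.isLt
  have hp0 : p = 0 := by
    refine Polynomial.eq_zero_of_degree_lt_of_eval_finset_eq_zero (univ.image lam) ?_ ?_
    · rwa [Finset.card_image_of_injective _ hlam, Finset.card_univ]
    · intro x hx
      obtain ⟨t, -, rfl⟩ := Finset.mem_image.1 hx
      exact hp t
  funext k
  have := congrArg (fun q => Polynomial.coeff q (k : ℕ)) hp0
  simpa [p, Polynomial.finsetSum_coeff, Polynomial.coeff_monomial, Fin.val_inj] using this

theorem kap_self_Aset {j : ℕ} {K : Ix m} (hK : K ∈ Aset m j) : kap (u0 m j) K K = 1 := by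
  rw [mem_Aset] at hK
  refine Finset.prod_eq_one fun l _ => ?_
  by_cases hl : l.val < j
  · have := hK.1 l hl
    simp [kap1, this, u0, hl]
  · rw [hK.2 l (by omega)]; exact (kap1_zero _ _ _).1

end Vale.Agent.P199
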