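import Vale.Agent.P199.Psi4

/-!
Multidegrees of homogeneous ideals in polynomial rings.
-/

set_option linter.unusedSectionVars false

noncomputable section

namespace Vale.Agent.P199

open MvPolynomial
open scoped PowerSeries

/-- The grading group. -/
abbrev Gr (r : ℕ) := Lex (Fin r → ℤ)

/-- The ring of multidegrees. -/
abbrev Wt (r : ℕ) := MvPolynomial (Fin r) ℤ

variable {r : ℕ}

/-- The unit `1 + wᵢ X`. -/
def baseUnit (i : Fin r) : ((Wt r)⟦X⟧)ˣ :=
  (PowerSeries.isUnit_iff_constantCoeff.2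
    (by simp : IsUnit (PowerSeries.constantCoeff
      (1 + PowerSeries.C (X i : Wt r) * PowerSeries.X)))).unit

theorem baseUnit_val (i : Fin r) :
    (baseUnit i : (Wt r)⟦X⟧) = 1 + PowerSeries.C (X i : Wt r) * PowerSeries.X :=
  IsUnit.unit_spec _

/-- The character attached to a degree. -/
def chiU (g : Gr r) : ((Wt r)⟦X⟧)ˣ := ∏ i, baseUnit i ^ (ofLex g i)

/-- The character attached to a degree. -/
def chi (g : Gr r) : (Wt r)⟦X⟧ := (chiU g : ((Wt r)⟦X⟧)ˣ)

theorem chiU_add (a b : Gr r) : chiU (a + b) = chiU a * chiU b := by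
  rw [chiU, chiU, chiU, ← Finset.prod_mul_distrib]
  exact Finset.prod_congr rfl fun i _ => by rw [← zpow_add]; rfl

theorem chi_add (a b : Gr r) : chi (a + b) = chi a * chi b := by
  rw [chi, chi, chi, chiU_add, Units.val_mul]

theorem chi_zero : chi (0 : Gr r) = 1 := by
  rw [chi, chiU]
  rw [Finset.prod_eq_one, Units.val_one]
  intro i _
  show baseUnit i ^ (0 : ℤ) = 1
  simp

/-- The linear form attached to a degree. -/
def lin (g : Gr r) : Wt r := ∑ i, C (ofLex g i) * X i

theorem constCoeff_chi (g : Gr r) : PowerSeries.constantCoeff (chi g) = 1 := by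
  have : ∀ i : Fin r, Units.map
      (PowerSeries.constantCoeff (R := Wt r)).toMonoidHom (baseUnit i) = 1 := fun i => by
    ext1; simp [baseUnit_val]
  have h : Units.map (PowerSeries.constantCoeff (R := Wt r)).toMonoidHom (chiU g) = 1 := by
    rw [chiU, map_prod]
    exact Finset.prod_eq_one fun i _ => by rw [map_zpow, this, one_zpow]
  exact congrArg Units.val h

theorem coeff_one_mul (a b : (Wt r)⟦X⟧) :
    PowerSeries.coeff 1 (a * b) = PowerSeries.constantCoeff a * PowerSeries.coeff 1 b +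
      PowerSeries.coeff 1 a * PowerSeries.constantCoeff b := by
  rw [PowerSeries.coeff_mul, Finset.Nat.sum_antidiagonal_succ]
  simp [PowerSeries.coeff_zero_eq_constantCoeff]

/-- The first coefficient, as an additive map. -/
def coeff1Hom : Gr r →+ Wt r where
  toFun g := PowerSeries.coeff 1 (chi g)
  map_zero' := by simp [chi_zero]
  map_add' a b := by
    rw [chi_add, coeff_one_mul, constCoeff_chi, constCoeff_chi]; ring

theorem coeff_one_chi (g : Gr r) : PowerSeries.coeff 1 (chi g) = lin g := by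
  classical
  have hg : g = ∑ i, ofLex g i • toLex (Pi.single i (1 : ℤ)) := by
    apply ofLex.injective
    funext j
    rw [show ofLex (∑ i, ofLex g i • toLex (Pi.single i (1 : ℤ))) =
      ∑ i, ofLex g i • (Pi.single i (1 : ℤ) : Fin r → ℤ) from rfl]
    simp only [Finset.sum_apply, Pi.smul_apply, Pi.single_apply, smul_eq_mul, mul_ite, mul_one,
      mul_zero]
    exact ((Finset.sum_ite_eq Finset.univ j fun x => ofLex g x).trans (if_pos (Finset.mem_univ j))).symm
  have hi : ∀ i : Fin r, chi (toLex (Pi.single i (1 : ℤ))) =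
      1 + PowerSeries.C (X i : Wt r) * PowerSeries.X := fun i => by
    rw [chi, chiU, Finset.prod_eq_single i]
    · show ((baseUnit i ^ (Pi.single i (1 : ℤ) : Fin r → ℤ) i : ((Wt r)⟦X⟧)ˣ) : (Wt r)⟦X⟧) = _
      rw [Pi.single_eq_same, zpow_one, baseUnit_val]
    · intro j _ hj
      show baseUnit j ^ (Pi.single i (1 : ℤ) : Fin r → ℤ) j = 1
      rw [Pi.single_eq_of_ne hj, zpow_zero]
    · simp
  conv_lhs => rw [hg]
  rw [show PowerSeries.coeff 1 (chi (∑ i, ofLex g i • toLex (Pi.single i (1 : ℤ)))) =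
    coeff1Hom (∑ i, ofLex g i • toLex (Pi.single i (1 : ℤ))) from rfl, map_sum, lin]
  refine Finset.sum_congr rfl fun i _ => ?_
  rw [map_zsmul]
  show ofLex g i • PowerSeries.coeff 1 (chi (toLex (Pi.single i (1 : ℤ)))) = _
  rw [hi, zsmul_eq_mul]
  simp

/-- Vanishing of the coefficients below `c`. -/
def ordIdeal (c : ℕ) : Ideal ((Wt r)⟦X⟧) where
  carrier := {x | ∀ j < c, PowerSeries.coeff j x = 0}
  add_mem' {a b} ha hb j hj := by rw [map_add, ha j hj, hb j hj, add_zero]
  zero_mem' j _ := map_zero _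
  smul_mem' y x hx j hj := by
    rw [smul_eq_mul, PowerSeries.coeff_mul]
    refine Finset.sum_eq_zero fun p hp => ?_
    have h := Finset.HasAntidiagonal.mem_antidiagonal.1 hp
    rw [hx p.2 (by omega), mul_zero]

theorem coeff_mul_of_ord {c : ℕ} {x : (Wt r)⟦X⟧} (hx : x ∈ ordIdeal c) (y : (Wt r)⟦X⟧) :
    PowerSeries.coeff c (y * x) = PowerSeries.constantCoeff y * PowerSeries.coeff c x := by
  rw [PowerSeries.coeff_mul, Finset.sum_eq_single (0, c)]
  · rw [PowerSeries.coeff_zero_eq_constantCoeff]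
  · intro p hp hne
    have h := Finset.HasAntidiagonal.mem_antidiagonal.1 hp
    have : p.2 < c := by
      rcases Nat.eq_zero_or_pos p.1 with h0 | h0
      · exact absurd (Prod.ext h0 (by omega)) hne
      · omega
    rw [hx p.2 this, mul_zero]
  · simp

theorem coeff_one_sub_mul {c : ℕ} {x : (Wt r)⟦X⟧} (hx : x ∈ ordIdeal c) (d : Gr r) :
    PowerSeries.coeff (c + 1) ((1 - chi d) * x) = -lin d * PowerSeries.coeff c x := by
  rw [PowerSeries.coeff_mul, Finset.sum_eq_single (1, c)]
  · rw [map_sub, coeff_one_chi]; simp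
  · intro p hp hne
    have h := Finset.HasAntidiagonal.mem_antidiagonal.1 hp
    rcases Nat.eq_zero_or_pos p.1 with h0 | h0
    · rw [h0, PowerSeries.coeff_zero_eq_constantCoeff, map_sub, map_one, constCoeff_chi,
        sub_self, zero_mul]
    · have : p.2 < c := by
        rcases Nat.lt_or_ge 1 p.1 with h1 | h1
        · omega
        · exact absurd (Prod.ext (show p.1 = 1 by omega) (by omega)) hne
      rw [hx p.2 this, mul_zero]
  · simp [add_comm]

theorem ord_of_one_sub_mul {c : ℕ} {x : (Wt r)⟦X⟧} {d : Gr r} (hd : lin d ≠ 0)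
    (h : (1 - chi d) * x ∈ ordIdeal (c + 1)) : x ∈ ordIdeal c := by
  intro j hj
  induction j using Nat.strong_induction_on with
  | _ j ih =>
      have hx : x ∈ ordIdeal j := fun i hi => ih i hi (by omega)
      have h1 := h (j + 1) (by omega)
      rw [coeff_one_sub_mul hx] at h1
      exact (mul_eq_zero.1 h1).resolve_left (neg_ne_zero.2 hd)

section grading

variable {σ k : Type} [Field k]

/-- The grading of a polynomial ring by weights. -/
def grd0 (w : σ → Gr r) : Grd (Gr r) k (MvPolynomial σ k) where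
  pr g := weightedHomogeneousComponent w g
  supp p := p.support.image (Finsupp.weight w)
  sum_pr p := by
    classical
    conv_rhs => rw [← sum_weightedHomogeneousComponent w p]
    refine (finsum_eq_sum_of_support_subset _ fun g hg => ?_).symm
    by_contra h
    exact hg (weightedHomogeneousComponent_eq_zero_of_notMem w p g h)
  pr_eq_zero p g h := by classical exact weightedHomogeneousComponent_eq_zero_of_notMem w p g h
  pr_idem g p :=
    (weightedHomogeneousComponent_isWeightedHomogeneous g p).weightedHomogeneousComponent_same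
  pr_ne g h p hne :=
    (weightedHomogeneousComponent_isWeightedHomogeneous h p).weightedHomogeneousComponent_ne g hne

theorem isWH_of_pr {w : σ → Gr r} {g : Gr r} {p : MvPolynomial σ k}
    (h : (grd0 w).pr g p = p) : IsWeightedHomogeneous w p g := by
  rw [← h]; exact weightedHomogeneousComponent_isWeightedHomogeneous g p

theorem pr_of_isWH {w : σ → Gr r} {g : Gr r} {p : MvPolynomial σ k}
    (h : IsWeightedHomogeneous w p g) : (grd0 w).pr g p = p :=
  h.weightedHomogeneousComponent_same

theorem pr_mul_hom {w : σ → Gr r} {d : Gr r} {a : MvPolynomial σ k}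
    (ha : IsWeightedHomogeneous w a d) (g : Gr r) (x : MvPolynomial σ k) :
    (grd0 w).pr g (x * a) = (grd0 w).pr (g - d) x * a := by
  have key : ∀ h : Gr r, (grd0 w).pr g ((grd0 w).pr h x * a) =
      (grd0 w).pr (g - d) ((grd0 w).pr h x) * a := by
    intro h
    have hh : IsWeightedHomogeneous w ((grd0 w).pr h x * a) (h + d) :=
      (weightedHomogeneousComponent_isWeightedHomogeneous h x).mul ha
    by_cases e : g = h + d
    · have e' : g - d = h := by rw [e, add_sub_cancel_right]
      rw [e', (grd0 w).pr_idem, e, pr_of_isWH hh]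
    · rw [show (grd0 w).pr g ((grd0 w).pr h x * a) = 0 from hh.weightedHomogeneousComponent_ne g e,
        (grd0 w).pr_ne (g - d) h x (fun e' => e (by rw [← e', sub_add_cancel])), zero_mul]
  conv_lhs => rw [← (grd0 w).sum_pr x]
  rw [Finset.sum_mul, map_sum, Finset.sum_congr rfl fun h _ => key h, ← Finset.sum_mul, ← map_sum,
    (grd0 w).sum_pr]

theorem pr_hom_mul {w : σ → Gr r} {d : Gr r} {a : MvPolynomial σ k}
    (ha : IsWeightedHomogeneous w a d) (g : Gr r) (x : MvPolynomial σ k) :
    (grd0 w).pr g (a * x) = a * (grd0 w).pr (g - d) x := by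
  rw [mul_comm, pr_mul_hom ha, mul_comm]

/-- The grading of a free module with shifts. -/
def grdFree {ι : Type} [Fintype ι] (w : σ → Gr r) (s : ι → Gr r) :
    Grd (Gr r) k (ι → MvPolynomial σ k) where
  pr g := LinearMap.pi fun i => ((grd0 w).pr (g - s i)).comp (LinearMap.proj i)
  supp v := Finset.univ.biUnion fun i => ((grd0 w).supp (v i)).image (· + s i)
  sum_pr v := by
    classical
    funext i
    rw [Finset.sum_apply]
    show ∑ g ∈ _, (grd0 w).pr (g - s i) (v i) = v i
    conv_rhs => rw [← (grd0 w).sum_pr (v i)]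
    rw [← Finset.sum_subset (s₁ := ((grd0 w).supp (v i)).image (· + s i))
      (fun g hg => Finset.mem_biUnion.2 ⟨i, Finset.mem_univ _, hg⟩)
      (fun g _ hg => (grd0 w).pr_eq_zero _ _ fun h =>
        hg (Finset.mem_image.2 ⟨g - s i, h, sub_add_cancel _ _⟩)),
      Finset.sum_image (fun a _ b _ h => add_right_cancel h)]
    exact Finset.sum_congr rfl fun g _ => by rw [add_sub_cancel_right]
  pr_eq_zero v g h := by
    classical
    funext i
    refine (grd0 w).pr_eq_zero _ _ fun hg => h (Finset.mem_biUnion.2 ⟨i, Finset.mem_univ _, ?_⟩)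
    exact Finset.mem_image.2 ⟨g - s i, hg, sub_add_cancel _ _⟩
  pr_idem g v := funext fun i => (grd0 w).pr_idem _ _
  pr_ne g h v hne := funext fun i => (grd0 w).pr_ne _ _ _ fun e => hne (sub_left_injective e)

theorem grdFree_pr {ι : Type} [Fintype ι] (w : σ → Gr r) (s : ι → Gr r) (g : Gr r)
    (v : ι → MvPolynomial σ k) (i : ι) :
    (grdFree w s).pr g v i = (grd0 w).pr (g - s i) (v i) := rfl

theorem compatible0 (w : σ → Gr r) : Compatible (MvPolynomial σ k) (grd0 (k := k) w) := by
  intro a g h b hb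
  rw [smul_eq_mul, pr_mul_hom (isWH_of_pr hb)]
  exact Submodule.mem_span_singleton.2 ⟨_, rfl⟩

theorem grdFree_smul {ι : Type} [Fintype ι] {w : σ → Gr r} {s : ι → Gr r} {g : Gr r}
    {b : ι → MvPolynomial σ k} (hb : (grdFree w s).pr g b = b) (a : MvPolynomial σ k)
    (h : Gr r) : (grdFree w s).pr h (a • b) = (grd0 w).pr (h - g) a • b := by
  funext i
  rw [grdFree_pr, Pi.smul_apply, Pi.smul_apply, smul_eq_mul, smul_eq_mul,
    pr_mul_hom (isWH_of_pr (show (grd0 w).pr (g - s i) (b i) = b i from congrFun hb i))]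
  rw [show h - s i - (g - s i) = h - g by abel]

theorem compatibleFree {ι : Type} [Fintype ι] (w : σ → Gr r) (s : ι → Gr r) :
    Compatible (MvPolynomial σ k) (grdFree (k := k) w s) := by
  intro a g h b hb
  rw [grdFree_smul hb]
  exact Submodule.mem_span_singleton.2 ⟨_, rfl⟩

/-- `a ↦ a • b` for homogeneous `b` in the free module. -/
def cyclicFree {ι : Type} [Fintype ι] {w : σ → Gr r} {s : ι → Gr r} {g : Gr r}
    {b : ι → MvPolynomial σ k} (hb : (grdFree w s).pr g b = b) :
    HMap (MvPolynomial σ k) (grd0 (k := k) w) (grdFree w s) where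
  f := LinearMap.toSpanSingleton _ _ b
  d := g
  hom h a := by
    simp only [LinearMap.toSpanSingleton_apply]
    rw [grdFree_smul hb, add_sub_cancel_right]

/-- `a ↦ a * b` for homogeneous `b`. -/
def cyclic0 {w : σ → Gr r} {g : Gr r} {b : MvPolynomial σ k}
    (hb : IsWeightedHomogeneous w b g) :
    HMap (MvPolynomial σ k) (grd0 (k := k) w) (grd0 w) where
  f := LinearMap.toSpanSingleton _ _ b
  d := g
  hom h a := by
    simp only [LinearMap.toSpanSingleton_apply, smul_eq_mul]
    rw [pr_mul_hom hb, add_sub_cancel_right]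

/-- Multiplication by a variable. -/
def opVar {V : Type} [AddCommGroup V] [Module k V] [Module (MvPolynomial σ k) V]
    [IsScalarTower k (MvPolynomial σ k) V] (w : σ → Gr r) (𝒢 : Grd (Gr r) k V)
    (h : ∀ v g x, 𝒢.pr (g + w v) ((X v : MvPolynomial σ k) • x) =
      (X v : MvPolynomial σ k) • 𝒢.pr g x) (v : σ) :
    Op (MvPolynomial σ k) 𝒢 where
  f := LinearMap.lsmul _ _ (X v : MvPolynomial σ k)
  d := w v
  hom g x := h v g x

theorem hX0 (w : σ → Gr r) (v : σ) (g : Gr r) (x : MvPolynomial σ k) :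
    (grd0 w).pr (g + w v) ((X v : MvPolynomial σ k) • x) =
      (X v : MvPolynomial σ k) • (grd0 w).pr g x := by
  rw [smul_eq_mul, smul_eq_mul, pr_hom_mul (isWeightedHomogeneous_X k w v), add_sub_cancel_right]

theorem hXFree {ι : Type} [Fintype ι] (w : σ → Gr r) (s : ι → Gr r) (v : σ) (g : Gr r)
    (x : ι → MvPolynomial σ k) :
    (grdFree w s).pr (g + w v) ((X v : MvPolynomial σ k) • x) =
      (X v : MvPolynomial σ k) • (grdFree w s).pr g x := by
  funext i
  rw [grdFree_pr, Pi.smul_apply, Pi.smul_apply, grdFree_pr, ← hX0]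
  rw [show g + w v - s i = g - s i + w v by abel]

/-- The operators of the variables on the ring. -/
def ops0 (w : σ → Gr r) (L : List σ) : List (Op (MvPolynomial σ k) (grd0 (k := k) w)) :=
  L.map (opVar w (grd0 w) (hX0 w))

/-- The operators of the variables on a free module. -/
def opsFree {ι : Type} [Fintype ι] (w : σ → Gr r) (s : ι → Gr r) (L : List σ) :
    List (Op (MvPolynomial σ k) (grdFree (k := k) w s)) :=
  L.map (opVar w (grdFree w s) (hXFree w s))

theorem isMul_map_opVar {V : Type} [AddCommGroup V] [Module k V] [Module (MvPolynomial σ k) V]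
    [IsScalarTower k (MvPolynomial σ k) V] (w : σ → Gr r) (𝒢 : Grd (Gr r) k V)
    (h : ∀ v g x, 𝒢.pr (g + w v) ((X v : MvPolynomial σ k) • x) =
      (X v : MvPolynomial σ k) • 𝒢.pr g x) (L : List σ) :
    IsMul (L.map (opVar w 𝒢 h)) := by
  intro o ho
  obtain ⟨v, -, rfl⟩ := List.mem_map.1 ho
  exact ⟨X v, fun x => rfl⟩

/-- The generators of the polynomial ring. -/
abbrev varSet (σ k : Type) [Field k] : Set (MvPolynomial σ k) := Set.range X

theorem varSet_gen : Algebra.adjoin k (varSet σ k) = ⊤ := MvPolynomial.adjoin_range_X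

theorem vars1_map_opVar {V : Type} [AddCommGroup V] [Module k V] [Module (MvPolynomial σ k) V]
    [IsScalarTower k (MvPolynomial σ k) V] (w : σ → Gr r) (𝒢 : Grd (Gr r) k V)
    (h : ∀ v g x, 𝒢.pr (g + w v) ((X v : MvPolynomial σ k) • x) =
      (X v : MvPolynomial σ k) • 𝒢.pr g x) {L : List σ} (hL : ∀ v, v ∈ L)
    (A B : Submodule (MvPolynomial σ k) V) :
    Vars1 (varSet σ k) (L.map (opVar w 𝒢 h)) A B := by
  rintro _ ⟨v, rfl⟩
  refine Or.inr ⟨_, List.mem_map.2 ⟨v, hL v, rfl⟩, 0, fun x => ?_⟩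
  show (X v : MvPolynomial σ k) • x = _
  simp

variable [Fintype σ]

theorem good0 (w : σ → Gr r) {L : List σ} (hL : ∀ v, v ∈ L) {A B : Ideal (MvPolynomial σ k)}
    (hA : (grd0 w).Homog A) (hB : (grd0 w).Homog B) (hAB : A ≤ B) :
    Good (varSet σ k) (ops0 w L) A B :=
  Vars1.good (isMul_map_opVar _ _ _ _) hAB hA hB ((IsNoetherian.noetherian B).map _)
    (vars1_map_opVar _ _ _ hL A B)

theorem goodFree {ι : Type} [Fintype ι] (w : σ → Gr r) (s : ι → Gr r) {L : List σ}
    (hL : ∀ v, v ∈ L) {A B : Submodule (MvPolynomial σ k) (ι → MvPolynomial σ k)}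
    (hA : (grdFree w s).Homog A) (hB : (grdFree w s).Homog B) (hAB : A ≤ B) :
    Good (varSet σ k) (opsFree w s L) A B :=
  Vars1.good (isMul_map_opVar _ _ _ _) hAB hA hB ((IsNoetherian.noetherian B).map _)
    (vars1_map_opVar _ _ _ hL A B)

/-- The Euler characteristic of a quotient of the ring. -/
def KK (w : σ → Gr r) (L : List σ) (I : Ideal (MvPolynomial σ k)) : (Wt r)⟦X⟧ :=
  psi chi (ops0 w L) I ⊤

theorem intertw_cyclicFree {ι : Type} [Fintype ι] {w : σ → Gr r} {s : ι → Gr r} {g : Gr r}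
    {b : ι → MvPolynomial σ k} (hb : (grdFree w s).pr g b = b) (L : List σ) :
    List.Forall₂ (Intertw (cyclicFree hb)) (ops0 w L) (opsFree w s L) := by
  rw [ops0, opsFree, List.forall₂_map_left_iff, List.forall₂_map_right_iff]
  refine List.forall₂_same.2 fun v _ => ⟨rfl, 1, one_ne_zero, fun x => ?_⟩
  show ((X v : MvPolynomial σ k) • x) • b = (1 : k) • ((X v : MvPolynomial σ k) • x • b)
  rw [one_smul, smul_eq_mul, mul_smul]

theorem intertw_cyclic0 {w : σ → Gr r} {g : Gr r} {b : MvPolynomial σ k}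
    (hb : IsWeightedHomogeneous w b g) (L : List σ) :
    List.Forall₂ (Intertw (cyclic0 hb)) (ops0 w L) (ops0 w L) := by
  refine List.forall₂_same.2 fun o ho => ⟨rfl, 1, one_ne_zero, fun x => ?_⟩
  obtain ⟨v, -, rfl⟩ := List.mem_map.1 ho
  show ((X v : MvPolynomial σ k) • x) • b = (1 : k) • ((X v : MvPolynomial σ k) • x • b)
  simp [mul_assoc]

theorem psi_cyclicFree {ι : Type} [Fintype ι] {w : σ → Gr r} {s : ι → Gr r} {g : Gr r}
    {L : List σ} (hL : ∀ v, v ∈ L)
    {A : Submodule (MvPolynomial σ k) (ι → MvPolynomial σ k)} (hA : (grdFree w s).Homog A)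
    {b : ι → MvPolynomial σ k} (hb : (grdFree w s).pr g b = b) :
    psi chi (opsFree w s L) A (A ⊔ Submodule.span _ {b}) =
      chi g * KK w L (A.comap (cyclicFree hb).f) := by
  have hB : (grdFree w s).Homog (A ⊔ Submodule.span _ {b}) :=
    hA.sup (homog_span_singleton hb fun a h => compatibleFree w s a g h b hb)
  refine psi_translate varSet_gen chi_add (cyclicFree hb) (intertw_cyclicFree hb L)
    (good0 w hL ((cyclicFree hb).comap_homog hA) (Grd.homog_top _) le_top)
    ((isMul_map_opVar _ _ _ _).stab hA) ((isMul_map_opVar _ _ _ _).stab hB)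
    (isMul_map_opVar _ _ _ _).pairwise ?_ (top_inf_eq _)
  rw [Submodule.map_top, show (cyclicFree hb).f = LinearMap.toSpanSingleton _ _ b from rfl,
    LinearMap.range_toSpanSingleton, sup_comm]

theorem psi_cyclic0 {w : σ → Gr r} {g : Gr r}
    {L : List σ} (hL : ∀ v, v ∈ L) {A : Ideal (MvPolynomial σ k)} (hA : (grd0 w).Homog A)
    {b : MvPolynomial σ k} (hb : IsWeightedHomogeneous w b g) :
    psi chi (ops0 w L) A (A ⊔ Submodule.span _ {b}) =
      chi g * KK w L (Submodule.comap (cyclic0 hb).f A) := by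
  have hB : (grd0 w).Homog (A ⊔ Submodule.span _ {b}) :=
    hA.sup (homog_span_singleton (pr_of_isWH hb) fun a h =>
      compatible0 w a g h b (pr_of_isWH hb))
  refine psi_translate varSet_gen chi_add (cyclic0 hb) (intertw_cyclic0 hb L)
    (good0 w hL ((cyclic0 hb).comap_homog hA) (Grd.homog_top _) le_top)
    ((isMul_map_opVar _ _ _ _).stab hA) ((isMul_map_opVar _ _ _ _).stab hB)
    (isMul_map_opVar _ _ _ _).pairwise ?_ (top_inf_eq _)
  rw [Submodule.map_top, show (cyclic0 hb).f = LinearMap.toSpanSingleton _ _ b from rfl,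
    LinearMap.range_toSpanSingleton, sup_comm]

theorem KK_top (w : σ → Gr r) {L : List σ} (hL : ∀ v, v ∈ L) :
    KK (k := k) w L ⊤ = 0 := by
  have h := psi_add varSet_gen chi_add chi_zero
    (good0 (k := k) w hL (Grd.homog_top _) (Grd.homog_top _) le_rfl)
    ((isMul_map_opVar _ _ _ _).stab (Grd.homog_top _)) le_rfl le_rfl
  unfold KK
  linear_combination -h

theorem KK_split (w : σ → Gr r) {L : List σ} (hL : ∀ v, v ∈ L) {I : Ideal (MvPolynomial σ k)}
    (hI : (grd0 w).Homog I) {g : Gr r} {a : MvPolynomial σ k}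
    (ha : IsWeightedHomogeneous w a g) :
    KK w L I = chi g * KK w L (Submodule.comap (cyclic0 ha).f I) + KK w L (I ⊔ Ideal.span {a}) := by
  have hB : (grd0 w).Homog (I ⊔ Ideal.span {a}) :=
    hI.sup (homog_span_singleton (pr_of_isWH ha) fun b h =>
      compatible0 w b g h a (pr_of_isWH ha))
  have h := psi_add varSet_gen chi_add chi_zero (good0 w hL hI (Grd.homog_top _) le_top)
    ((isMul_map_opVar _ _ _ _).stab hB) le_sup_left le_top
  rw [← psi_cyclic0 hL hI ha]
  exact h

theorem KK_sup_prime (w : σ → Gr r) {L : List σ} (hL : ∀ v, v ∈ L) {q : Ideal (MvPolynomial σ k)}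
    [hq : q.IsPrime] (hqh : (grd0 w).Homog q) {g : Gr r} {a : MvPolynomial σ k}
    (ha : IsWeightedHomogeneous w a g) (haq : a ∉ q) :
    KK w L (q ⊔ Ideal.span {a}) = (1 - chi g) * KK w L q := by
  have h := KK_split w hL hqh ha
  have e : Submodule.comap (cyclic0 ha).f q = q := by
    ext x
    show x • a ∈ q ↔ x ∈ q
    exact ⟨fun h => (hq.mem_or_mem h).resolve_right haq, fun h => q.mul_mem_right a h⟩
  rw [e] at h
  linear_combination -h

theorem isPrime_of_homog {w : σ → Gr r} {I : Ideal (MvPolynomial σ k)}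
    (hI : (grd0 w).Homog I) (htop : I ≠ ⊤)
    (h : ∀ {x y : MvPolynomial σ k},
      SetLike.IsHomogeneousElem (weightedHomogeneousSubmodule k w) x →
      SetLike.IsHomogeneousElem (weightedHomogeneousSubmodule k w) y →
      x * y ∈ I → x ∈ I ∨ y ∈ I) : I.IsPrime := by
  let _dec : DecidableEq (Gr r) := LinearOrder.toDecidableEq
  let inst : GradedAlgebra (weightedHomogeneousSubmodule k w) := weightedGradedAlgebra k w
  have hh : @Ideal.IsHomogeneous (Gr r) (Submodule k (MvPolynomial σ k)) (MvPolynomial σ k) _ _ _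
      (weightedHomogeneousSubmodule k w) _ _ inst I := by
    intro g x hx
    exact (weightedDecomposition.decompose'_apply k w x g).symm ▸ hI x hx g
  exact @Ideal.IsHomogeneous.isPrime_of_homogeneous_mem_or_mem (Gr r)
    (Submodule k (MvPolynomial σ k)) (MvPolynomial σ k) _ _ _ _ _ _ (weightedHomogeneousSubmodule k w)
    inst I hh htop h

/-- Every property is checked on primes by dévissage. -/
theorem devissage (w : σ → Gr r) {L : List σ} (hL : ∀ v, v ∈ L) (𝔞 : Ideal ((Wt r)⟦X⟧))
    {I : Ideal (MvPolynomial σ k)}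
    (hprime : ∀ p : Ideal (MvPolynomial σ k), p.IsPrime → (grd0 w).Homog p → I ≤ p →
      KK w L p ∈ 𝔞) :
    ∀ J : Ideal (MvPolynomial σ k), (grd0 w).Homog J → I ≤ J → KK w L J ∈ 𝔞 := by
  intro J
  induction J using WellFoundedGT.induction with
  | ind J ih =>
      intro hJ hIJ
      by_cases htop : J = ⊤
      · rw [htop, KK_top w hL]; exact 𝔞.zero_mem
      by_cases hp : J.IsPrime
      · exact hprime J hp hJ hIJ
      have : ¬ ∀ {x y : MvPolynomial σ k},
          SetLike.IsHomogeneousElem (weightedHomogeneousSubmodule k w) x →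
          SetLike.IsHomogeneousElem (weightedHomogeneousSubmodule k w) y →
          x * y ∈ J → x ∈ J ∨ y ∈ J := fun h => hp (isPrime_of_homog hJ htop h)
      simp only [not_forall, not_or] at this
      obtain ⟨x, y, ⟨g, hx⟩, ⟨g', hy⟩, hxy, hxJ, hyJ⟩ := this
      have hx' : IsWeightedHomogeneous w x g := hx
      rw [KK_split w hL hJ hx']
      refine 𝔞.add_mem (𝔞.mul_mem_left _ (ih _ ?_ ((cyclic0 hx').comap_homog hJ) ?_))
        (ih _ ?_ (hJ.sup (homog_span_singleton (pr_of_isWH hx') fun b h =>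
          compatible0 w b g h x (pr_of_isWH hx'))) (hIJ.trans le_sup_left))
      · refine SetLike.lt_iff_le_and_exists.2 ⟨fun z hz => J.mul_mem_right x hz, y, ?_, hyJ⟩
        show y * x ∈ J
        rwa [mul_comm]
      · exact fun z hz => J.mul_mem_right x (hIJ hz)
      · exact SetLike.lt_iff_le_and_exists.2
          ⟨le_sup_left, x, Submodule.mem_sup_right (Ideal.mem_span_singleton_self x), hxJ⟩

/-- Dévissage for subquotients of free modules. -/
theorem devissageFree {ι : Type} [Fintype ι] (w : σ → Gr r) (s : ι → Gr r) {L : List σ}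
    (hL : ∀ v, v ∈ L) (𝔞 : Ideal ((Wt r)⟦X⟧)) {I : Ideal (MvPolynomial σ k)}
    (hprime : ∀ p : Ideal (MvPolynomial σ k), p.IsPrime → (grd0 w).Homog p → I ≤ p →
      KK w L p ∈ 𝔞)
    {A B : Submodule (MvPolynomial σ k) (ι → MvPolynomial σ k)}
    (hA : (grdFree w s).Homog A) (hB : (grdFree w s).Homog B) (hAB : A ≤ B)
    (hkill : ∀ a ∈ I, ∀ b ∈ B, a • b ∈ A) :
    psi chi (opsFree w s L) A B ∈ 𝔞 := by
  rw [← Ideal.Quotient.eq_zero_iff_mem]
  refine mul_induct (χ := fun _ : Gr r => (1 : (Wt r)⟦X⟧ ⧸ 𝔞)) varSet_gen (fun _ _ => (one_mul 1).symm)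
    rfl (compatibleFree w s) (isMul_map_opVar _ _ _ _)
    (fun A B => Ideal.Quotient.mk 𝔞 (psi chi (opsFree w s L) A B))
    (A₀ := A) (B₀ := B) ?_ ?_ le_rfl le_rfl (goodFree w s hL hA hB hAB)
  · intro A' B' C' _ _ hg sB h1 h2
    change Good _ (opsFree w s L) A' C' at hg
    change Stab (opsFree w s L) B' at sB
    show _ = _ + _
    rw [psi_add varSet_gen chi_add chi_zero hg sB h1 h2, map_add]
  · intro A' b g hA' hB' hg hb
    show _ = (0 : (Wt r)⟦X⟧ ⧸ 𝔞)
    rw [Ideal.Quotient.eq_zero_iff_mem, psi_cyclicFree hL hg.sA.hom hb]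
    refine 𝔞.mul_mem_left _ (devissage w hL 𝔞 hprime _ ((cyclicFree hb).comap_homog hg.sA.hom) ?_)
    intro a ha
    exact hA' (hkill a ha b (hB' (Submodule.mem_sup_right (Submodule.mem_span_singleton_self b))))

end grading

end Vale.Agent.P199
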