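import Vale.Agent.P199.Poly

/-!
Codimensions, leading multidegrees, and the intersection step.
-/

set_option linter.unusedSectionVars false

noncomputable section

namespace Vale.Agent.P199

open MvPolynomial
open scoped PowerSeries

variable {r : ℕ} {σ k : Type} [Field k] [Fintype σ]

/-- The dimension of a prime. -/
def pdim (p : Ideal (MvPolynomial σ k)) : ℕ :=
  (Algebra.trdeg k (MvPolynomial σ k ⧸ p)).toNat

/-- The codimension of a prime. -/
def codim (p : Ideal (MvPolynomial σ k)) : ℕ := Fintype.card σ - pdim p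

theorem trdeg_quot_finite (p : Ideal (MvPolynomial σ k)) :
    Algebra.trdeg k (MvPolynomial σ k ⧸ p) ≤ (Fintype.card σ : Cardinal) :=
  (trdeg_le_of_surjective (Ideal.Quotient.mkₐ k p) Ideal.Quotient.mk_surjective).trans
    (by simp [MvPolynomial.trdeg_of_isDomain])

theorem pdim_cast (p : Ideal (MvPolynomial σ k)) :
    (pdim p : Cardinal) = Algebra.trdeg k (MvPolynomial σ k ⧸ p) :=
  Cardinal.cast_toNat_of_lt_aleph0 ((trdeg_quot_finite p).trans_lt (Cardinal.natCast_lt_aleph0))

theorem pdim_le (p : Ideal (MvPolynomial σ k)) : pdim p ≤ Fintype.card σ := by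
  have := trdeg_quot_finite p
  rw [← pdim_cast] at this
  exact_mod_cast this

theorem pdim_bot : pdim (⊥ : Ideal (MvPolynomial σ k)) = Fintype.card σ := by
  refine le_antisymm (pdim_le _) ?_
  have hinj : Function.Injective (Ideal.Quotient.mkₐ k (⊥ : Ideal (MvPolynomial σ k))) := by
    rw [injective_iff_map_eq_zero]
    intro a ha
    exact Ideal.mem_bot.1 (Ideal.Quotient.eq_zero_iff_mem.1 ha)
  have h := trdeg_le_of_injective (Ideal.Quotient.mkₐ k (⊥ : Ideal (MvPolynomial σ k))) hinj
  rw [← pdim_cast, MvPolynomial.trdeg_of_isDomain] at h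
  simp at h
  exact_mod_cast h

theorem aeval_cons_eq {A : Type} [CommRing A] [Algebra k A] {n : ℕ} (D : A) (x : Fin n → A)
    (F : MvPolynomial (Fin (n + 1)) k) :
    aeval (Fin.cons D x : Fin (n + 1) → A) F =
      Polynomial.eval D ((finSuccEquiv k n F).map (aeval x).toRingHom) := by
  induction F using MvPolynomial.induction_on with
  | C a => simp [finSuccEquiv_apply]
  | add p q hp hq => simp only [map_add, Polynomial.map_add, Polynomial.eval_add, hp, hq]
  | mul_X p i hp =>
      simp only [map_mul, Polynomial.map_mul, Polynomial.eval_mul, hp, aeval_X]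
      congr 1
      cases i using Fin.cases with
      | zero => simp [finSuccEquiv_X_zero]
      | succ j => simp [finSuccEquiv_X_succ]

theorem pdim_lt {p p' : Ideal (MvPolynomial σ k)} [p.IsPrime] [p'.IsPrime] (h : p < p') :
    pdim p' < pdim p := by
  classical
  obtain ⟨D, hD', hD⟩ := SetLike.exists_of_lt h
  have hinj : Function.Injective (algebraMap k (MvPolynomial σ k ⧸ p')) :=
    (algebraMap k (MvPolynomial σ k ⧸ p')).injective
  obtain ⟨s, hs⟩ := exists_isTranscendenceBasis k (MvPolynomial σ k ⧸ p')
  have hcard : Cardinal.mk s = (pdim p' : Cardinal) := by rw [pdim_cast, hs.cardinalMk_eq_trdeg]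
  have : Fintype s := (Cardinal.lt_aleph0_iff_fintype.1
    (hcard ▸ Cardinal.natCast_lt_aleph0)).some
  have hn : Fintype.card s = pdim p' := by
    rw [Cardinal.mk_fintype] at hcard; exact_mod_cast hcard
  set n := pdim p'
  let e : Fin n ≃ s := (Fintype.equivFinOfCardEq hn).symm
  let xb : Fin n → MvPolynomial σ k ⧸ p' := fun i => (e i : MvPolynomial σ k ⧸ p')
  have hxb : AlgebraicIndependent k xb := hs.1.comp e e.injective
  choose x hx using fun i => Ideal.Quotient.mk_surjective (I := p') (xb i)
  let π : (MvPolynomial σ k ⧸ p) →ₐ[k] MvPolynomial σ k ⧸ p' :=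
    Ideal.Quotient.factorₐ k h.le
  let y : Fin n → MvPolynomial σ k ⧸ p := fun i => Ideal.Quotient.mk p (x i)
  have hπy : π ∘ y = xb := funext fun i => hx i
  let d : MvPolynomial σ k ⧸ p := Ideal.Quotient.mk p D
  have hd0 : d ≠ 0 := fun e => hD (Ideal.Quotient.eq_zero_iff_mem.1 e)
  have hπd : π d = 0 := Ideal.Quotient.eq_zero_iff_mem.2 hD'
  have key : AlgebraicIndependent k (Fin.cons d y : Fin (n + 1) → MvPolynomial σ k ⧸ p) := by
    rw [algebraicIndependent_iff]
    intro F hF
    rw [aeval_cons_eq] at hF
    by_contra hF0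
    have hne : (finSuccEquiv k n F) ≠ 0 := fun e => hF0 (by simpa using e)
    obtain ⟨Q, hQ, hQ0⟩ := (finSuccEquiv k n F).exists_eq_pow_rootMultiplicity_mul_and_not_dvd hne 0
    rw [map_zero, sub_zero] at hQ hQ0
    rw [hQ, Polynomial.map_mul, Polynomial.eval_mul, Polynomial.map_pow, Polynomial.map_X,
      Polynomial.eval_pow, Polynomial.eval_X] at hF
    have h1 := (mul_eq_zero.1 hF).resolve_left (pow_ne_zero _ hd0)
    have h2 := congrArg π h1
    rw [map_zero] at h2
    have h3 : π (Polynomial.eval d (Q.map (aeval y).toRingHom)) = aeval xb (Q.coeff 0) := by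
      show π.toRingHom _ = _
      rw [← Polynomial.eval₂_at_apply, Polynomial.eval₂_map,
        show π.toRingHom d = 0 from hπd, Polynomial.eval₂_at_zero]
      show π (aeval y (Q.coeff 0)) = _
      rw [← AlgHom.comp_apply, comp_aeval]
      exact congrArg (fun f => aeval f (Q.coeff 0)) hπy
    rw [h3] at h2
    exact hQ0 (Polynomial.X_dvd_iff.2 (hxb.eq_zero_of_aeval_eq_zero _ h2))
  have h4 := key.cardinalMk_le_trdeg
  rw [← pdim_cast, Cardinal.mk_fintype, Fintype.card_fin] at h4
  have : n + 1 ≤ pdim p := by exact_mod_cast h4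
  omega

theorem codim_lt {p p' : Ideal (MvPolynomial σ k)} [p.IsPrime] [p'.IsPrime] (h : p < p') :
    codim p < codim p' := by
  have h1 := pdim_lt h
  have h2 := pdim_le p
  unfold codim
  omega

theorem KK_span_vars (w : σ → Gr r) :
    ∀ (L : List σ) (S : Set σ), L.Nodup → (∀ v ∈ L, v ∉ S) → (∀ v, v ∈ S ∨ v ∈ L) →
    psi chi (ops0 (k := k) w L) (Ideal.span (X '' S)) ⊤ = 1 := by
  classical
  intro L
  induction L with
  | nil =>
      intro S _ _ hS
      have hS' : ∀ v, v ∈ S := fun v => (hS v).resolve_right (by simp)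
      have hb : IsWeightedHomogeneous w (1 : MvPolynomial σ k) 0 := isWeightedHomogeneous_one k w
      have hAh : (grd0 w).Homog (Ideal.span (X '' S : Set (MvPolynomial σ k))) := by
        intro a ha g
        refine mem_ideal_span_X_image.2 fun m hm => mem_ideal_span_X_image.1 ha m ?_
        rw [MvPolynomial.mem_support_iff] at hm ⊢
        have hm' : coeff m (weightedHomogeneousComponent w g a) ≠ 0 := hm
        rw [coeff_weightedHomogeneousComponent] at hm'
        split_ifs at hm'
        · exact hm'
        · exact absurd rfl hm'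
      have h1 : (1 : MvPolynomial σ k) ∉ Ideal.span (X '' S) := by
        intro h
        obtain ⟨i, -, hi⟩ := mem_ideal_span_X_image.1 h 0 (by simp)
        simp at hi
      have htop : Ideal.span (X '' S) ⊔ Submodule.span (MvPolynomial σ k) {1} = ⊤ :=
        (Ideal.eq_top_iff_one _).2 (Submodule.mem_sup_right (Submodule.mem_span_singleton_self 1))
      show qdP (grd0 w) chi _ ⊤ = 1
      rw [← htop, qdP_single hAh (pr_of_isWH hb) h1 (fun a => ⟨coeff 0 a, ?_⟩), chi_zero]
      refine mem_ideal_span_X_image.2 fun m hm => ?_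
      by_cases hm0 : m = 0
      · subst hm0
        rw [MvPolynomial.mem_support_iff, smul_eq_mul, mul_one, coeff_sub, smul_eq_C_mul, mul_one,
          coeff_C, if_pos rfl, sub_self] at hm
        exact absurd rfl hm
      · obtain ⟨i, hi⟩ := Finsupp.ne_iff.1 hm0
        exact ⟨i, hS' i, hi⟩
  | cons v L ih =>
      intro S hn hdisj hS
      rw [List.nodup_cons] at hn
      have hv : v ∉ S := hdisj v List.mem_cons_self
      show psi chi (opVar w (grd0 w) (hX0 w) v :: ops0 w L) _ ⊤ = 1
      rw [psi_cons]
      set o := opVar w (grd0 (k := k) w) (hX0 w) v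
      have hcok : Ideal.span (X '' S) ⊔ Submodule.map o.f ⊤ =
          Ideal.span (X '' insert v S) := by
        rw [Set.image_insert_eq, Ideal.span_insert, sup_comm]
        congr 1
        ext x
        rw [Ideal.mem_span_singleton']
        constructor
        · rintro ⟨y, -, rfl⟩; exact ⟨y, mul_comm _ _⟩
        · rintro ⟨y, rfl⟩; exact ⟨y, trivial, mul_comm _ _⟩
      have hker : (⊤ : Ideal (MvPolynomial σ k)) ⊓ Submodule.comap o.f (Ideal.span (X '' S)) =
          Ideal.span (X '' S) := by
        rw [top_inf_eq]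
        refine le_antisymm (fun x hx => mem_ideal_span_X_image.2 fun m hm => ?_) fun x hx =>
          Ideal.mul_mem_left _ _ hx
        have hx' : X v * x ∈ Ideal.span (X '' S) := hx
        obtain ⟨i, hiS, hi⟩ := mem_ideal_span_X_image.1 hx' (Finsupp.single v 1 + m) (by
          rw [support_X_mul, Finset.mem_map]; exact ⟨m, hm, rfl⟩)
        refine ⟨i, hiS, ?_⟩
        have hvi : v ≠ i := fun e => hv (e ▸ hiS)
        simpa [Finsupp.single_apply, hvi] using hi
      rw [hcok, hker, ih (insert v S) hn.2 ?_ ?_]
      · have hzero : psi chi (ops0 (k := k) w L) (Ideal.span (X '' S)) (Ideal.span (X '' S)) = 0 := by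
          clear ih hcok hker hn hdisj hS
          induction L with
          | nil => exact qdP_self
          | cons u L ih' =>
              show psi chi (opVar w (grd0 w) (hX0 w) u :: ops0 w L) _ _ = 0
              rw [psi_cons]
              have e1 : Ideal.span (X '' S) ⊔ Submodule.map (opVar w (grd0 (k := k) w) (hX0 w) u).f
                  (Ideal.span (X '' S)) = Ideal.span (X '' S) :=
                sup_of_le_left (by rintro _ ⟨y, hy, rfl⟩; exact Ideal.mul_mem_left _ _ hy)
              have e2 : Ideal.span (X '' S) ⊓ Submodule.comap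
                  (opVar w (grd0 (k := k) w) (hX0 w) u).f (Ideal.span (X '' S)) =
                    Ideal.span (X '' S) :=
                inf_of_le_left fun y hy => Ideal.mul_mem_left _ _ hy
              rw [e1, e2, ih', mul_zero, sub_zero]
        rw [hzero, mul_zero, sub_zero]
      · intro u hu
        rw [Set.mem_insert_iff, not_or]
        exact ⟨fun e => hn.1 (e ▸ hu), hdisj u (List.mem_cons_of_mem _ hu)⟩
      · intro u
        rcases hS u with h | h
        · exact Or.inl (Set.mem_insert_of_mem v h)
        · rcases List.mem_cons.1 h with rfl | h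
          · exact Or.inl (Set.mem_insert _ _)
          · exact Or.inr h

theorem KK_bot (w : σ → Gr r) {L : List σ} (hn : L.Nodup) (hL : ∀ v, v ∈ L) :
    KK (k := k) w L ⊥ = 1 := by
  have h := KK_span_vars (k := k) w L ∅ hn (by simp) (fun v => Or.inr (hL v))
  simpa [KK] using h

end Vale.Agent.P199
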