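import Vale.Agent.P199.Poly2

/-!
The order of the Euler characteristic, and the intersection step.
-/

set_option linter.unusedSectionVars false

noncomputable section

namespace Vale.Agent.P199

open MvPolynomial
open scoped PowerSeries

variable {r : ℕ} {σ k : Type} [Field k] [Fintype σ]

/-- The leading multidegree of a prime. -/
def lead (w : σ → Gr r) (L : List σ) (q : Ideal (MvPolynomial σ k)) : Wt r :=
  PowerSeries.coeff (codim q) (KK w L q)

theorem ord_prod_one_sub (L : List (Gr r)) :
    (L.map fun d => 1 - chi d).prod ∈ ordIdeal (r := r) L.length := by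
  induction L with
  | nil => intro j hj; simp at hj
  | cons d L ih =>
      intro j hj
      rw [List.map_cons, List.prod_cons]
      rw [List.length_cons] at hj
      rcases Nat.eq_zero_or_pos j with h0 | h0
      · subst h0
        rw [PowerSeries.coeff_zero_eq_constantCoeff, map_mul, map_sub, map_one, constCoeff_chi,
          sub_self, zero_mul]
      · obtain ⟨i, rfl⟩ : ∃ i, j = i + 1 := ⟨j - 1, by omega⟩
        rw [coeff_one_sub_mul (fun l hl => ih l (by omega)), ih i (by omega), mul_zero]

theorem psi_all_killed (w : σ → Gr r) (L : List σ) {A B : Ideal (MvPolynomial σ k)}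
    (hA : ∀ v ∈ L, ∀ b ∈ B, X v * b ∈ A) :
    psi chi (ops0 (k := k) w L) A B =
      ((L.map w).map fun d => 1 - chi d).prod * qdP (grd0 w) chi A B := by
  induction L with
  | nil => simp [ops0]
  | cons v L ih =>
      show psi chi (opVar w (grd0 w) (hX0 w) v :: ops0 w L) _ _ = _
      rw [psi_cons]
      set o := opVar w (grd0 (k := k) w) (hX0 w) v
      have e1 : A ⊔ Submodule.map o.f B = A := sup_of_le_left (by
        rintro _ ⟨b, hb, rfl⟩; exact hA v List.mem_cons_self b hb)
      have e2 : B ⊓ Submodule.comap o.f A = B := inf_of_le_left fun b hb =>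
        hA v List.mem_cons_self b hb
      rw [e1, e2, ih fun u hu => hA u (List.mem_cons_of_mem _ hu), List.map_cons, List.map_cons,
        List.prod_cons]
      show _ - chi (w v) * _ = _
      ring

/-- Every homogeneous prime has Euler characteristic vanishing below its codimension. -/
theorem ord_KK (w : σ → Gr r) (hw : ∀ v, lin (w v) ≠ 0) {L : List σ} (hn : L.Nodup)
    (hL : ∀ v, v ∈ L) :
    ∀ p : Ideal (MvPolynomial σ k), p.IsPrime → (grd0 w).Homog p →
      KK w L p ∈ ordIdeal (codim p) := by
  intro p
  induction p using WellFoundedGT.induction with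
  | ind p ih =>
      intro hp hph
      by_cases hall : ∀ v, (X v : MvPolynomial σ k) ∈ p
      · have hlen : L.length = Fintype.card σ := by
          classical
          rw [← List.toFinset_card_of_nodup hn,
            show L.toFinset = Finset.univ from Finset.eq_univ_iff_forall.2 fun v => by simp [hL v],
            Finset.card_univ]
        unfold KK
        rw [psi_all_killed w L fun v _ b _ => p.mul_mem_right b (hall v)]
        have h := ord_prod_one_sub (L.map w)
        rw [List.length_map, hlen] at h
        intro j hj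
        exact (ordIdeal (Fintype.card σ)).mul_mem_right _ h j
          (lt_of_lt_of_le hj (Nat.sub_le _ _))
      · push Not at hall
        obtain ⟨v, hv⟩ := hall
        have hXv := isWeightedHomogeneous_X k w v
        refine ord_of_one_sub_mul (hw v) ?_
        rw [← KK_sup_prime w hL hph hXv hv]
        have hh : (grd0 w).Homog (p ⊔ Ideal.span {(X v : MvPolynomial σ k)}) :=
          hph.sup (homog_span_singleton (pr_of_isWH hXv) fun b h =>
            compatible0 w b _ h _ (pr_of_isWH hXv))
        refine devissage w hL (ordIdeal (codim p + 1)) ?_ _ hh le_rfl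
        intro p' hp' hph' hle
        have hlt : p < p' := lt_of_le_of_ne (le_sup_left.trans hle) fun e =>
          hv (e ▸ hle (Submodule.mem_sup_right (Ideal.mem_span_singleton_self _)))
        intro j hj
        exact ih p' hlt hp' hph' j (by
          have : p.IsPrime := hp
          have := codim_lt hlt
          omega)

/-- Elements vanishing below `c` whose `c`-th coefficient is killed by `ev`. -/
def leadIdeal {B : Type} [CommRing B] (ev : Wt r →+* B) (c : ℕ) : Ideal ((Wt r)⟦X⟧) where
  carrier := {x | x ∈ ordIdeal c ∧ ev (PowerSeries.coeff c x) = 0}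
  add_mem' {a b} ha hb := ⟨Ideal.add_mem _ ha.1 hb.1, by rw [map_add, map_add, ha.2, hb.2, add_zero]⟩
  zero_mem' := ⟨Submodule.zero_mem _, by simp⟩
  smul_mem' y x hx := ⟨Ideal.mul_mem_left _ y hx.1, by
    rw [smul_eq_mul, coeff_mul_of_ord hx.1, map_mul, hx.2, mul_zero]⟩

/-- The intersection step. -/
theorem step (w : σ → Gr r) (hw : ∀ v, lin (w v) ≠ 0) {L : List σ} (hn : L.Nodup)
    (hL : ∀ v, v ∈ L) {B : Type} [CommRing B] [IsDomain B] (ev : Wt r →+* B)
    {q : Ideal (MvPolynomial σ k)} (hq : q.IsPrime) (hqh : (grd0 w).Homog q)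
    (hlead : ev (lead w L q) ≠ 0) {g : MvPolynomial σ k} {d : Gr r}
    (hg : IsWeightedHomogeneous w g d) (hd : ev (lin d) ≠ 0) :
    ∃ q' : Ideal (MvPolynomial σ k), q'.IsPrime ∧ (grd0 w).Homog q' ∧ q ≤ q' ∧ g ∈ q' ∧
      codim q' ≤ codim q + 1 ∧ ev (lead w L q') ≠ 0 := by
  by_cases hgq : g ∈ q
  · exact ⟨q, hq, hqh, le_rfl, hgq, by omega, hlead⟩
  by_contra hcon
  push Not at hcon
  have hh : (grd0 w).Homog (q ⊔ Ideal.span {g}) :=
    hqh.sup (homog_span_singleton (pr_of_isWH hg) fun b h =>
      compatible0 w b _ h _ (pr_of_isWH hg))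
  have h := devissage w hL (leadIdeal ev (codim q + 1)) (I := q ⊔ Ideal.span {g}) ?_ _ hh le_rfl
  · have h2 := h.2
    rw [KK_sup_prime w hL hqh hg hgq, coeff_one_sub_mul (ord_KK w hw hn hL q hq hqh), map_mul,
      map_neg] at h2
    rcases mul_eq_zero.1 h2 with h3 | h3
    · exact hd (neg_eq_zero.1 h3)
    · exact hlead h3
  · intro p hp hph hle
    have hgp : g ∈ p := hle (Submodule.mem_sup_right (Ideal.mem_span_singleton_self _))
    have hlt : q < p := lt_of_le_of_ne (le_sup_left.trans hle) fun e => hgq (e ▸ hgp)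
    have hc := codim_lt hlt
    have hord := ord_KK w hw hn hL p hp hph
    refine ⟨fun j hj => hord j (by omega), ?_⟩
    by_cases hc' : codim p ≤ codim q + 1
    · rw [show codim q + 1 = codim p by omega]
      exact hcon p hp hph (le_sup_left.trans hle) hgp hc'
    · rw [hord (codim q + 1) (by omega), map_zero]

theorem steps (w : σ → Gr r) (hw : ∀ v, lin (w v) ≠ 0) {L : List σ} (hn : L.Nodup)
    (hL : ∀ v, v ∈ L) {B : Type} [CommRing B] [IsDomain B] (ev : Wt r →+* B)
    (G : List (MvPolynomial σ k × Gr r))
    (hG : ∀ gd ∈ G, IsWeightedHomogeneous w gd.1 gd.2 ∧ ev (lin gd.2) ≠ 0) :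
    ∀ q : Ideal (MvPolynomial σ k), q.IsPrime → (grd0 w).Homog q → ev (lead w L q) ≠ 0 →
    ∃ q' : Ideal (MvPolynomial σ k), q'.IsPrime ∧ (grd0 w).Homog q' ∧ q ≤ q' ∧
      (∀ gd ∈ G, gd.1 ∈ q') ∧ codim q' ≤ codim q + G.length ∧ ev (lead w L q') ≠ 0 := by
  induction G with
  | nil => intro q hq hqh hl; exact ⟨q, hq, hqh, le_rfl, by simp, by simp, hl⟩
  | cons gd G ih =>
      intro q hq hqh hl
      obtain ⟨q1, h1, h1h, hle1, hg1, hc1, hl1⟩ :=
        step w hw hn hL ev hq hqh hl (hG gd List.mem_cons_self).1 (hG gd List.mem_cons_self).2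
      obtain ⟨q2, h2, h2h, hle2, hg2, hc2, hl2⟩ :=
        ih (fun x hx => hG x (List.mem_cons_of_mem _ hx)) q1 h1 h1h hl1
      refine ⟨q2, h2, h2h, hle1.trans hle2, fun x hx => ?_, ?_, hl2⟩
      · rcases List.mem_cons.1 hx with rfl | hx
        · exact hle2 hg1
        · exact hg2 x hx
      · simp only [List.length_cons]; omega

theorem map_qdP {V : Type} [AddCommGroup V] [Module k V] [Module (MvPolynomial σ k) V]
    [IsScalarTower k (MvPolynomial σ k) V] {𝒢 : Grd (Gr r) k V} {P Q : Type} [CommRing P]
    [CommRing Q] (f : P →+* Q) (χ : Gr r → P) {A B : Submodule (MvPolynomial σ k) V}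
    (hA : 𝒢.Homog A) (h : FinQuot k A B) :
    f (qdP 𝒢 χ A B) = qdP 𝒢 (fun g => f (χ g)) A B := by
  unfold qdP
  rw [show f (∑ᶠ g, (qd 𝒢 g A B : P) * χ g) = f.toAddMonoidHom (∑ᶠ g, (qd 𝒢 g A B : P) * χ g)
    from rfl, AddMonoidHom.map_finsum _ (h.qdP_support hA)]
  exact finsum_congr fun g => by simp

theorem map_psi {V : Type} [AddCommGroup V] [Module k V] [Module (MvPolynomial σ k) V]
    [IsScalarTower k (MvPolynomial σ k) V] {𝒢 : Grd (Gr r) k V} {P Q : Type} [CommRing P]
    [CommRing Q] (f : P →+* Q) (χ : Gr r → P) :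
    ∀ {l : List (Op (MvPolynomial σ k) 𝒢)} {A B : Submodule (MvPolynomial σ k) V},
    Good (varSet σ k) l A B → f (psi χ l A B) = psi (fun g => f (χ g)) l A B := by
  intro l
  induction l with
  | nil => intro A B h; exact map_qdP f χ h.sA.hom (h.finQuot varSet_gen)
  | cons o l ih =>
      intro A B h
      rw [psi_cons, psi_cons, map_sub, map_mul, ih h.cok, ih h.ker]

/-- Substituting `0` for the weights outside `keep`. -/
def evKeep (keep : Fin r → Bool) : Wt r →+* Wt r :=
  (aeval fun i => if keep i then X i else 0 : Wt r →ₐ[ℤ] Wt r).toRingHom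

/-- Projection of degrees onto the coordinates in `keep`. -/
def degKeep (keep : Fin r → Bool) (g : Gr r) : Gr r :=
  toLex fun i => if keep i then ofLex g i else 0

theorem degKeep_add (keep : Fin r → Bool) (a b : Gr r) :
    degKeep keep (a + b) = degKeep keep a + degKeep keep b := by
  apply ofLex.injective
  funext i
  show (if keep i then ofLex a i + ofLex b i else 0) = _
  by_cases h : keep i
  · rw [if_pos h]; show _ = (if keep i then ofLex a i else 0) + (if keep i then ofLex b i else 0)
    rw [if_pos h, if_pos h]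
  · rw [if_neg h]; show _ = (if keep i then ofLex a i else 0) + (if keep i then ofLex b i else 0)
    rw [if_neg h, if_neg h, add_zero]

theorem map_evKeep_chi (keep : Fin r → Bool) (g : Gr r) :
    PowerSeries.map (evKeep keep) (chi g) = chi (degKeep keep g) := by
  classical
  have h : ∀ i, Units.map (PowerSeries.map (evKeep keep)).toMonoidHom (baseUnit i) =
      if keep i then baseUnit i else 1 := by
    intro i
    ext1
    show PowerSeries.map (evKeep keep) (baseUnit i : (Wt r)⟦X⟧) = _
    rw [baseUnit_val, map_add, map_one, map_mul, PowerSeries.map_C, PowerSeries.map_X]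
    by_cases hk : keep i <;> simp [hk, evKeep, baseUnit_val]
  have hU : Units.map (PowerSeries.map (evKeep keep)).toMonoidHom (chiU g) =
      chiU (degKeep keep g) := by
    unfold chiU
    rw [map_prod]
    refine Finset.prod_congr rfl fun i _ => ?_
    rw [map_zpow, h i]
    have e : ofLex (degKeep keep g) i = if keep i then ofLex g i else 0 := rfl
    rw [e]
    by_cases hk : keep i
    · rw [if_pos hk, if_pos hk]
    · rw [if_neg hk, if_neg hk, one_zpow, zpow_zero]
  have hV := congrArg Units.val hU
  rw [Units.coe_map] at hV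
  exact hV

theorem lin_degKeep (keep : Fin r → Bool) (g : Gr r) :
    evKeep keep (lin g) = lin (degKeep keep g) := by
  unfold lin evKeep degKeep
  simp only [AlgHom.toRingHom_eq_coe, RingHom.coe_coe, map_sum, map_mul, aeval_C, aeval_X]
  refine Finset.sum_congr rfl fun i _ => ?_
  show _ = C (if keep i then ofLex g i else 0) * X i
  by_cases hk : keep i <;> simp [hk]

/-- The operator of a translated variable. -/
def opShift (w : σ → Gr r) (pt : σ → k) (h : ∀ v, pt v ≠ 0 → w v = 0) (v : σ) :
    Op (MvPolynomial σ k) (grd0 (k := k) w) where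
  f := LinearMap.lsmul (MvPolynomial σ k) (MvPolynomial σ k) (X v - C (pt v))
  d := w v
  hom g x := by
    simp only [LinearMap.lsmul_apply, smul_eq_mul]
    have hh : IsWeightedHomogeneous w (X v - C (pt v) : MvPolynomial σ k) (w v) := by
      refine IsWeightedHomogeneous.sub (R := k) (isWeightedHomogeneous_X k w v) ?_
      by_cases hp : pt v = 0
      · rw [hp, map_zero]; exact isWeightedHomogeneous_zero k w _
      · rw [h v hp]; exact isWeightedHomogeneous_C w _
    rw [pr_hom_mul hh, add_sub_cancel_right]

/-- A homogeneous ideal not contained in the ideal of a point fixed by the coarse grading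
has vanishing coarse Euler characteristic. -/
theorem KK_vanish (w : σ → Gr r) (keep : Fin r → Bool) {L : List σ} (hL : ∀ v, v ∈ L)
    (pt : σ → k) (hpt : ∀ v, pt v ≠ 0 → degKeep keep (w v) = 0)
    {I : Ideal (MvPolynomial σ k)} (hI : (grd0 w).Homog I) {D : MvPolynomial σ k} (hD : D ∈ I)
    (hDp : eval pt D ≠ 0) : PowerSeries.map (evKeep keep) (KK w L I) = 0 := by
  set φ := degKeep keep
  have hφ0 : φ 0 = 0 := by
    have := degKeep_add keep (0 : Gr r) 0
    simp only [add_zero] at this
    exact left_eq_add.1 this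
  let φh : Gr r →+ Gr r := { toFun := φ, map_zero' := hφ0, map_add' := degKeep_add keep }
  set w' : σ → Gr r := φ ∘ w with hw'
  have hc : Coarse φ (grd0 (k := k) w) (grd0 w') := by
    intro g p hp
    apply pr_of_isWH
    intro m hm
    have h1 : Finsupp.weight w m = g := (isWH_of_pr hp) hm
    rw [← h1, Finsupp.weight_apply, Finsupp.weight_apply]
    show _ = φh (Finsupp.sum m fun i c => c • w i)
    rw [map_finsuppSum]
    exact Finsupp.sum_congr fun i _ => (map_nsmul φh _ _).symm
  have hgood := good0 w hL hI (Grd.homog_top (grd0 (k := k) w)) le_top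
  unfold KK
  rw [map_psi (PowerSeries.map (evKeep keep)) chi hgood]
  have e1 : (fun g => PowerSeries.map (evKeep keep) (chi g)) = fun g => chi (φ g) :=
    funext fun g => map_evKeep_chi keep g
  have hps := fun hlc => psi_coarse (χ := chi) varSet_gen chi_add chi_zero (compatible0 w)
    (degKeep_add keep) hc (l := ops0 w L) (lc := ops0 w' L) hlc
    (isMul_map_opVar _ _ _ _) hgood
  rw [e1, ← hps ?_]
  · have hI' := hc.homog hI
    have hgood' := good0 w' hL hI' (Grd.homog_top (grd0 (k := k) w')) le_top
    have hpt' : ∀ v, pt v ≠ 0 → w' v = 0 := hpt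
    have hsh := fun hs => psi_shift (χ := chi) varSet_gen chi_add chi_zero (compatible0 w')
      (l := ops0 w' L) (l' := L.map (opShift w' pt hpt')) hs (isMul_map_opVar _ _ _ _) hgood'
      (vars1_map_opVar _ _ _ hL _ _)
    rw [hsh ?_]
    · have hmul : IsMul (L.map (opShift w' pt hpt')) := by
        intro o ho
        obtain ⟨v, -, rfl⟩ := List.mem_map.1 ho
        exact ⟨_, fun x => rfl⟩
      refine psi_vanish varSet_gen (aeval pt) (D := D) (by simpa [aeval_eq_eval] using hDp)
        (Vars1.good hmul le_top hI' (Grd.homog_top _) ((IsNoetherian.noetherian _).map _) ?_)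
        (fun b _ => I.mul_mem_right b hD) ?_
      · rintro _ ⟨v, rfl⟩
        refine Or.inr ⟨_, List.mem_map.2 ⟨v, hL v, rfl⟩, pt v, fun x => ?_⟩
        show (X v - C (pt v)) • x = _
        rw [sub_smul, ← algebraMap_eq, algebraMap_smul]
      · rintro _ ⟨v, rfl⟩
        refine Or.inr ⟨_, List.mem_map.2 ⟨v, hL v, rfl⟩, fun x => ?_⟩
        show (X v - C (pt v)) • x = _
        rw [sub_smul, aeval_X, ← algebraMap_eq, algebraMap_smul]
    · rw [ops0, List.forall₂_map_left_iff, List.forall₂_map_right_iff]
      refine List.forall₂_same.2 fun v _ => ?_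
      by_cases hp : pt v = 0
      · left
        have : (opVar w' (grd0 (k := k) w') (hX0 w') v).f = (opShift w' pt hpt' v).f := by
          show LinearMap.lsmul _ _ (X v : MvPolynomial σ k) =
            LinearMap.lsmul _ _ (X v - C (pt v) : MvPolynomial σ k)
          rw [hp, map_zero, sub_zero]
        show (⟨_, _, _⟩ : Op (MvPolynomial σ k) (grd0 (k := k) w')) = ⟨_, _, _⟩
        congr 1
      · refine Or.inr ⟨hpt' v hp, hpt' v hp, X v, pt v, fun x => rfl, fun x => ?_⟩
        show (X v - C (pt v)) • x = _
        rw [sub_smul, ← algebraMap_eq, algebraMap_smul]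
  · rw [ops0, ops0, List.forall₂_map_left_iff, List.forall₂_map_right_iff]
    exact List.forall₂_same.2 fun v _ => ⟨rfl, rfl⟩

end Vale.Agent.P199
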