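import Mathlib

/-!
Euler characteristics of iterated kernels and cokernels of commuting operators
on subquotients of a graded module.
-/

set_option linter.unusedSectionVars false

namespace Vale.Agent.P199

open Submodule

/-- A grading given by its projections. -/
structure Grd (G k V : Type*) [Field k] [AddCommGroup V] [Module k V] where
  pr : G → V →ₗ[k] V
  supp : V → Finset G
  sum_pr : ∀ v, ∑ g ∈ supp v, pr g v = v
  pr_eq_zero : ∀ v g, g ∉ supp v → pr g v = 0
  pr_idem : ∀ g v, pr g (pr g v) = pr g v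
  pr_ne : ∀ g h v, g ≠ h → pr g (pr h v) = 0

variable {k R G P : Type*} [Field k] [CommRing R] [Algebra k R]
  [AddCommGroup G] [CommRing P]
  {V : Type*} [AddCommGroup V] [Module k V] [Module R V] [IsScalarTower k R V]
  {V' : Type*} [AddCommGroup V'] [Module k V'] [Module R V'] [IsScalarTower k R V']

namespace Grd

/-- Membership of the degree `g` piece. -/
def IsHom (𝒢 : Grd G k V) (g : G) (v : V) : Prop := 𝒢.pr g v = v

/-- The degree `g` piece. -/
def piece (𝒢 : Grd G k V) (g : G) : Submodule k V where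
  carrier := {v | 𝒢.pr g v = v}
  add_mem' := by intro a b ha hb; simp only [Set.mem_ofPred_eq] at *; rw [map_add, ha, hb]
  zero_mem' := by simp
  smul_mem' := by intro c a ha; simp only [Set.mem_ofPred_eq] at *; rw [map_smul, ha]

theorem mem_piece {𝒢 : Grd G k V} {g : G} {v : V} : v ∈ 𝒢.piece g ↔ 𝒢.pr g v = v := Iff.rfl

theorem pr_mem (𝒢 : Grd G k V) (g : G) (v : V) : 𝒢.pr g v ∈ 𝒢.piece g := 𝒢.pr_idem g v

/-- A submodule containing all components of its members. -/
def Homog (𝒢 : Grd G k V) (A : Submodule R V) : Prop := ∀ a ∈ A, ∀ g, 𝒢.pr g a ∈ A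

theorem mem_of_pr (𝒢 : Grd G k V) (A : Submodule R V) {v : V} (h : ∀ g, 𝒢.pr g v ∈ A) :
    v ∈ A := by
  rw [← 𝒢.sum_pr v]; exact A.sum_mem (fun g _ => h g)

theorem homog_bot (𝒢 : Grd G k V) : 𝒢.Homog (⊥ : Submodule R V) := by
  intro a ha g
  simp only [Submodule.mem_bot] at ha ⊢
  simp [ha]

theorem homog_top (𝒢 : Grd G k V) : 𝒢.Homog (⊤ : Submodule R V) := fun _ _ _ => trivial

theorem Homog.inf {𝒢 : Grd G k V} {A B : Submodule R V} (hA : 𝒢.Homog A) (hB : 𝒢.Homog B) :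
    𝒢.Homog (A ⊓ B) := fun a ha g => ⟨hA a ha.1 g, hB a ha.2 g⟩

theorem Homog.sup {𝒢 : Grd G k V} {A B : Submodule R V} (hA : 𝒢.Homog A) (hB : 𝒢.Homog B) :
    𝒢.Homog (A ⊔ B) := by
  intro x hx g
  obtain ⟨a, ha, b, hb, rfl⟩ := Submodule.mem_sup.1 hx
  rw [map_add]
  exact Submodule.add_mem_sup (hA a ha g) (hB b hb g)

end Grd

variable (R) in
/-- A linear map which is homogeneous of degree `d`. -/
structure HMap (𝒢 : Grd G k V) (𝒢' : Grd G k V') where
  f : V →ₗ[R] V'
  d : G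
  hom : ∀ g v, 𝒢'.pr (g + d) (f v) = f (𝒢.pr g v)

theorem HMap.map_homog {𝒢 : Grd G k V} {𝒢' : Grd G k V'} (Φ : HMap R 𝒢 𝒢')
    {A : Submodule R V} (hA : 𝒢.Homog A) : 𝒢'.Homog (A.map Φ.f) := by
  rintro x ⟨a, ha, rfl⟩ g
  refine ⟨𝒢.pr (g - Φ.d) a, hA a ha _, ?_⟩
  rw [← Φ.hom, sub_add_cancel]

theorem HMap.comap_homog {𝒢 : Grd G k V} {𝒢' : Grd G k V'} (Φ : HMap R 𝒢 𝒢')
    {A : Submodule R V'} (hA : 𝒢'.Homog A) : 𝒢.Homog (A.comap Φ.f) := by
  intro a ha g
  simp only [Submodule.mem_comap] at *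
  rw [← Φ.hom]; exact hA _ ha _

variable (R) in
/-- Operators: homogeneous endomorphisms. -/
abbrev Op (𝒢 : Grd G k V) := HMap R 𝒢 𝒢

variable (R) in
/-- The identity as a homogeneous map. -/
def HMap.id (𝒢 : Grd G k V) : HMap R 𝒢 𝒢 :=
  ⟨LinearMap.id, 0, by intro g v; simp⟩

/-- Commutation up to a nonzero scalar. -/
def SemiComm {𝒢 : Grd G k V} (o o' : Op R 𝒢) : Prop :=
  ∃ c : k, c ≠ 0 ∧ ∀ v, o.f (o'.f v) = c • o'.f (o.f v)

theorem SemiComm.symm {𝒢 : Grd G k V} {o o' : Op R 𝒢} (h : SemiComm o o') : SemiComm o' o := by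
  obtain ⟨c, hc, h⟩ := h
  exact ⟨c⁻¹, inv_ne_zero hc, fun v => by rw [h, inv_smul_smul₀ hc]⟩

theorem smulk_mem {A : Submodule R V} (c : k) {v : V} (h : v ∈ A) : c • v ∈ A := by
  rw [← algebraMap_smul R c v]; exact A.smul_mem _ h

theorem smulk_mem_iff {A : Submodule R V} {c : k} (hc : c ≠ 0) {v : V} : c • v ∈ A ↔ v ∈ A :=
  ⟨fun h => by simpa [inv_smul_smul₀ hc] using smulk_mem c⁻¹ h, smulk_mem c⟩

/-- Dimension of the degree `g` piece of `B/A`. -/
noncomputable def qd (𝒢 : Grd G k V) (g : G) (A B : Submodule R V) : ℕ :=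
  Module.finrank k
    (Submodule.map (A.restrictScalars k).mkQ (B.restrictScalars k ⊓ 𝒢.piece g))

/-- Weighted dimension of `B/A`. -/
noncomputable def qdP (𝒢 : Grd G k V) (χ : G → P) (A B : Submodule R V) : P :=
  ∑ᶠ g, (qd 𝒢 g A B : P) * χ g

/-- The iterated Euler characteristic. -/
noncomputable def psi {𝒢 : Grd G k V} (χ : G → P) :
    List (Op R 𝒢) → Submodule R V → Submodule R V → P
  | [], A, B => qdP 𝒢 χ A B
  | o :: l, A, B =>
      psi χ l (A ⊔ B.map o.f) B - χ o.d * psi χ l A (B ⊓ A.comap o.f)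

@[simp] theorem psi_nil {𝒢 : Grd G k V} (χ : G → P) (A B : Submodule R V) :
    psi χ ([] : List (Op R 𝒢)) A B = qdP 𝒢 χ A B := rfl

theorem psi_cons {𝒢 : Grd G k V} (χ : G → P) (o : Op R 𝒢) (l : List (Op R 𝒢))
    (A B : Submodule R V) : psi χ (o :: l) A B =
      psi χ l (A ⊔ B.map o.f) B - χ o.d * psi χ l A (B ⊓ A.comap o.f) := rfl

/-- The basic conditions on a pair with respect to a list of operators. -/
structure Stab {𝒢 : Grd G k V} (l : List (Op R 𝒢)) (A : Submodule R V) : Prop where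
  hom : 𝒢.Homog A
  stab : ∀ o ∈ l, ∀ a ∈ A, o.f a ∈ A

theorem Stab.tail {𝒢 : Grd G k V} {o : Op R 𝒢} {l : List (Op R 𝒢)} {A : Submodule R V}
    (h : Stab (o :: l) A) : Stab l A :=
  ⟨h.hom, fun p hp => h.stab p (List.mem_cons_of_mem _ hp)⟩

theorem Stab.mono {𝒢 : Grd G k V} {l l' : List (Op R 𝒢)} {A : Submodule R V}
    (h : Stab l A) (hs : ∀ o ∈ l', o ∈ l) : Stab l' A :=
  ⟨h.hom, fun p hp => h.stab p (hs p hp)⟩

theorem Stab.cok {𝒢 : Grd G k V} {l : List (Op R 𝒢)} {A B : Submodule R V} (o : Op R 𝒢)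
    (hc : ∀ p ∈ l, SemiComm p o) (hA : Stab l A) (hB : Stab l B) :
    Stab l (A ⊔ B.map o.f) := by
  refine ⟨hA.hom.sup (o.map_homog hB.hom), fun p hp x hx => ?_⟩
  obtain ⟨a, ha, y, ⟨b, hb, rfl⟩, rfl⟩ := Submodule.mem_sup.1 hx
  obtain ⟨c, hc0, hc⟩ := hc p hp
  rw [map_add, hc]
  exact Submodule.add_mem_sup (hA.stab p hp a ha)
    (smulk_mem c ⟨p.f b, hB.stab p hp b hb, rfl⟩)

theorem Stab.ker {𝒢 : Grd G k V} {l : List (Op R 𝒢)} {A B : Submodule R V} (o : Op R 𝒢)
    (hc : ∀ p ∈ l, SemiComm p o) (hA : Stab l A) (hB : Stab l B) :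
    Stab l (B ⊓ A.comap o.f) := by
  refine ⟨hB.hom.inf (o.comap_homog hA.hom), fun p hp x hx => ?_⟩
  obtain ⟨c, hc0, hc⟩ := (hc p hp).symm
  refine ⟨hB.stab p hp x hx.1, ?_⟩
  show o.f (p.f x) ∈ A
  rw [hc]; exact smulk_mem c (hA.stab p hp _ hx.2)

theorem Stab.sup {𝒢 : Grd G k V} {l : List (Op R 𝒢)} {A B : Submodule R V}
    (hA : Stab l A) (hB : Stab l B) : Stab l (A ⊔ B) := by
  refine ⟨hA.hom.sup hB.hom, fun p hp x hx => ?_⟩
  obtain ⟨a, ha, b, hb, rfl⟩ := Submodule.mem_sup.1 hx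
  rw [map_add]; exact Submodule.add_mem_sup (hA.stab p hp a ha) (hB.stab p hp b hb)

theorem Stab.inf {𝒢 : Grd G k V} {l : List (Op R 𝒢)} {A B : Submodule R V}
    (hA : Stab l A) (hB : Stab l B) : Stab l (A ⊓ B) :=
  ⟨hA.hom.inf hB.hom, fun p hp x hx => ⟨hA.stab p hp x hx.1, hB.stab p hp x hx.2⟩⟩

/-- Finiteness condition: a finitely generated subquotient, each generator of the ring acting
by a scalar or through one of the operators. -/
structure Good {𝒢 : Grd G k V} (gens : Set R) (l : List (Op R 𝒢)) (A B : Submodule R V) :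
    Prop where
  le : A ≤ B
  sA : Stab l A
  sB : Stab l B
  pw : l.Pairwise SemiComm
  fg : (B.map A.mkQ).FG
  vars : ∀ v ∈ gens, (∃ c : k, ∀ b ∈ B, v • b - c • b ∈ A) ∨
    ∃ o ∈ l, ∃ c : k, (∀ x, o.f x = v • x - c • x) ∨ (∀ x, o.f (o.f x) = v • x - c • x)

variable {gens : Set R} {χ : G → P} {𝒢 : Grd G k V} {𝒢' : Grd G k V'}

theorem Good.sub [IsNoetherianRing R] {l : List (Op R 𝒢)} {A B C D : Submodule R V}
    (h : Good gens l A B) (hAC : A ≤ C) (hCD : C ≤ D) (hDB : D ≤ B)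
    (hC : Stab l C) (hD : Stab l D) : Good gens l C D := by
  refine ⟨hCD, hC, hD, h.pw, ?_, fun v hv => ?_⟩
  · have hfin : IsNoetherian R (B.map A.mkQ) := isNoetherian_of_fg_of_noetherian _ h.fg
    have h1 : (D.map A.mkQ).FG :=
      Submodule.FG.of_le h.fg (Submodule.map_mono hDB)
    have h2 := h1.map (Submodule.mapQ A C LinearMap.id hAC)
    rw [← Submodule.map_comp] at h2
    have e : (Submodule.mapQ A C LinearMap.id hAC).comp A.mkQ = C.mkQ := by ext x; rfl
    rwa [e] at h2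
  · rcases h.vars v hv with ⟨c, hc⟩ | h'
    · exact Or.inl ⟨c, fun b hb => hAC (hc b (hDB hb))⟩
    · exact Or.inr h'

theorem Good.cok [IsNoetherianRing R] {o : Op R 𝒢} {l : List (Op R 𝒢)} {A B : Submodule R V}
    (h : Good gens (o :: l) A B) : Good gens l (A ⊔ B.map o.f) B := by
  have hc : ∀ p ∈ l, SemiComm p o := fun p hp =>
    ((List.pairwise_cons.1 h.pw).1 p hp).symm
  have hle : A ⊔ B.map o.f ≤ B := sup_le h.le (by
    rintro x ⟨b, hb, rfl⟩; exact h.sB.stab o (List.mem_cons_self) b hb)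
  have s1 := Stab.cok o hc h.sA.tail h.sB.tail
  refine ⟨hle, s1, h.sB.tail, (List.pairwise_cons.1 h.pw).2, ?_, fun v hv => ?_⟩
  · have h2 := h.fg.map (Submodule.mapQ A (A ⊔ B.map o.f) LinearMap.id le_sup_left)
    rw [← Submodule.map_comp] at h2
    have e : (Submodule.mapQ A (A ⊔ B.map o.f) LinearMap.id le_sup_left).comp A.mkQ
        = (A ⊔ B.map o.f).mkQ := by ext x; rfl
    rwa [e] at h2
  · rcases h.vars v hv with ⟨c, hc'⟩ | ⟨p, hp, c, h'⟩
    · exact Or.inl ⟨c, fun b hb => Submodule.mem_sup_left (hc' b hb)⟩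
    · rcases List.mem_cons.1 hp with rfl | hp
      · refine Or.inl ⟨c, fun b hb => Submodule.mem_sup_right ?_⟩
        rcases h' with h' | h'
        · rw [← h']; exact ⟨b, hb, rfl⟩
        · rw [← h']; exact ⟨_, h.sB.stab p (List.mem_cons_self) b hb, rfl⟩
      · exact Or.inr ⟨p, hp, c, h'⟩

theorem Good.ker [IsNoetherianRing R] {o : Op R 𝒢} {l : List (Op R 𝒢)} {A B : Submodule R V}
    (h : Good gens (o :: l) A B) : Good gens l A (B ⊓ A.comap o.f) := by
  have hc : ∀ p ∈ l, SemiComm p o := fun p hp =>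
    ((List.pairwise_cons.1 h.pw).1 p hp).symm
  have hle : A ≤ B ⊓ A.comap o.f := le_inf h.le (fun a ha =>
    h.sA.stab o (List.mem_cons_self) a ha)
  have s1 := Stab.ker o hc h.sA.tail h.sB.tail
  refine ⟨hle, h.sA.tail, s1, (List.pairwise_cons.1 h.pw).2, ?_, fun v hv => ?_⟩
  · exact Submodule.FG.of_le h.fg (Submodule.map_mono inf_le_left)
  · rcases h.vars v hv with ⟨c, hc'⟩ | ⟨p, hp, c, h'⟩
    · exact Or.inl ⟨c, fun b hb => hc' b hb.1⟩
    · rcases List.mem_cons.1 hp with rfl | hp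
      · refine Or.inl ⟨c, fun b hb => ?_⟩
        have hpb : p.f b ∈ A := hb.2
        rcases h' with h' | h'
        · rw [← h']; exact hpb
        · rw [← h']; exact h.sA.stab p (List.mem_cons_self) _ hpb
      · exact Or.inr ⟨p, hp, c, h'⟩

/-- Transport along a homogeneous map inducing an isomorphism of subquotients. -/
theorem qd_translate (Φ : HMap R 𝒢 𝒢') {A B : Submodule R V} {A' B' : Submodule R V'}
    (hA' : 𝒢'.Homog A') (hB : 𝒢.Homog B)
    (hAB : A ≤ B) (hmap : B.map Φ.f ⊔ A' = B') (hker : B ⊓ A'.comap Φ.f = A) (g : G) :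
    qd 𝒢' (g + Φ.d) A' B' = qd 𝒢 g A B := by
  have hA : A ≤ A'.comap Φ.f := hker ▸ inf_le_right
  let φ : (V ⧸ A.restrictScalars k) →ₗ[k] (V' ⧸ A'.restrictScalars k) :=
    Submodule.mapQ _ _ (Φ.f.restrictScalars k) (fun a ha => hA ha)
  set M : Submodule k (V ⧸ A.restrictScalars k) :=
    Submodule.map (A.restrictScalars k).mkQ (B.restrictScalars k ⊓ 𝒢.piece g) with hM
  have hinj : Function.Injective (φ.domRestrict M) := by
    rw [← LinearMap.ker_eq_bot, LinearMap.ker_eq_bot']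
    rintro ⟨x, hx⟩ h
    obtain ⟨b, hb, rfl⟩ := hx
    have h' : Φ.f b ∈ A' := (Submodule.Quotient.mk_eq_zero _).1 h
    have : b ∈ A := hker ▸ ⟨hb.1, h'⟩
    exact Subtype.ext ((Submodule.Quotient.mk_eq_zero _).2 this)
  have himg : LinearMap.range (φ.domRestrict M) =
      Submodule.map (A'.restrictScalars k).mkQ (B'.restrictScalars k ⊓ 𝒢'.piece (g + Φ.d)) := by
    apply le_antisymm
    · rintro _ ⟨⟨x, b, hb, rfl⟩, rfl⟩
      refine ⟨Φ.f b, ⟨?_, ?_⟩, rfl⟩
      · show Φ.f b ∈ B'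
        rw [← hmap]; exact Submodule.mem_sup_left ⟨b, hb.1, rfl⟩
      · show 𝒢'.pr (g + Φ.d) (Φ.f b) = Φ.f b
        rw [Φ.hom, hb.2]
    · rintro _ ⟨x, ⟨hx, hxg⟩, rfl⟩
      have hx' : x ∈ B.map Φ.f ⊔ A' := hmap.symm ▸ hx
      obtain ⟨y, ⟨b, hb, rfl⟩, a, ha, rfl⟩ := Submodule.mem_sup.1 hx'
      refine ⟨⟨_, 𝒢.pr g b, ⟨hB b hb g, 𝒢.pr_mem g b⟩, rfl⟩, ?_⟩
      show Submodule.Quotient.mk (Φ.f (𝒢.pr g b)) = Submodule.Quotient.mk (Φ.f b + a)
      rw [Submodule.Quotient.eq]
      have e : 𝒢'.pr (g + Φ.d) (Φ.f b + a) = Φ.f b + a := hxg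
      rw [map_add, Φ.hom] at e
      show Φ.f (𝒢.pr g b) - (Φ.f b + a) ∈ A'
      rw [← e, sub_add_cancel_left]
      exact A'.neg_mem (hA' a ha _)
  unfold qd
  rw [← himg]
  exact (LinearEquiv.ofInjective _ hinj).finrank_eq.symm

theorem qdP_translate (hχ : ∀ a b, χ (a + b) = χ a * χ b) (Φ : HMap R 𝒢 𝒢')
    {A B : Submodule R V} {A' B' : Submodule R V'}
    (hA' : 𝒢'.Homog A') (hB : 𝒢.Homog B)
    (hAB : A ≤ B) (hmap : B.map Φ.f ⊔ A' = B') (hker : B ⊓ A'.comap Φ.f = A)
    (hfin : (Function.support fun g => (qd 𝒢 g A B : P) * χ g).Finite) :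
    qdP 𝒢' χ A' B' = χ Φ.d * qdP 𝒢 χ A B := by
  unfold qdP
  rw [← finsum_comp_equiv (Equiv.addRight Φ.d), mul_finsum' _ _ hfin]
  apply finsum_congr
  intro g
  simp only [Equiv.coe_addRight]
  rw [qd_translate Φ hA' hB hAB hmap hker g, hχ]
  ring

theorem qd_eq_zero_of_le {A B : Submodule R V} {g : G}
    (h : ∀ b ∈ B, 𝒢.pr g b = b → b ∈ A) : qd 𝒢 g A B = 0 := by
  unfold qd
  have : Submodule.map (A.restrictScalars k).mkQ (B.restrictScalars k ⊓ 𝒢.piece g) = ⊥ := by
    rw [eq_bot_iff]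
    rintro _ ⟨b, hb, rfl⟩
    exact (Submodule.Quotient.mk_eq_zero _).2 (h b hb.1 hb.2)
  rw [this]; exact finrank_bot k _

theorem qdP_self {A : Submodule R V} : qdP 𝒢 χ A A = 0 := by
  unfold qdP
  rw [finsum_eq_zero_of_forall_eq_zero]
  intro g; rw [qd_eq_zero_of_le (fun b hb _ => hb)]; simp

/-- Finite dimensional subquotients. -/
def FinQuot (k : Type*) [Field k] [Algebra k R] {V : Type*} [AddCommGroup V] [Module k V]
    [Module R V] [IsScalarTower k R V] (A B : Submodule R V) : Prop :=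
  ((B.restrictScalars k).map (A.restrictScalars k).mkQ).FG

theorem FinQuot.mono {A B C : Submodule R V} (h : FinQuot k A C) (hBC : B ≤ C) :
    FinQuot k A B :=
  Submodule.FG.of_le h (Submodule.map_mono hBC)

theorem FinQuot.quot {A B C : Submodule R V} (h : FinQuot k A C) (hAB : A ≤ B) :
    FinQuot k B C := by
  have h2 := Submodule.FG.map (Submodule.mapQ (A.restrictScalars k) (B.restrictScalars k)
    LinearMap.id (fun x hx => hAB hx)) h
  rw [← Submodule.map_comp] at h2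
  exact h2

theorem FinQuot.exists_finset {A B : Submodule R V} (hA : 𝒢.Homog A) (h : FinQuot k A B) :
    ∃ S : Finset G, ∀ g ∉ S, ∀ b ∈ B, 𝒢.pr g b = b → b ∈ A := by
  classical
  obtain ⟨s, hs⟩ := h
  choose b hb using fun x : V ⧸ A.restrictScalars k => (A.restrictScalars k).mkQ_surjective x
  refine ⟨s.biUnion (fun x => 𝒢.supp (b x)), fun g hg v hv hgv => ?_⟩
  have hv' : (A.restrictScalars k).mkQ v ∈
      Submodule.map (A.restrictScalars k).mkQ (Submodule.span k (b '' (s : Set _))) := by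
    rw [Submodule.map_span, ← Set.image_comp]
    have : ((A.restrictScalars k).mkQ ∘ b) '' (s : Set _) = s := by
      simp [Function.comp_def, hb]
    rw [this, hs]; exact ⟨v, hv, rfl⟩
  obtain ⟨w, hw, hwv⟩ := hv'
  have hw0 : 𝒢.pr g w = 0 := by
    clear hwv
    induction hw using Submodule.span_induction with
    | mem x hx =>
        obtain ⟨y, hy, rfl⟩ := hx
        exact 𝒢.pr_eq_zero _ _ (fun h' => hg (Finset.mem_biUnion.2 ⟨y, hy, h'⟩))
    | zero => simp
    | add x y _ _ hx hy => simp [hx, hy]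
    | smul c x _ hx => simp [hx]
  have hwa : w - v ∈ A := (Submodule.Quotient.eq (A.restrictScalars k)).1 hwv
  have := hA _ hwa g
  rw [map_sub, hw0, hgv, zero_sub] at this
  exact neg_mem_iff.1 this

theorem FinQuot.qdP_support {A B : Submodule R V} (hA : 𝒢.Homog A) (h : FinQuot k A B) :
    (Function.support fun g => (qd 𝒢 g A B : P) * χ g).Finite := by
  obtain ⟨S, hS⟩ := h.exists_finset hA
  refine S.finite_toSet.subset fun g hg => ?_
  by_contra hgS
  apply hg
  show (qd 𝒢 g A B : P) * χ g = 0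
  rw [qd_eq_zero_of_le (hS g hgS)]; simp

theorem qd_add {A B C : Submodule R V} (hAB : A ≤ B) (hBC : B ≤ C) (h : FinQuot k A C) (g : G) :
    qd 𝒢 g A C = qd 𝒢 g A B + qd 𝒢 g B C := by
  let φ : (V ⧸ A.restrictScalars k) →ₗ[k] (V ⧸ B.restrictScalars k) :=
    Submodule.mapQ _ _ LinearMap.id (fun a ha => hAB ha)
  set M := Submodule.map (A.restrictScalars k).mkQ (C.restrictScalars k ⊓ 𝒢.piece g) with hM
  have : FiniteDimensional k M := Module.Finite.iff_fg.2
    (Submodule.FG.of_le h (Submodule.map_mono inf_le_left))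
  have h1 := (φ.domRestrict M).finrank_range_add_finrank_ker
  have hr : LinearMap.range (φ.domRestrict M) =
      Submodule.map (B.restrictScalars k).mkQ (C.restrictScalars k ⊓ 𝒢.piece g) := by
    rw [LinearMap.range_domRestrict, hM, ← Submodule.map_comp]
    rfl
  have hk : LinearMap.ker (φ.domRestrict M) ≃ₗ[k]
      Submodule.map (A.restrictScalars k).mkQ (B.restrictScalars k ⊓ 𝒢.piece g) := by
    refine ((Submodule.equivMapOfInjective _ M.injective_subtype _).trans
      (LinearEquiv.ofEq _ _ ?_))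
    apply le_antisymm
    · rintro _ ⟨⟨x, b, hb, rfl⟩, hx, rfl⟩
      refine ⟨b, ⟨?_, hb.2⟩, rfl⟩
      exact (Submodule.Quotient.mk_eq_zero _).1 hx
    · rintro _ ⟨b, hb, rfl⟩
      refine ⟨⟨_, b, ⟨hBC hb.1, hb.2⟩, rfl⟩, ?_, rfl⟩
      exact (Submodule.Quotient.mk_eq_zero _).2 hb.1
  unfold qd
  rw [← hM, ← h1, hr, hk.finrank_eq]
  ring

theorem qdP_add {A B C : Submodule R V} (hA : 𝒢.Homog A) (hB : 𝒢.Homog B) (hAB : A ≤ B)
    (hBC : B ≤ C) (h : FinQuot k A C) :
    qdP 𝒢 χ A C = qdP 𝒢 χ A B + qdP 𝒢 χ B C := by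
  unfold qdP
  rw [← finsum_add_distrib ((h.mono hBC).qdP_support hA) ((h.quot hAB).qdP_support hB)]
  apply finsum_congr
  intro g
  rw [qd_add hAB hBC h g]; push_cast; ring

variable (hgen : Algebra.adjoin k gens = ⊤)

include hgen in
theorem scalar_mod_of_vars {A B : Submodule R V}
    (hv : ∀ v ∈ gens, ∃ c : k, ∀ b ∈ B, v • b - c • b ∈ A) (r : R) :
    ∃ c : k, ∀ b ∈ B, r • b - c • b ∈ A := by
  have hr : r ∈ Algebra.adjoin k gens := hgen ▸ trivial
  induction hr using Algebra.adjoin_induction with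
  | mem x hx => exact hv x hx
  | algebraMap c => exact ⟨c, fun b _ => by simp [algebraMap_smul]⟩
  | add x y _ _ hx hy =>
      obtain ⟨c, hc⟩ := hx; obtain ⟨d, hd⟩ := hy
      refine ⟨c + d, fun b hb => ?_⟩
      have := A.add_mem (hc b hb) (hd b hb)
      convert! this using 1
      rw [add_smul, add_smul]; abel
  | mul x y _ _ hx hy =>
      obtain ⟨c, hc⟩ := hx; obtain ⟨d, hd⟩ := hy
      refine ⟨c * d, fun b hb => ?_⟩
      have := A.add_mem (A.smul_mem x (hd b hb)) (smulk_mem d (hc b hb))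
      convert! this using 1
      rw [smul_sub, smul_sub, smul_comm x d b, mul_smul, mul_smul, smul_comm c d b]
      abel

include hgen in
theorem Good.finQuot {A B : Submodule R V} (h : Good gens ([] : List (Op R 𝒢)) A B) :
    FinQuot k A B := by
  have hv : ∀ v ∈ gens, ∃ c : k, ∀ b ∈ B, v • b - c • b ∈ A := fun v hv => by
    rcases h.vars v hv with h' | ⟨o, ho, _⟩
    · exact h'
    · simp at ho
  obtain ⟨s, hs⟩ := h.fg
  have hsB : (s : Set (V ⧸ A)) ⊆ B.map A.mkQ := hs ▸ Submodule.subset_span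
  choose b hbB hb using fun x : (s : Set (V ⧸ A)) => hsB x.2
  suffices (B.restrictScalars k).map (A.restrictScalars k).mkQ =
      Submodule.span k (Set.range fun x => (A.restrictScalars k).mkQ (b x)) by
    rw [FinQuot, this]; exact Submodule.fg_span (Set.finite_range _)
  apply le_antisymm
  · rintro _ ⟨v, hvB, rfl⟩
    have hv' : A.mkQ v ∈ Submodule.span R (s : Set (V ⧸ A)) := hs.symm ▸ ⟨v, hvB, rfl⟩
    suffices ∀ y ∈ Submodule.span R (s : Set (V ⧸ A)), ∃ w ∈ B, A.mkQ w = y ∧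
        (A.restrictScalars k).mkQ w ∈
          Submodule.span k (Set.range fun x => (A.restrictScalars k).mkQ (b x)) by
      obtain ⟨w, -, hwv, hw⟩ := this _ hv'
      have : (A.restrictScalars k).mkQ v = (A.restrictScalars k).mkQ w := by
        apply (Submodule.Quotient.eq _).2
        exact (Submodule.Quotient.eq A).1 hwv.symm
      rw [this]; exact hw
    intro y hy
    induction hy using Submodule.span_induction with
    | mem x hx => exact ⟨b ⟨x, hx⟩, hbB _, hb _, Submodule.subset_span ⟨_, rfl⟩⟩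
    | zero => exact ⟨0, B.zero_mem, by simp, by simp⟩
    | add x y _ _ hx hy =>
        obtain ⟨u, hu, hu1, hu2⟩ := hx; obtain ⟨w, hw, hw1, hw2⟩ := hy
        exact ⟨u + w, B.add_mem hu hw, by rw [map_add, hu1, hw1],
          by rw [map_add]; exact add_mem hu2 hw2⟩
    | smul r x _ hx =>
        obtain ⟨u, hu, hu1, hu2⟩ := hx
        obtain ⟨c, hc⟩ := scalar_mod_of_vars hgen hv r
        refine ⟨c • u, smulk_mem c hu, ?_, by rw [map_smul]; exact Submodule.smul_mem _ c hu2⟩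
        rw [← hu1, ← LinearMap.map_smul A.mkQ r u]
        exact ((Submodule.Quotient.eq A).2 (hc u hu)).symm
  · rw [Submodule.span_le]
    rintro _ ⟨x, rfl⟩
    exact ⟨b x, hbB x, rfl⟩

/-- Compatibility of two lists of operators along a map. -/
def Intertw (Φ : HMap R 𝒢 𝒢') (o : Op R 𝒢) (o' : Op R 𝒢') : Prop :=
  o.d = o'.d ∧ ∃ c : k, c ≠ 0 ∧ ∀ v, Φ.f (o.f v) = c • o'.f (Φ.f v)

variable (hχ : ∀ a b, χ (a + b) = χ a * χ b)

include hgen hχ in
theorem psi_translate [IsNoetherianRing R] (Φ : HMap R 𝒢 𝒢') {l : List (Op R 𝒢)}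
    {l' : List (Op R 𝒢')} (hll : List.Forall₂ (Intertw Φ) l l') :
    ∀ {A B : Submodule R V} {A' B' : Submodule R V'}, Good gens l A B → Stab l' A' →
    Stab l' B' → l'.Pairwise SemiComm →
    B.map Φ.f ⊔ A' = B' → B ⊓ A'.comap Φ.f = A →
    psi χ l' A' B' = χ Φ.d * psi χ l A B := by
  induction hll with
  | nil =>
      intro A B A' B' h hA' hB' _ hmap hker
      exact qdP_translate hχ Φ hA'.hom h.sB.hom h.le hmap hker
        ((h.finQuot hgen).qdP_support h.sA.hom)
  | @cons o o' l l' hoo _ ih =>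
      intro A B A' B' h hA' hB' hpw hmap hker
      obtain ⟨hd, c, hc, hoo⟩ := hoo
      have hp := List.pairwise_cons.1 hpw
      have hc' : ∀ p ∈ l', SemiComm p o' := fun p hp' => (hp.1 p hp').symm
      have hA : A ≤ A'.comap Φ.f := hker ▸ inf_le_right
      have sA1 := Stab.cok o' hc' hA'.tail hB'.tail
      have sB1 := Stab.ker o' hc' hA'.tail hB'.tail
      rw [psi_cons, psi_cons, ← hd]
      rw [ih h.cok sA1 hB'.tail hp.2 ?_ ?_, ih h.ker hA'.tail sB1 hp.2 ?_ ?_]
      · ring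
      · apply le_antisymm
        · refine sup_le ?_ (le_inf (hmap ▸ le_sup_right) fun a ha =>
            hA'.stab o' List.mem_cons_self a ha)
          rintro _ ⟨b, hb, rfl⟩
          refine ⟨hmap ▸ Submodule.mem_sup_left ⟨b, hb.1, rfl⟩, ?_⟩
          show o'.f (Φ.f b) ∈ A'
          rw [← smulk_mem_iff hc, ← hoo]; exact hA hb.2
        · rintro x ⟨hx, hx'⟩
          rw [← hmap] at hx
          obtain ⟨_, ⟨b, hb, rfl⟩, a, ha, rfl⟩ := Submodule.mem_sup.1 hx
          refine Submodule.add_mem_sup ⟨b, ⟨hb, ?_⟩, rfl⟩ ha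
          show o.f b ∈ A
          rw [← hker]
          refine ⟨h.sB.stab o List.mem_cons_self b hb, ?_⟩
          show Φ.f (o.f b) ∈ A'
          rw [hoo, smulk_mem_iff hc]
          have : o'.f (Φ.f b + a) ∈ A' := hx'
          rw [map_add] at this
          exact (A'.add_mem_iff_left (hA'.stab o' List.mem_cons_self a ha)).1 this
      · apply le_antisymm
        · rintro b ⟨⟨hb, hb'⟩, hbA⟩
          exact hker ▸ ⟨hb, hbA⟩
        · intro a ha
          exact ⟨⟨h.le ha, h.sA.stab o List.mem_cons_self a ha⟩, hA ha⟩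
      · rw [← hmap]
        apply le_antisymm
        · refine sup_le le_sup_left (sup_le le_sup_right ?_)
          rintro _ ⟨x, hx, rfl⟩
          obtain ⟨_, ⟨b, hb, rfl⟩, a, ha, rfl⟩ := Submodule.mem_sup.1 hx
          rw [map_add]
          refine Submodule.add_mem_sup ?_ (hA'.stab o' List.mem_cons_self a ha)
          rw [← smulk_mem_iff hc, ← hoo]
          exact ⟨o.f b, h.sB.stab o List.mem_cons_self b hb, rfl⟩
        · exact sup_le le_sup_left (le_sup_left.trans le_sup_right)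
      · apply le_antisymm
        · rintro b ⟨hb, hb'⟩
          have hb'' : Φ.f b ∈ A' ⊔ B'.map o'.f := hb'
          obtain ⟨a, ha, _, ⟨y, hy, rfl⟩, e⟩ := Submodule.mem_sup.1 hb''
          rw [← hmap] at hy
          obtain ⟨_, ⟨b1, hb1, rfl⟩, a1, ha1, rfl⟩ := Submodule.mem_sup.1 hy
          have hob : o.f b1 ∈ B := h.sB.stab o List.mem_cons_self b1 hb1
          have : b - c⁻¹ • o.f b1 ∈ A := by
            rw [← hker]
            refine ⟨B.sub_mem hb (smulk_mem c⁻¹ hob), ?_⟩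
            show Φ.f (b - c⁻¹ • o.f b1) ∈ A'
            rw [map_sub, LinearMap.map_smul_of_tower, hoo, inv_smul_smul₀ hc, ← e, map_add]
            rw [show a + (o'.f (Φ.f b1) + o'.f a1) - o'.f (Φ.f b1) = a + o'.f a1 by abel]
            exact A'.add_mem ha (hA'.stab o' List.mem_cons_self a1 ha1)
          rw [← sub_add_cancel b (c⁻¹ • o.f b1)]
          exact Submodule.add_mem_sup this (smulk_mem c⁻¹ ⟨b1, hb1, rfl⟩)
        · refine le_inf (sup_le h.le ?_) (sup_le (hA.trans (Submodule.comap_mono le_sup_left)) ?_)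
          · rintro _ ⟨b, hb, rfl⟩; exact h.sB.stab o List.mem_cons_self b hb
          · rintro _ ⟨b, hb, rfl⟩
            show Φ.f (o.f b) ∈ A' ⊔ B'.map o'.f
            rw [hoo]
            refine smulk_mem c (Submodule.mem_sup_right ⟨Φ.f b, ?_, rfl⟩)
            rw [← hmap]; exact Submodule.mem_sup_left ⟨b, hb, rfl⟩

omit [IsScalarTower k R V] in
theorem intertw_id {l : List (Op R 𝒢)} : List.Forall₂ (Intertw (HMap.id R 𝒢)) l l :=
  List.forall₂_same.2 fun o _ => ⟨rfl, 1, one_ne_zero, fun v => by simp [HMap.id]⟩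

theorem intertw_op (o : Op R 𝒢) {l : List (Op R 𝒢)} (hc : ∀ p ∈ l, SemiComm o p) :
    List.Forall₂ (Intertw o) l l :=
  List.forall₂_same.2 fun p hp => ⟨rfl, hc p hp⟩

variable (hχ0 : χ 0 = 1)

include hgen hχ hχ0 in
/-- Second isomorphism theorem. -/
theorem psi_iso [IsNoetherianRing R] {l : List (Op R 𝒢)} {A B A' B' : Submodule R V}
    (h : Good gens l A B) (hA' : Stab l A') (hB' : Stab l B')
    (hsup : B ⊔ A' = B') (hinf : B ⊓ A' = A) :
    psi χ l A' B' = psi χ l A B := by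
  rw [psi_translate hgen hχ (HMap.id R 𝒢) intertw_id h hA' hB' h.pw]
  · rw [show (HMap.id R 𝒢).d = 0 from rfl, hχ0, one_mul]
  · rw [show (HMap.id R 𝒢).f = LinearMap.id from rfl, Submodule.map_id, hsup]
  · rw [show (HMap.id R 𝒢).f = LinearMap.id from rfl, Submodule.comap_id, hinf]

include hgen hχ hχ0 in
theorem psi_add [IsNoetherianRing R] :
    ∀ {l : List (Op R 𝒢)} {A B C : Submodule R V}, Good gens l A C → Stab l B →
    A ≤ B → B ≤ C → psi χ l A C = psi χ l A B + psi χ l B C := by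
  intro l
  induction l with
  | nil =>
      intro A B C h hB hAB hBC
      exact qdP_add h.sA.hom hB.hom hAB hBC (h.finQuot hgen)
  | cons o l ih =>
      intro A B C h hB hAB hBC
      have hp := List.pairwise_cons.1 h.pw
      have hc : ∀ p ∈ l, SemiComm p o := fun p hp' => (hp.1 p hp').symm
      have hoB : ∀ b ∈ B, o.f b ∈ B := hB.stab o List.mem_cons_self
      have gAB : Good gens (o :: l) A B := h.sub le_rfl hAB hBC h.sA hB
      have gBC : Good gens (o :: l) B C := h.sub hAB hBC le_rfl hB h.sB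
      have sX := Stab.cok o hc h.sA.tail h.sB.tail
      have sY := Stab.cok o hc hB.tail h.sB.tail
      have sK := Stab.ker o hc h.sA.tail h.sB.tail
      have sD := Stab.ker o hc h.sA.tail hB.tail
      set E := B ⊓ (A ⊔ C.map o.f) with hE
      have sE : Stab l E := hB.tail.inf sX
      set D := B ⊓ A.comap o.f with hD
      set K := C ⊓ A.comap o.f with hK
      set F := B ⊔ K with hF
      have sF : Stab l F := hB.tail.sup sK
      have hAfB : A ⊔ B.map o.f ≤ E :=
        le_inf gAB.cok.le (sup_le_sup_left (Submodule.map_mono hBC) _)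
      have hFle : F ≤ C ⊓ B.comap o.f :=
        sup_le (le_inf hBC hoB) (inf_le_inf_left _ (Submodule.comap_mono hAB))
      -- cokernels
      have e1 := ih h.cok sY (sup_le_sup_right hAB _) (gBC.cok.le)
      have e2 := ih gAB.cok sE hAfB inf_le_left
      have e3 : psi χ l (A ⊔ C.map o.f) (B ⊔ C.map o.f) = psi χ l E B := by
        refine psi_iso hgen hχ hχ0 (gAB.cok.sub hAfB inf_le_left le_rfl sE hB.tail) sX sY ?_ rfl
        rw [← sup_assoc, sup_of_le_left hAB]
      -- kernels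
      have e4 := ih h.ker sD (gAB.ker.le) (inf_le_inf_right _ hBC)
      have e5 := ih gBC.ker sF le_sup_left hFle
      have e6 : psi χ l B F = psi χ l D K := by
        refine psi_iso hgen hχ hχ0 (h.ker.sub gAB.ker.le (inf_le_inf_right _ hBC) le_rfl sD sK)
          hB.tail sF ?_ ?_
        · rw [hF, sup_comm]
        · rw [hD, hK, inf_right_comm, inf_of_le_right hBC]
      -- the connecting map
      have e7 : psi χ l (A ⊔ B.map o.f) E = χ o.d * psi χ l F (C ⊓ B.comap o.f) := by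
        refine psi_translate hgen hχ o (intertw_op o hp.1)
          (gBC.ker.sub le_sup_left hFle le_rfl sF gBC.ker.sB) gAB.cok.sA sE hp.2 ?_ ?_
        · apply le_antisymm
          · refine sup_le ?_ hAfB
            rintro _ ⟨x, hx, rfl⟩
            exact ⟨hx.2, Submodule.mem_sup_right ⟨x, hx.1, rfl⟩⟩
          · rintro x ⟨hxB, hx⟩
            obtain ⟨a, ha, _, ⟨y, hy, rfl⟩, rfl⟩ := Submodule.mem_sup.1 hx
            have hy' : o.f y ∈ B := (B.add_mem_iff_right (hAB ha)).1 hxB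
            exact Submodule.add_mem _ (Submodule.mem_sup_right (Submodule.mem_sup_left ha))
              (Submodule.mem_sup_left ⟨y, ⟨hy, hy'⟩, rfl⟩)
        · apply le_antisymm
          · rintro x ⟨hx, hx'⟩
            obtain ⟨a, ha, _, ⟨b, hb, rfl⟩, e⟩ := Submodule.mem_sup.1
              (show o.f x ∈ A ⊔ B.map o.f from hx')
            have : x - b ∈ K := ⟨C.sub_mem hx.1 (hBC hb), by
              show o.f (x - b) ∈ A
              rw [map_sub, ← e, add_sub_cancel_right]; exact ha⟩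
            rw [← add_sub_cancel b x]
            exact Submodule.add_mem_sup hb this
          · refine sup_le (le_inf (le_inf hBC hoB) ?_) (le_inf (le_sup_right.trans hFle) ?_)
            · intro b hb; exact Submodule.mem_sup_right ⟨b, hb, rfl⟩
            · exact inf_le_right.trans (Submodule.comap_mono le_sup_left)
      rw [psi_cons, psi_cons, psi_cons]
      linear_combination e1 - e2 + e3 - χ o.d * e4 + χ o.d * e5 + χ o.d * e6 - e7

end Vale.Agent.P199
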