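import Vale.Agent.P199.Psi

/-!
Exchange, regrading and translation of the operators in the Euler characteristic.
-/

set_option linter.unusedSectionVars false

namespace Vale.Agent.P199

open Submodule

variable {k R G P : Type*} [Field k] [CommRing R] [Algebra k R]
  [AddCommGroup G] [CommRing P] [IsNoetherianRing R]
  {V : Type*} [AddCommGroup V] [Module k V] [Module R V] [IsScalarTower k R V]

variable {gens : Set R} {χ : G → P} {𝒢 : Grd G k V}

/-- All operators are multiplications by ring elements. -/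
def IsMul (l : List (Op R 𝒢)) : Prop := ∀ o ∈ l, ∃ r : R, ∀ x, o.f x = r • x

theorem IsMul.tail {o : Op R 𝒢} {l : List (Op R 𝒢)} (h : IsMul (o :: l)) : IsMul l :=
  fun p hp => h p (List.mem_cons_of_mem _ hp)

theorem IsMul.stab {l : List (Op R 𝒢)} (h : IsMul l) {A : Submodule R V} (hA : 𝒢.Homog A) :
    Stab l A :=
  ⟨hA, fun o ho a ha => by obtain ⟨r, hr⟩ := h o ho; rw [hr]; exact A.smul_mem r ha⟩

theorem IsMul.semiComm {l : List (Op R 𝒢)} (h : IsMul l) {o o' : Op R 𝒢} (ho : o ∈ l)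
    (ho' : o' ∈ l) : SemiComm o o' := by
  obtain ⟨r, hr⟩ := h o ho
  obtain ⟨r', hr'⟩ := h o' ho'
  exact ⟨1, one_ne_zero, fun v => by rw [one_smul, hr, hr', hr', hr, smul_comm]⟩

theorem IsMul.pairwise {l : List (Op R 𝒢)} (h : IsMul l) : l.Pairwise SemiComm :=
  List.pairwise_iff_forall_sublist.2 fun hs =>
    h.semiComm (hs.subset (by simp)) (hs.subset (by simp))

theorem Good.perm {l l' : List (Op R 𝒢)} {A B : Submodule R V} (h : Good gens l A B)
    (hmem : ∀ o, o ∈ l' ↔ o ∈ l) (hpw : l'.Pairwise SemiComm) : Good gens l' A B := by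
  refine ⟨h.le, h.sA.mono fun o ho => (hmem o).1 ho, h.sB.mono fun o ho => (hmem o).1 ho, hpw,
    h.fg, fun v hv => ?_⟩
  rcases h.vars v hv with h' | ⟨o, ho, h'⟩
  · exact Or.inl h'
  · exact Or.inr ⟨o, (hmem o).2 ho, h'⟩

variable (hgen : Algebra.adjoin k gens = ⊤)
variable (hχ : ∀ a b, χ (a + b) = χ a * χ b)
variable (hχ0 : χ 0 = 1)

include hgen hχ hχ0 in
/-- The difference between the two cross terms is symmetric. -/
theorem psi_cross {a b : Op R 𝒢} {l : List (Op R 𝒢)} {A B : Submodule R V}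
    (h : Good gens (a :: b :: l) A B) :
    χ b.d * psi χ l (A ⊔ B.map a.f) (B ⊓ (A ⊔ B.map a.f).comap b.f)
      - χ b.d * psi χ l (A ⊔ (B ⊓ A.comap b.f).map a.f) (B ⊓ A.comap b.f)
    = psi χ l (A ⊔ (B.map a.f).map b.f) ((A ⊔ B.map a.f) ⊓ (A ⊔ B.map b.f))
      - χ a.d * χ b.d * psi χ l ((B ⊓ A.comap a.f) ⊔ (B ⊓ A.comap b.f))
          (B ⊓ (A.comap b.f).comap a.f) := by
  have hp := List.pairwise_cons.1 h.pw
  have hpb := List.pairwise_cons.1 hp.2
  have hal : ∀ p ∈ l, SemiComm p a := fun p hp' => (hp.1 p (List.mem_cons_of_mem _ hp')).symm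
  have hbl : ∀ p ∈ l, SemiComm p b := fun p hp' => (hpb.1 p hp').symm
  obtain ⟨c, hc, hab⟩ := hp.1 b List.mem_cons_self
  have sA : Stab l A := h.sA.tail.tail
  have sB : Stab l B := h.sB.tail.tail
  have haA : ∀ x ∈ A, a.f x ∈ A := h.sA.stab a List.mem_cons_self
  have hbA : ∀ x ∈ A, b.f x ∈ A := h.sA.stab b (List.mem_cons_of_mem _ List.mem_cons_self)
  have haB : ∀ x ∈ B, a.f x ∈ B := h.sB.stab a List.mem_cons_self
  have hbB : ∀ x ∈ B, b.f x ∈ B := h.sB.stab b (List.mem_cons_of_mem _ List.mem_cons_self)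
  set Aa := A ⊔ B.map a.f with hAa
  set Ab := A ⊔ B.map b.f with hAb
  set Ka := B ⊓ A.comap a.f with hKa
  set Kb := B ⊓ A.comap b.f with hKb
  set W := B ⊓ (A.comap b.f).comap a.f with hW
  set A2 := A ⊔ (B.map a.f).map b.f with hA2
  have sAa : Stab (b :: l) Aa := Stab.cok a (by
    intro p hp'; exact (hp.1 p hp').symm) h.sA.tail h.sB.tail
  have sKb : Stab (l) Kb := Stab.ker b hbl sA sB
  have gca : Good gens l Aa (B ⊓ Aa.comap b.f) := h.cok.ker
  have hKbAa : Aa ⊔ Kb ≤ B ⊓ Aa.comap b.f :=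
    sup_le gca.le (le_inf inf_le_left (inf_le_right.trans (Submodule.comap_mono le_sup_left)))
  have sM : Stab l (Aa ⊔ Kb) := sAa.tail.sup sKb
  have e1 := psi_add hgen hχ hχ0 gca sM le_sup_left hKbAa
  -- second isomorphism
  have gb : Good gens (a :: l) A Kb := by
    have h' : Good gens (b :: a :: l) A B := h.perm (fun o => by simp only [List.mem_cons]; tauto)
      (List.pairwise_cons.2 ⟨fun p hp' => by
        rcases List.mem_cons.1 hp' with rfl | hp'
        · exact (hp.1 b List.mem_cons_self).symm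
        · exact hpb.1 p hp',
        List.pairwise_cons.2 ⟨fun p hp' => hp.1 p (List.mem_cons_of_mem _ hp'), hpb.2⟩⟩)
    exact h'.ker
  have gcb : Good gens l (A ⊔ Kb.map a.f) Kb := gb.cok
  have hAKb : A ≤ Kb := gb.le
  have hle2 : A ⊔ Kb.map a.f ≤ Kb ⊓ Aa :=
    le_inf gcb.le (sup_le_sup_left (Submodule.map_mono inf_le_left) _)
  have sI : Stab l (Kb ⊓ Aa) := sKb.inf sAa.tail
  have e2 := psi_add hgen hχ hχ0 gcb sI hle2 inf_le_left
  have e3 : psi χ l Aa (Aa ⊔ Kb) = psi χ l (Kb ⊓ Aa) Kb :=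
    psi_iso hgen hχ hχ0 (gcb.sub hle2 inf_le_left le_rfl sI sKb) sAa.tail sM (sup_comm _ _) rfl
  -- via `b`
  have sA2 : Stab l A2 := Stab.cok b hbl sA ⟨a.map_homog h.sB.hom, fun p hp' x hx => by
    obtain ⟨y, hy, rfl⟩ := hx
    obtain ⟨d, hd0, hd⟩ := hal p hp'
    rw [hd]; exact smulk_mem d ⟨p.f y, sB.stab p hp' y hy, rfl⟩⟩
  have sAB : Stab l (Aa ⊓ Ab) := sAa.tail.inf (Stab.cok b hbl sA sB)
  have e4 : psi χ l A2 (Aa ⊓ Ab) = χ b.d * psi χ l (Aa ⊔ Kb) (B ⊓ Aa.comap b.f) := by
    refine psi_translate hgen hχ b (intertw_op b hpb.1)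
      (gca.sub le_sup_left hKbAa le_rfl sM gca.sB) sA2 sAB hpb.2 ?_ ?_
    · apply le_antisymm
      · refine sup_le ?_ (sup_le (le_inf le_sup_left le_sup_left) (le_inf ?_ ?_))
        · rintro _ ⟨x, hx, rfl⟩
          exact ⟨hx.2, Submodule.mem_sup_right ⟨x, hx.1, rfl⟩⟩
        · rintro _ ⟨_, ⟨y, hy, rfl⟩, rfl⟩
          refine Submodule.mem_sup_right ?_
          rw [show b.f (a.f y) = c⁻¹ • a.f (b.f y) by rw [hab, inv_smul_smul₀ hc]]
          exact smulk_mem _ ⟨_, hbB y hy, rfl⟩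
        · rintro _ ⟨_, ⟨y, hy, rfl⟩, rfl⟩
          exact Submodule.mem_sup_right ⟨_, haB y hy, rfl⟩
      · rintro x ⟨hxa, hxb⟩
        obtain ⟨a1, ha1, _, ⟨y, hy, rfl⟩, rfl⟩ := Submodule.mem_sup.1 hxb
        refine Submodule.add_mem _ (Submodule.mem_sup_right (Submodule.mem_sup_left ha1))
          (Submodule.mem_sup_left ⟨y, ⟨hy, ?_⟩, rfl⟩)
        exact (Aa.add_mem_iff_right (Submodule.mem_sup_left ha1)).1 hxa
    · apply le_antisymm
      · rintro x ⟨hx, hx'⟩
        obtain ⟨a1, ha1, _, ⟨_, ⟨y, hy, rfl⟩, rfl⟩, e⟩ := Submodule.mem_sup.1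
          (show b.f x ∈ A2 from hx')
        have hk : x - a.f y ∈ Kb := ⟨B.sub_mem hx.1 (haB y hy), by
          show b.f (x - a.f y) ∈ A
          rw [map_sub, ← e, add_sub_cancel_right]; exact ha1⟩
        rw [← add_sub_cancel (a.f y) x]
        exact Submodule.add_mem_sup (Submodule.mem_sup_right ⟨y, hy, rfl⟩) hk
      · refine le_inf hKbAa (sup_le (sup_le ?_ ?_) ?_)
        · intro x hx; exact Submodule.mem_sup_left (hbA x hx)
        · rintro _ ⟨y, hy, rfl⟩
          exact Submodule.mem_sup_right ⟨a.f y, ⟨y, hy, rfl⟩, rfl⟩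
        · intro x hx; exact Submodule.mem_sup_left hx.2
  -- via `a`
  have sKK : Stab l (Ka ⊔ Kb) := (Stab.ker a hal sA sB).sup sKb
  have hKW : Ka ⊔ Kb ≤ W := by
    refine sup_le ?_ ?_
    · rintro x ⟨hx, hx'⟩; exact ⟨hx, hbA _ hx'⟩
    · rintro x ⟨hx, hx'⟩
      refine ⟨hx, ?_⟩
      show b.f (a.f x) ∈ A
      rw [← smulk_mem_iff hc, ← hab]; exact haA _ hx'
  have sW : Stab l W := by
    refine ⟨h.sB.hom.inf (a.comap_homog (b.comap_homog h.sA.hom)), fun p hp' x hx => ?_⟩
    obtain ⟨d, hd0, hd⟩ := (hal p hp').symm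
    obtain ⟨d', hd0', hd'⟩ := (hbl p hp').symm
    refine ⟨sB.stab p hp' x hx.1, ?_⟩
    show b.f (a.f (p.f x)) ∈ A
    rw [hd, LinearMap.map_smul_of_tower, hd']
    exact smulk_mem d (smulk_mem d' (sA.stab p hp' _ hx.2))
  have hAKa : A ≤ Ka := le_inf h.le haA
  have e5 : psi χ l (A ⊔ Kb.map a.f) (Kb ⊓ Aa) = χ a.d * psi χ l (Ka ⊔ Kb) W := by
    have gW : Good gens l (Ka ⊔ Kb) W := by
      refine ⟨hKW, sKK, sW, hpb.2, ?_, fun v hv => ?_⟩
      · have h1 : (W.map A.mkQ).FG :=
          Submodule.FG.of_le (haveI := isNoetherian_of_fg_of_noetherian _ h.fg; h.fg)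
            (Submodule.map_mono inf_le_left)
        have hAC : A ≤ Ka ⊔ Kb := hAKa.trans le_sup_left
        have h2 := h1.map (Submodule.mapQ A (Ka ⊔ Kb) LinearMap.id hAC)
        rw [← Submodule.map_comp] at h2
        exact h2
      · rcases h.vars v hv with ⟨d, hd⟩ | ⟨p, hp', d, h'⟩
        · exact Or.inl ⟨d, fun x hx => Submodule.mem_sup_left (hAKa (hd x hx.1))⟩
        · rcases List.mem_cons.1 hp' with rfl | hp'
          · refine Or.inl ⟨d, fun x hx => Submodule.mem_sup_right ?_⟩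
            rcases h' with h' | h'
            · rw [← h']; exact ⟨haB x hx.1, hx.2⟩
            · rw [← h']
              refine ⟨haB _ (haB x hx.1), ?_⟩
              show b.f (p.f (p.f x)) ∈ A
              rw [← smulk_mem_iff hc, ← hab]; exact haA _ hx.2
          · rcases List.mem_cons.1 hp' with rfl | hp'
            · refine Or.inl ⟨d, fun x hx => Submodule.mem_sup_left ?_⟩
              rcases h' with h' | h'
              · rw [← h']
                refine ⟨hbB x hx.1, ?_⟩
                show a.f (p.f x) ∈ A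
                rw [hab]; exact smulk_mem c hx.2
              · rw [← h']
                refine ⟨hbB _ (hbB x hx.1), ?_⟩
                show a.f (p.f (p.f x)) ∈ A
                rw [hab, hab, LinearMap.map_smul_of_tower]
                exact smulk_mem c (smulk_mem c (hbA _ hx.2))
            · exact Or.inr ⟨p, hp', d, h'⟩
    refine psi_translate hgen hχ a (intertw_op a (fun p hp' => hp.1 p (List.mem_cons_of_mem _ hp')))
      gW gcb.sA sI hpb.2 ?_ ?_
    · apply le_antisymm
      · refine sup_le ?_ hle2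
        rintro _ ⟨x, hx, rfl⟩
        exact ⟨⟨haB x hx.1, hx.2⟩, Submodule.mem_sup_right ⟨x, hx.1, rfl⟩⟩
      · rintro x ⟨hxK, hxA⟩
        obtain ⟨a1, ha1, _, ⟨y, hy, rfl⟩, rfl⟩ := Submodule.mem_sup.1 hxA
        refine Submodule.add_mem _ (Submodule.mem_sup_right (Submodule.mem_sup_left ha1))
          (Submodule.mem_sup_left ⟨y, ⟨hy, ?_⟩, rfl⟩)
        exact ((Kb.add_mem_iff_right (hAKb ha1)).1 hxK).2
    · apply le_antisymm
      · rintro x ⟨hx, hx'⟩
        obtain ⟨a1, ha1, _, ⟨y, hy, rfl⟩, e⟩ := Submodule.mem_sup.1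
          (show a.f x ∈ A ⊔ Kb.map a.f from hx')
        have hk : x - y ∈ Ka := ⟨B.sub_mem hx.1 hy.1, by
          show a.f (x - y) ∈ A
          rw [map_sub, ← e, add_sub_cancel_right]; exact ha1⟩
        rw [← sub_add_cancel x y]
        exact Submodule.add_mem_sup hk hy
      · refine le_inf hKW (sup_le ?_ ?_)
        · intro x hx; exact Submodule.mem_sup_left hx.2
        · intro x hx; exact Submodule.mem_sup_right ⟨x, hx, rfl⟩
  linear_combination χ b.d * e1 - χ b.d * e2 + χ b.d * e3 - e4 - χ b.d * e5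

include hgen hχ hχ0 in
/-- Two operators may be exchanged. -/
theorem psi_swap {a b : Op R 𝒢} {l : List (Op R 𝒢)} {A B : Submodule R V}
    (h : Good gens (a :: b :: l) A B) :
    psi χ (a :: b :: l) A B = psi χ (b :: a :: l) A B := by
  have hp := List.pairwise_cons.1 h.pw
  have hpb := List.pairwise_cons.1 hp.2
  obtain ⟨c, hc, hab⟩ := hp.1 b List.mem_cons_self
  have h' : Good gens (b :: a :: l) A B := h.perm (fun o => by simp only [List.mem_cons]; tauto)
    (List.pairwise_cons.2 ⟨fun p hp' => by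
      rcases List.mem_cons.1 hp' with rfl | hp'
      · exact (hp.1 b List.mem_cons_self).symm
      · exact hpb.1 p hp',
      List.pairwise_cons.2 ⟨fun p hp' => hp.1 p (List.mem_cons_of_mem _ hp'), hpb.2⟩⟩)
  have x1 := psi_cross hgen hχ hχ0 h
  have x2 := psi_cross hgen hχ hχ0 h'
  have s1 : A ⊔ B.map a.f ⊔ B.map b.f = A ⊔ B.map b.f ⊔ B.map a.f := sup_right_comm _ _ _
  have s2 : B ⊓ A.comap a.f ⊓ A.comap b.f = B ⊓ A.comap b.f ⊓ A.comap a.f := inf_right_comm _ _ _
  have s3 : (B.map a.f).map b.f = (B.map b.f).map a.f := by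
    apply le_antisymm
    · rintro _ ⟨_, ⟨y, hy, rfl⟩, rfl⟩
      rw [show b.f (a.f y) = c⁻¹ • a.f (b.f y) by rw [hab, inv_smul_smul₀ hc]]
      exact smulk_mem _ ⟨_, ⟨y, hy, rfl⟩, rfl⟩
    · rintro _ ⟨_, ⟨y, hy, rfl⟩, rfl⟩
      rw [hab]
      exact smulk_mem _ ⟨_, ⟨y, hy, rfl⟩, rfl⟩
  have s4 : (A.comap b.f).comap a.f = (A.comap a.f).comap b.f := by
    ext x
    show b.f (a.f x) ∈ A ↔ a.f (b.f x) ∈ A
    rw [hab, smulk_mem_iff hc]
  rw [← s3, ← s4, inf_comm (A ⊔ B.map b.f), sup_comm (B ⊓ A.comap b.f)] at x2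
  simp only [psi_cons]
  rw [s1, s2]
  linear_combination x2 - x1

/-- Every element of the ring acts by its value under `ev`. -/
theorem scalar_mod_ev (hgen : Algebra.adjoin k gens = ⊤) (ev : R →ₐ[k] k)
    {A B : Submodule R V} (hv : ∀ v ∈ gens, ∀ b ∈ B, v • b - ev v • b ∈ A) (r : R) :
    ∀ b ∈ B, r • b - ev r • b ∈ A := by
  have hr : r ∈ Algebra.adjoin k gens := hgen ▸ trivial
  induction hr using Algebra.adjoin_induction with
  | mem x hx => exact hv x hx
  | algebraMap c => intro b _; simp [algebraMap_smul]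
  | add x y _ _ hx hy =>
      intro b hb
      have := A.add_mem (hx b hb) (hy b hb)
      convert! this using 1
      rw [map_add, add_smul, add_smul]; abel
  | mul x y _ _ hx hy =>
      intro b hb
      have := A.add_mem (A.smul_mem x (hy b hb)) (smulk_mem (ev y) (hx b hb))
      convert! this using 1
      rw [map_mul, smul_sub, smul_sub, smul_comm x (ev y) b, mul_smul, mul_smul,
        smul_comm (ev x) (ev y) b]
      abel

include hgen in
/-- A subquotient killed by an element not vanishing at a point has Euler characteristic zero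
with respect to the translated operators. -/
theorem psi_vanish (ev : R →ₐ[k] k) {D : R} (hD : ev D ≠ 0) :
    ∀ {l : List (Op R 𝒢)} {A B : Submodule R V}, Good gens l A B → (∀ b ∈ B, D • b ∈ A) →
    (∀ v ∈ gens, (∀ b ∈ B, v • b - ev v • b ∈ A) ∨
      ∃ o ∈ l, ∀ x, o.f x = v • x - ev v • x) →
    psi χ l A B = 0 := by
  intro l
  induction l with
  | nil =>
      intro A B h hk hv
      have hv' : ∀ v ∈ gens, ∀ b ∈ B, v • b - ev v • b ∈ A := fun v hv' => by
        rcases hv v hv' with h' | ⟨o, ho, _⟩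
        · exact h'
        · simp at ho
      have : B = A := le_antisymm (fun b hb => by
        have := A.sub_mem (hk b hb) (scalar_mod_ev hgen ev hv' D b hb)
        rw [sub_sub_cancel] at this
        exact (smulk_mem_iff hD).1 this) h.le
      rw [this]; exact qdP_self
  | cons o l ih =>
      intro A B h hk hv
      rw [psi_cons, ih h.cok (fun b hb => Submodule.mem_sup_left (hk b hb)) ?_,
        ih h.ker (fun b hb => hk b hb.1) ?_]
      · ring
      · intro v hv'
        rcases hv v hv' with h' | ⟨p, hp, h'⟩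
        · exact Or.inl fun b hb => h' b hb.1
        · rcases List.mem_cons.1 hp with rfl | hp
          · exact Or.inl fun b hb => by rw [← h']; exact hb.2
          · exact Or.inr ⟨p, hp, h'⟩
      · intro v hv'
        rcases hv v hv' with h' | ⟨p, hp, h'⟩
        · exact Or.inl fun b hb => Submodule.mem_sup_left (h' b hb)
        · rcases List.mem_cons.1 hp with rfl | hp
          · exact Or.inl fun b hb => Submodule.mem_sup_right (by rw [← h']; exact ⟨b, hb, rfl⟩)
          · exact Or.inr ⟨p, hp, h'⟩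

theorem homog_span_singleton {b : V} {g : G} (hb : 𝒢.pr g b = b)
    (hsmul : ∀ (r : R) (h : G), 𝒢.pr h (r • b) ∈ Submodule.span R {b}) :
    𝒢.Homog (Submodule.span R {b}) := by
  intro x hx h
  obtain ⟨r, rfl⟩ := Submodule.mem_span_singleton.1 hx
  exact hsmul r h

/-- A grading for which every ring element is a sum of homogeneous multiplications. -/
def Compatible (R : Type*) [CommRing R] {V : Type*} [AddCommGroup V] [Module k V] [Module R V]
    (𝒢 : Grd G k V) : Prop :=
  ∀ (r : R) (g h : G) (b : V), 𝒢.pr g b = b → 𝒢.pr h (r • b) ∈ Submodule.span R {b}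

include hgen hχ hχ0 in
/-- To show an additive function vanishes it suffices to treat cyclic subquotients. -/
theorem mul_induct (hcomp : Compatible R 𝒢) {l : List (Op R 𝒢)} (hl : IsMul l)
    (F : Submodule R V → Submodule R V → P) {A₀ B₀ : Submodule R V}
    (hadd : ∀ {A B C : Submodule R V}, A₀ ≤ A → C ≤ B₀ → Good gens l A C → Stab l B →
      A ≤ B → B ≤ C → F A C = F A B + F B C)
    (hcyc : ∀ {A : Submodule R V} {b : V} {g : G}, A₀ ≤ A → A ⊔ Submodule.span R {b} ≤ B₀ →
      Good gens l A (A ⊔ Submodule.span R {b}) → 𝒢.pr g b = b →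
      F A (A ⊔ Submodule.span R {b}) = 0)
    {A B : Submodule R V} (hA₀ : A₀ ≤ A) (hB₀ : B ≤ B₀) (h : Good gens l A B) :
    F A B = 0 := by
  classical
  obtain ⟨s, hs⟩ := h.fg
  have hsB : (s : Set (V ⧸ A)) ⊆ B.map A.mkQ := hs ▸ Submodule.subset_span
  choose b hbB hb using fun x : (s : Set (V ⧸ A)) => hsB x.2
  let T : Finset (G × V) := Finset.univ.biUnion fun x : (s : Set (V ⧸ A)) =>
    (𝒢.supp (b x)).image fun g => (g, 𝒢.pr g (b x))
  have hT : ∀ p ∈ T, p.2 ∈ B ∧ 𝒢.pr p.1 p.2 = p.2 := by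
    intro p hp
    simp only [T, Finset.mem_biUnion, Finset.mem_image] at hp
    obtain ⟨x, -, g, hg, rfl⟩ := hp
    exact ⟨h.sB.hom _ (hbB x) g, 𝒢.pr_idem _ _⟩
  have hBT : B ≤ A ⊔ Submodule.span R (Prod.snd '' (T : Set (G × V))) := by
    intro v hv
    have hb' : ∀ x, b x ∈ Submodule.span R (Prod.snd '' (T : Set (G × V))) := fun x => by
      rw [← 𝒢.sum_pr (b x)]
      refine Submodule.sum_mem _ fun g hg => Submodule.subset_span ⟨(g, 𝒢.pr g (b x)), ?_, rfl⟩
      simp only [T, Finset.mem_coe, Finset.mem_biUnion, Finset.mem_image]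
      exact ⟨x, Finset.mem_univ _, g, hg, rfl⟩
    have hv' : A.mkQ v ∈ Submodule.span R (s : Set (V ⧸ A)) := hs.symm ▸ ⟨v, hv, rfl⟩
    have hle : Submodule.span R (s : Set (V ⧸ A)) ≤
        (Submodule.span R (Prod.snd '' (T : Set (G × V)))).map A.mkQ := by
      rw [Submodule.span_le]
      intro x hx
      exact ⟨b ⟨x, hx⟩, hb' _, hb _⟩
    obtain ⟨w, hw, hwv⟩ := hle hv'
    rw [← sub_add_cancel v w]
    exact Submodule.add_mem_sup ((Submodule.Quotient.eq A).1 hwv.symm) hw
  clear_value T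
  clear hsB hb hbB b hs s
  induction T using Finset.induction_on generalizing A with
  | empty =>
      have e : B = A := le_antisymm (by simpa using hBT) h.le
      subst e
      have := hadd hA₀ hB₀ h h.sA le_rfl le_rfl
      linear_combination -this
  | insert p T hp ih =>
      obtain ⟨hpB, hpg⟩ := hT p (Finset.mem_insert_self p T)
      set A1 := A ⊔ Submodule.span R {p.2} with hA1
      have hA1B : A1 ≤ B := sup_le h.le ((Submodule.span_singleton_le_iff_mem _ _).2 hpB)
      have sA1 : Stab l A1 := hl.stab (h.sA.hom.sup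
        (homog_span_singleton hpg fun r h' => hcomp r p.1 h' p.2 hpg))
      rw [hadd hA₀ hB₀ h sA1 le_sup_left hA1B,
        hcyc hA₀ (hA1B.trans hB₀) (h.sub le_rfl le_sup_left hA1B h.sA sA1) hpg,
        ih (hA₀.trans le_sup_left) (h.sub le_sup_left hA1B le_rfl sA1 h.sB)
          (fun q hq => hT q (Finset.mem_insert_of_mem hq)) ?_, add_zero]
      rwa [sup_assoc, ← Submodule.span_union, Set.singleton_union, ← Set.image_insert_eq,
        ← Finset.coe_insert]

/-- `B/A` is one dimensional, spanned by a homogeneous element. -/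
theorem qdP_single {A : Submodule R V} (hA : 𝒢.Homog A) {b : V} {g : G} (hbg : 𝒢.pr g b = b)
    (hb : b ∉ A) (hspan : ∀ r : R, ∃ c : k, r • b - c • b ∈ A) :
    qdP 𝒢 χ A (A ⊔ Submodule.span R {b}) = χ g := by
  have hmem : ∀ x ∈ A ⊔ Submodule.span R {b}, ∃ c : k, x - c • b ∈ A := by
    intro x hx
    obtain ⟨a, ha, y, hy, rfl⟩ := Submodule.mem_sup.1 hx
    obtain ⟨r, rfl⟩ := Submodule.mem_span_singleton.1 hy
    obtain ⟨c, hc⟩ := hspan r
    exact ⟨c, by rw [add_sub_assoc]; exact A.add_mem ha hc⟩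
  unfold qdP
  rw [finsum_eq_single _ g]
  · suffices qd 𝒢 g A (A ⊔ Submodule.span R {b}) = 1 by rw [this]; simp
    unfold qd
    have : Submodule.map (A.restrictScalars k).mkQ
        ((A ⊔ Submodule.span R {b}).restrictScalars k ⊓ 𝒢.piece g) =
        Submodule.span k {(A.restrictScalars k).mkQ b} := by
      apply le_antisymm
      · rintro _ ⟨x, hx, rfl⟩
        obtain ⟨c, hc⟩ := hmem x hx.1
        refine Submodule.mem_span_singleton.2 ⟨c, ?_⟩
        rw [← map_smul]
        exact ((Submodule.Quotient.eq (A.restrictScalars k)).2 hc).symm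
      · rw [Submodule.span_singleton_le_iff_mem]
        exact ⟨b, ⟨Submodule.mem_sup_right (Submodule.mem_span_singleton_self b), hbg⟩, rfl⟩
    rw [this]
    exact finrank_span_singleton (fun h => hb ((Submodule.Quotient.mk_eq_zero _).1 h))
  · intro h hne
    rw [qd_eq_zero_of_le]
    · simp
    · intro x hx hxh
      obtain ⟨c, hc⟩ := hmem x hx
      have := hA _ hc h
      rwa [map_sub, map_smul, hxh, show 𝒢.pr h b = 0 by rw [← hbg, 𝒢.pr_ne h g b hne],
        smul_zero, sub_zero] at this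

end Vale.Agent.P199
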