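import Vale.Agent.P199.Psi2

/-!
Translation of degree zero operators and change of grading.
-/

set_option linter.unusedSectionVars false

namespace Vale.Agent.P199

open Submodule Polynomial

variable {k R G P : Type*} [Field k] [CommRing R] [Algebra k R]
  [AddCommGroup G] [CommRing P] [IsNoetherianRing R]
  {V : Type*} [AddCommGroup V] [Module k V] [Module R V] [IsScalarTower k R V]

variable {gens : Set R} {χ : G → P} {𝒢 : Grd G k V}

/-- Each generator acts by a scalar or is, up to a scalar, one of the operators. -/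
def Vars1 (gens : Set R) (l : List (Op R 𝒢)) (A B : Submodule R V) : Prop :=
  ∀ v ∈ gens, (∃ c : k, ∀ b ∈ B, v • b - c • b ∈ A) ∨
    ∃ o ∈ l, ∃ c : k, ∀ x, o.f x = v • x - c • x

theorem Vars1.good {l : List (Op R 𝒢)} {A B : Submodule R V} (hl : IsMul l) (hle : A ≤ B)
    (hA : 𝒢.Homog A) (hB : 𝒢.Homog B) (hfg : (B.map A.mkQ).FG) (hv : Vars1 gens l A B) :
    Good gens l A B :=
  ⟨hle, hl.stab hA, hl.stab hB, hl.pairwise, hfg, fun v hv' => by
    rcases hv v hv' with h | ⟨o, ho, c, h⟩
    · exact Or.inl h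
    · exact Or.inr ⟨o, ho, c, Or.inl h⟩⟩

theorem Vars1.sub {l : List (Op R 𝒢)} {A B C D : Submodule R V} (hAC : A ≤ C) (hDB : D ≤ B)
    (hv : Vars1 gens l A B) : Vars1 gens l C D := fun v hv' => by
  rcases hv v hv' with ⟨c, h⟩ | h
  · exact Or.inl ⟨c, fun b hb => hAC (h b (hDB hb))⟩
  · exact Or.inr h

theorem Vars1.cok {o : Op R 𝒢} {l : List (Op R 𝒢)} {A B : Submodule R V}
    (hv : Vars1 gens (o :: l) A B) : Vars1 gens l (A ⊔ B.map o.f) B := fun v hv' => by
  rcases hv v hv' with ⟨c, h⟩ | ⟨p, hp, c, h⟩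
  · exact Or.inl ⟨c, fun b hb => Submodule.mem_sup_left (h b hb)⟩
  · rcases List.mem_cons.1 hp with rfl | hp
    · exact Or.inl ⟨c, fun b hb => Submodule.mem_sup_right ⟨b, hb, h b⟩⟩
    · exact Or.inr ⟨p, hp, c, h⟩

theorem Vars1.ker {o : Op R 𝒢} {l : List (Op R 𝒢)} {A B : Submodule R V}
    (hv : Vars1 gens (o :: l) A B) : Vars1 gens l A (B ⊓ A.comap o.f) := fun v hv' => by
  rcases hv v hv' with ⟨c, h⟩ | ⟨p, hp, c, h⟩
  · exact Or.inl ⟨c, fun b hb => h b hb.1⟩
  · rcases List.mem_cons.1 hp with rfl | hp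
    · exact Or.inl ⟨c, fun b hb => by rw [← h]; exact hb.2⟩
    · exact Or.inr ⟨p, hp, c, h⟩

/-- `o'` differs from `o` by a scalar, and both have degree zero. -/
def Shift (o o' : Op R 𝒢) : Prop :=
  o = o' ∨ (o.d = 0 ∧ o'.d = 0 ∧ ∃ r : R, ∃ c : k,
    (∀ x, o.f x = r • x) ∧ ∀ x, o'.f x = r • x - c • x)

theorem Shift.isMul {o o' : Op R 𝒢} (h : Shift o o') (ho : ∃ r : R, ∀ x, o.f x = r • x) :
    ∃ r : R, ∀ x, o'.f x = r • x := by
  rcases h with rfl | ⟨-, -, r, c, -, h⟩
  · exact ho
  · exact ⟨r - algebraMap k R c, fun x => by rw [h, sub_smul, algebraMap_smul]⟩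

theorem Vars1.shift {l l' : List (Op R 𝒢)} (hs : List.Forall₂ Shift l l')
    {A B : Submodule R V} (hv : Vars1 gens l A B) : Vars1 gens l' A B := fun v hv' => by
  rcases hv v hv' with h | ⟨o, ho, c, h⟩
  · exact Or.inl h
  · right
    clear hv
    induction hs with
    | nil => simp at ho
    | @cons a a' l l' hab _ ih =>
        rcases List.mem_cons.1 ho with rfl | ho
        · rcases hab with rfl | ⟨-, -, r, d, h1, h2⟩
          · exact ⟨o, List.mem_cons_self, c, h⟩
          · refine ⟨a', List.mem_cons_self, c + d, fun x => ?_⟩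
            rw [h2, ← h1, h, add_smul]; abel
        · obtain ⟨p, hp, hp'⟩ := ih ho
          exact ⟨p, List.mem_cons_of_mem _ hp, hp'⟩

variable (hgen : Algebra.adjoin k gens = ⊤)
variable (hχ : ∀ a b, χ (a + b) = χ a * χ b)
variable (hχ0 : χ 0 = 1)

include hgen in
theorem poly_mod {r0 : R} {A B : Submodule R V}
    (hv : ∀ v ∈ gens, ∃ p : k[X], ∀ x ∈ B, v • x - aeval r0 p • x ∈ A) (r : R) :
    ∃ p : k[X], ∀ x ∈ B, r • x - aeval r0 p • x ∈ A := by
  have hr : r ∈ Algebra.adjoin k gens := hgen ▸ trivial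
  induction hr using Algebra.adjoin_induction with
  | mem x hx => exact hv x hx
  | algebraMap c => exact ⟨C c, fun b _ => by simp⟩
  | add x y _ _ hx hy =>
      obtain ⟨p, hp⟩ := hx; obtain ⟨q, hq⟩ := hy
      refine ⟨p + q, fun b hb => ?_⟩
      have := A.add_mem (hp b hb) (hq b hb)
      convert! this using 1
      rw [map_add, add_smul, add_smul]; abel
  | mul x y _ _ hx hy =>
      obtain ⟨p, hp⟩ := hx; obtain ⟨q, hq⟩ := hy
      refine ⟨p * q, fun b hb => ?_⟩
      have := A.add_mem (A.smul_mem x (hq b hb)) (A.smul_mem (aeval r0 q) (hp b hb))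
      convert! this using 1
      rw [map_mul, smul_sub, smul_sub, smul_comm x (aeval r0 q) b, mul_smul, mul_smul,
        smul_comm (aeval r0 p) (aeval r0 q) b]
      abel

include hχ hχ0 in
theorem psi_finite_deg_zero {o : Op R 𝒢} (hd : o.d = 0) {A B : Submodule R V}
    (h : Good gens [o] A B) (hfin : FinQuot k A B) : psi χ [o] A B = 0 := by
  have hoB : ∀ b ∈ B, o.f b ∈ B := h.sB.stab o List.mem_cons_self
  set A1 := A ⊔ B.map o.f with hA1
  set K := B ⊓ A.comap o.f with hK
  have hA1h : 𝒢.Homog A1 := h.sA.hom.sup (o.map_homog h.sB.hom)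
  have hKh : 𝒢.Homog K := h.sB.hom.inf (o.comap_homog h.sA.hom)
  have hA1B : A1 ≤ B := sup_le h.le (by rintro _ ⟨b, hb, rfl⟩; exact hoB b hb)
  have hAK : A ≤ K := le_inf h.le fun a ha => h.sA.stab o List.mem_cons_self a ha
  have e1 := qdP_add (χ := χ) h.sA.hom hA1h le_sup_left hA1B hfin
  have e2 := qdP_add (χ := χ) h.sA.hom hKh hAK inf_le_left hfin
  have e3 : qdP 𝒢 χ A A1 = χ o.d * qdP 𝒢 χ K B := by
    refine qdP_translate hχ o h.sA.hom h.sB.hom inf_le_left (sup_comm _ _) rfl ?_
    exact (hfin.quot hAK).qdP_support hKh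
  rw [hd, hχ0, one_mul] at e3
  simp only [psi_cons, psi_nil, hd, hχ0, one_mul]
  linear_combination e2 - e1 - e3

include hgen hχ0 in
theorem psi_free_deg_zero {r0 : R} {e : k} {o : Op R 𝒢} (hd : o.d = 0)
    (ho : ∀ x, o.f x = r0 • x - e • x) {A : Submodule R V} (hA : 𝒢.Homog A) {b : V} {g : G}
    (hbg : 𝒢.pr g b = b) (hb : 𝒢.Homog (Submodule.span R {b}))
    (hsmul : ∀ r : R, ∃ p : k[X], r • b - aeval r0 p • b ∈ A)
    (hfree : ∀ p : k[X], aeval r0 p • b ∈ A → p = 0) :
    psi χ [o] A (A ⊔ Submodule.span R {b}) = χ g := by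
  set B := A ⊔ Submodule.span R {b} with hB
  have hof : ∀ x, o.f x = aeval r0 (X - C e) • x := fun x => by
    rw [ho, map_sub, aeval_X, aeval_C, sub_smul, algebraMap_smul]
  have hmem : ∀ x ∈ B, ∃ p : k[X], x - aeval r0 p • b ∈ A := by
    intro x hx
    obtain ⟨a, ha, y, hy, rfl⟩ := Submodule.mem_sup.1 hx
    obtain ⟨r, rfl⟩ := Submodule.mem_span_singleton.1 hy
    obtain ⟨p, hp⟩ := hsmul r
    exact ⟨p, by rw [add_sub_assoc]; exact A.add_mem ha hp⟩
  have hbB : b ∈ B := Submodule.mem_sup_right (Submodule.mem_span_singleton_self b)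
  have hker : B ⊓ A.comap o.f = A := by
    apply le_antisymm
    · rintro x ⟨hx, hx'⟩
      obtain ⟨p, hp⟩ := hmem x hx
      have h0 : aeval r0 (X - C e) • (x - aeval r0 p • b) ∈ A := A.smul_mem _ hp
      have hx'' : aeval r0 (X - C e) • x ∈ A := by rw [← hof]; exact hx'
      have h1 : aeval r0 ((X - C e) * p) • b ∈ A := by
        rw [map_mul, mul_smul]
        simpa [smul_sub] using A.sub_mem hx'' h0
      have hp0 : p = 0 := by
        rcases mul_eq_zero.1 (hfree _ h1) with h | h
        · exact absurd h (X_sub_C_ne_zero e)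
        · exact h
      simpa [hp0] using hp
    · exact le_inf le_sup_left fun a ha => by
        show o.f a ∈ A
        rw [hof]; exact A.smul_mem _ ha
  have hcok : b ∉ A ⊔ B.map o.f := by
    intro hmem'
    obtain ⟨a, ha, _, ⟨y, hy, rfl⟩, e'⟩ := Submodule.mem_sup.1 hmem'
    obtain ⟨p, hp⟩ := hmem y hy
    have h0 : aeval r0 (X - C e) • (y - aeval r0 p • b) ∈ A := A.smul_mem _ hp
    have h1 : aeval r0 ((X - C e) * p - 1) • b ∈ A := by
      have := A.neg_mem (A.add_mem ha h0)
      convert! this using 1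
      rw [map_sub, map_one, map_mul, sub_smul, one_smul, mul_smul, smul_sub, ← hof y]
      nth_rewrite 2 [← e']
      abel
    have h2 := congrArg (Polynomial.eval e) (hfree _ h1)
    simp at h2
  have hcok' : A ⊔ B.map o.f ⊔ Submodule.span R {b} = B := by
    refine le_antisymm (sup_le (sup_le le_sup_left ?_) le_sup_right)
      (sup_le_sup_right le_sup_left _)
    rintro _ ⟨y, hy, rfl⟩
    rw [hof]; exact B.smul_mem _ hy
  rw [psi_cons, psi_nil, psi_nil, hker, qdP_self, mul_zero, sub_zero]
  nth_rewrite 2 [← hcok']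
  refine qdP_single (hA.sup (o.map_homog (hA.sup hb))) hbg hcok fun r => ?_
  obtain ⟨p, hp⟩ := hsmul r
  refine ⟨p.eval e, ?_⟩
  obtain ⟨q, hq⟩ := X_sub_C_dvd_sub_C_eval (a := e) (p := p)
  have : aeval r0 p • b - p.eval e • b ∈ B.map o.f := by
    refine ⟨aeval r0 q • b, B.smul_mem _ hbB, ?_⟩
    rw [hof, ← mul_smul, ← map_mul, ← hq, map_sub, aeval_C, sub_smul, algebraMap_smul]
  rw [← sub_add_sub_cancel _ (aeval r0 p • b)]
  exact Submodule.add_mem_sup hp this

include hgen hχ hχ0 in
/-- A single degree zero operator may be translated by a scalar. -/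
theorem psi_shift_single (hcomp : Compatible R 𝒢) {o o' : Op R 𝒢} {r : R} {c : k}
    (hd : o.d = 0) (hd' : o'.d = 0) (ho : ∀ x, o.f x = r • x)
    (ho' : ∀ x, o'.f x = r • x - c • x) {A B : Submodule R V}
    (h : Good gens [o] A B) (hv : Vars1 gens [o] A B) :
    psi χ [o] A B = psi χ [o'] A B := by
  have hl1 : IsMul [o] := fun p hp => ⟨r, by rw [List.mem_singleton.1 hp]; exact ho⟩
  have hl2 : IsMul [o'] := fun p hp => ⟨r - algebraMap k R c, fun x => by
    rw [List.mem_singleton.1 hp, ho', sub_smul, algebraMap_smul]⟩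
  have hs : List.Forall₂ Shift [o] [o'] :=
    .cons (Or.inr ⟨hd, hd', r, c, ho, ho'⟩) .nil
  have hg' : ∀ {A' B' : Submodule R V}, A ≤ A' → B' ≤ B → Good gens [o] A' B' →
      Good gens [o'] A' B' := fun hA' hB' hg =>
    Vars1.good hl2 hg.le hg.sA.hom hg.sB.hom hg.fg ((hv.sub hA' hB').shift hs)
  rw [← sub_eq_zero]
  refine mul_induct hgen hχ hχ0 hcomp hl1 (fun A B => psi χ [o] A B - psi χ [o'] A B)
    (A₀ := A) (B₀ := B) ?_ ?_ le_rfl le_rfl h
  · intro A' B' C' hA' hC' hg sB hAB hBC
    show _ - _ = _ - _ + (_ - _)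
    rw [psi_add hgen hχ hχ0 hg sB hAB hBC,
      psi_add hgen hχ hχ0 (hg' hA' hC' hg) (hl2.stab sB.hom) hAB hBC]
    ring
  · intro A' b g hA' hB' hg hbg
    show _ - _ = (0 : P)
    set B' := A' ⊔ Submodule.span R {b} with hB''
    have hbB : b ∈ B' := Submodule.mem_sup_right (Submodule.mem_span_singleton_self b)
    have hsmul : ∀ s : R, ∃ p : k[X], ∀ x ∈ B', s • x - aeval r p • x ∈ A' := by
      refine poly_mod hgen fun v hv' => ?_
      rcases (hv.sub hA' hB') v hv' with ⟨d, hd⟩ | ⟨q, hq, d, hq'⟩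
      · exact ⟨C d, fun x hx => by simpa using hd x hx⟩
      · refine ⟨X + C d, fun x _ => ?_⟩
        have h1 := hq' x
        rw [List.mem_singleton.1 hq, ho] at h1
        rw [map_add, aeval_X, aeval_C, add_smul, algebraMap_smul, h1, sub_add_cancel, sub_self]
        exact A'.zero_mem
    have hb : 𝒢.Homog (Submodule.span R {b}) :=
      homog_span_singleton hbg fun s h' => hcomp s g h' b hbg
    by_cases hfree : ∀ p : k[X], aeval r p • b ∈ A' → p = 0
    · rw [psi_free_deg_zero hgen hχ0 (e := 0) hd (fun x => by simp [ho]) hg.sA.hom hbg hb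
          (fun s => (hsmul s).imp fun p hp => hp b hbB) hfree,
        psi_free_deg_zero hgen hχ0 hd' ho' hg.sA.hom hbg hb
          (fun s => (hsmul s).imp fun p hp => hp b hbB) hfree, sub_self]
    · push Not at hfree
      obtain ⟨p, hp, hp0⟩ := hfree
      set p' := p * C p.leadingCoeff⁻¹ with hp'
      have hpm : p'.Monic := monic_mul_leadingCoeff_inv hp0
      have hp'b : aeval r p' • b ∈ A' := by
        rw [hp', map_mul, mul_comm, mul_smul]
        exact A'.smul_mem _ hp
      have hfin : FinQuot k A' B' := by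
        suffices (B'.restrictScalars k).map (A'.restrictScalars k).mkQ =
            Submodule.span k (Set.range fun i : Fin p'.natDegree =>
              (A'.restrictScalars k).mkQ (r ^ (i : ℕ) • b)) by
          rw [FinQuot, this]; exact Submodule.fg_span (Set.finite_range _)
        apply le_antisymm
        · rintro _ ⟨x, hx, rfl⟩
          obtain ⟨a, ha, y, hy, rfl⟩ := Submodule.mem_sup.1 hx
          obtain ⟨s, rfl⟩ := Submodule.mem_span_singleton.1 hy
          obtain ⟨q, hq⟩ := hsmul s
          have e : (A'.restrictScalars k).mkQ (a + s • b) =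
              (A'.restrictScalars k).mkQ (aeval r (q %ₘ p') • b) := by
            refine (Submodule.Quotient.eq _).2 ?_
            show a + s • b - aeval r (q %ₘ p') • b ∈ A'
            have h1 := hq b hbB
            have h2 : aeval r (q /ₘ p') • (aeval r p' • b) ∈ A' := A'.smul_mem _ hp'b
            have h3 := A'.add_mem (A'.add_mem ha h1) h2
            have h4 : aeval r q • b =
                aeval r (q %ₘ p') • b + aeval r (q /ₘ p') • (aeval r p' • b) := by
              rw [← mul_smul, ← map_mul, mul_comm, ← add_smul, ← map_add, modByMonic_add_div]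
            convert! h3 using 1
            rw [h4]; abel
          rw [e, aeval_eq_sum_range, Finset.sum_smul, map_sum]
          refine Submodule.sum_mem _ fun i hi => ?_
          rw [smul_assoc, map_smul]
          refine Submodule.smul_mem _ _ ?_
          by_cases hi' : i < p'.natDegree
          · exact Submodule.subset_span ⟨⟨i, hi'⟩, rfl⟩
          · have h1 : p'.natDegree = 0 := by
              by_contra h1
              have := natDegree_modByMonic_lt q hpm (fun h2 => h1 (by rw [h2, natDegree_one]))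
              have := Finset.mem_range.1 hi
              omega
            have h2 : p' = 1 := hpm.natDegree_eq_zero.1 h1
            rw [h2, map_one, one_smul] at hp'b
            rw [Submodule.mkQ_apply, (Submodule.Quotient.mk_eq_zero _).2
              (show r ^ i • b ∈ A'.restrictScalars k from A'.smul_mem _ hp'b)]
            exact zero_mem _
        · rw [Submodule.span_le]
          rintro _ ⟨i, rfl⟩
          exact ⟨_, B'.smul_mem _ hbB, rfl⟩
      rw [psi_finite_deg_zero hχ hχ0 hd hg hfin,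
        psi_finite_deg_zero hχ hχ0 hd' (hg' hA' hB' hg) hfin, sub_zero]

include hgen hχ hχ0 in
/-- The head operator may be translated. -/
theorem psi_move (hcomp : Compatible R 𝒢) {l : List (Op R 𝒢)} :
    ∀ {o o' : Op R 𝒢} {A B : Submodule R V}, Shift o o' → IsMul (o :: l) →
    Good gens (o :: l) A B → Vars1 gens (o :: l) A B →
    psi χ (o :: l) A B = psi χ (o' :: l) A B := by
  induction l with
  | nil =>
      intro o o' A B hs hl h hv
      rcases hs with rfl | ⟨hd, hd', r, c, ho, ho'⟩
      · rfl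
      · exact psi_shift_single hgen hχ hχ0 hcomp hd hd' ho ho' h hv
  | cons p l ih =>
      intro o o' A B hs hl h hv
      have hs2 : List.Forall₂ Shift (o :: p :: l) (o' :: p :: l) :=
        .cons hs (List.forall₂_same.2 fun q _ => Or.inl rfl)
      have hl' : IsMul (o' :: p :: l) := by
        intro q hq
        rcases List.mem_cons.1 hq with rfl | hq
        · exact hs.isMul (hl o List.mem_cons_self)
        · exact hl q (List.mem_cons_of_mem _ hq)
      have h' : Good gens (o' :: p :: l) A B :=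
        Vars1.good hl' h.le h.sA.hom h.sB.hom h.fg (hv.shift hs2)
      have hlp : IsMul (p :: o :: l) := fun q hq => hl q (by
        simp only [List.mem_cons] at hq ⊢; tauto)
      have hvp : Vars1 gens (p :: o :: l) A B := fun v hv' => (hv v hv').imp_right
        fun ⟨q, hq, hq'⟩ => ⟨q, by simp only [List.mem_cons] at hq ⊢; tauto, hq'⟩
      have hgp : Good gens (p :: o :: l) A B :=
        Vars1.good hlp h.le h.sA.hom h.sB.hom h.fg hvp
      rw [psi_swap hgen hχ hχ0 h, psi_swap hgen hχ hχ0 h', psi_cons, psi_cons χ p (o' :: l),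
        ih hs hlp.tail hgp.cok hvp.cok, ih hs hlp.tail hgp.ker hvp.ker]

include hgen hχ hχ0 in
/-- Degree zero operators may be translated. -/
theorem psi_shift (hcomp : Compatible R 𝒢) {l l' : List (Op R 𝒢)}
    (hs : List.Forall₂ Shift l l') :
    ∀ {A B : Submodule R V}, IsMul l → Good gens l A B → Vars1 gens l A B →
    psi χ l A B = psi χ l' A B := by
  induction hs with
  | nil => intros; rfl
  | @cons o o' l l' hoo hs ih =>
      intro A B hl h hv
      have hs1 : List.Forall₂ Shift (o :: l) (o' :: l) :=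
        .cons hoo (List.forall₂_same.2 fun q _ => Or.inl rfl)
      have hl1 : IsMul (o' :: l) := by
        intro q hq
        rcases List.mem_cons.1 hq with rfl | hq
        · exact hoo.isMul (hl o List.mem_cons_self)
        · exact hl q (List.mem_cons_of_mem _ hq)
      have hv1 := hv.shift hs1
      have h1 : Good gens (o' :: l) A B := Vars1.good hl1 h.le h.sA.hom h.sB.hom h.fg hv1
      rw [psi_move hgen hχ hχ0 hcomp hoo hl h hv, psi_cons, psi_cons χ o' l',
        ih hl1.tail h1.cok hv1.cok, ih hl1.tail h1.ker hv1.ker]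

/-- `𝒢c` is a coarsening of `𝒢` along `φ`. -/
def Coarse (φ : G → G) (𝒢 𝒢c : Grd G k V) : Prop :=
  ∀ g v, 𝒢.pr g v = v → 𝒢c.pr (φ g) v = v

theorem Coarse.homog {φ : G → G} {𝒢c : Grd G k V} (hc : Coarse φ 𝒢 𝒢c) {A : Submodule R V}
    (hA : 𝒢.Homog A) : 𝒢c.Homog A := by
  intro a ha h
  rw [← 𝒢.sum_pr a, map_sum]
  refine A.sum_mem fun g _ => ?_
  by_cases he : h = φ g
  · rw [he, hc g _ (𝒢.pr_idem g a)]; exact hA a ha g
  · rw [← hc g _ (𝒢.pr_idem g a), 𝒢c.pr_ne h (φ g) _ he]; exact A.zero_mem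

/-- The same operator in both gradings. -/
def SameOp (φ : G → G) {𝒢c : Grd G k V} (o : Op R 𝒢) (o' : Op R 𝒢c) : Prop :=
  o.f = o'.f ∧ o'.d = φ o.d

include hgen hχ hχ0 in
/-- Euler characteristics are compatible with coarsening the grading. -/
theorem psi_coarse (hcomp : Compatible R 𝒢) {φ : G → G} (hφ : ∀ a b, φ (a + b) = φ a + φ b)
    {𝒢c : Grd G k V} (hc : Coarse φ 𝒢 𝒢c) {l : List (Op R 𝒢)} {lc : List (Op R 𝒢c)}
    (hlc : List.Forall₂ (SameOp φ) l lc) :
    ∀ {A B : Submodule R V}, IsMul l → Good gens l A B →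
    psi χ lc A B = psi (fun g => χ (φ g)) l A B := by
  induction hlc with
  | nil =>
      intro A B hl h
      have hφ0 : φ 0 = 0 := by
        have := hφ 0 0; simp only [add_zero] at this; exact left_eq_add.1 this
      have hχφ : ∀ a b, χ (φ (a + b)) = χ (φ a) * χ (φ b) := fun a b => by rw [hφ, hχ]
      rw [← sub_eq_zero]
      refine mul_induct (χ := fun g => χ (φ g)) hgen hχφ (by rw [hφ0, hχ0]) hcomp hl
        (fun A B => qdP 𝒢c χ A B - qdP 𝒢 (fun g => χ (φ g)) A B)
        (A₀ := A) (B₀ := B) ?_ ?_ le_rfl le_rfl h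
      · intro A' B' C' _ _ hg sB hAB hBC
        show _ - _ = _ - _ + (_ - _)
        rw [qdP_add hg.sA.hom sB.hom hAB hBC (hg.finQuot hgen),
          qdP_add (hc.homog hg.sA.hom) (hc.homog sB.hom) hAB hBC (hg.finQuot hgen)]
        ring
      · intro A' b g _ _ hg hbg
        show _ - _ = (0 : P)
        by_cases hb : b ∈ A'
        · rw [sup_of_le_left ((Submodule.span_singleton_le_iff_mem _ _).2 hb), qdP_self, qdP_self,
            sub_zero]
        · have hspan : ∀ r : R, ∃ c : k, r • b - c • b ∈ A' := fun r => by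
            obtain ⟨c, hc⟩ := scalar_mod_of_vars hgen (fun v hv => by
              rcases hg.vars v hv with h' | ⟨o, ho, _⟩
              · exact h'
              · simp at ho) r
            exact ⟨c, hc b (Submodule.mem_sup_right (Submodule.mem_span_singleton_self b))⟩
          rw [qdP_single hg.sA.hom hbg hb hspan,
            qdP_single (hc.homog hg.sA.hom) (hc g b hbg) hb hspan, sub_self]
  | @cons o o' l lc hoo _ ih =>
      intro A B hl h
      obtain ⟨hf, hd⟩ := hoo
      rw [psi_cons, psi_cons, ← hf, hd, ih hl.tail h.cok, ih hl.tail h.ker]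

end Vale.Agent.P199
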