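import Vale.Agent.P199.Psi3

/-!
Replacing operators by square roots.
-/

set_option linter.unusedSectionVars false

namespace Vale.Agent.P199

open Submodule

variable {k R G P : Type*} [Field k] [CommRing R] [Algebra k R]
  [AddCommGroup G] [CommRing P] [IsNoetherianRing R]
  {V : Type*} [AddCommGroup V] [Module k V] [Module R V] [IsScalarTower k R V]

variable {gens : Set R} {χ : G → P} {𝒢 : Grd G k V}

/-- `u` is the square of `e`. -/
def SqOp (e u : Op R 𝒢) : Prop :=
  (∀ x, u.f x = e.f (e.f x)) ∧ u.d = e.d + e.d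

/-- Generators act through prefix operators or squares of the remaining ones. -/
def VarsSq (gens : Set R) (pre le : List (Op R 𝒢)) (A B : Submodule R V) : Prop :=
  ∀ v ∈ gens, (∃ c : k, ∀ b ∈ B, v • b - c • b ∈ A) ∨
    (∃ o ∈ pre, ∃ c : k, ∀ x, o.f x = v • x - c • x) ∨
    ∃ o ∈ le, ∃ c : k, ∀ x, o.f (o.f x) = v • x - c • x

theorem Stab.sq {l : List (Op R 𝒢)} {e : Op R 𝒢} (hc : ∀ p ∈ l, SemiComm p e)
    {B : Submodule R V} (hB : Stab l B) : Stab l (B.map e.f) := by
  refine ⟨e.map_homog hB.hom, fun p hp x hx => ?_⟩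
  obtain ⟨b, hb, rfl⟩ := hx
  obtain ⟨c, hc0, hc⟩ := hc p hp
  rw [hc]; exact smulk_mem c ⟨p.f b, hB.stab p hp b hb, rfl⟩

variable (hgen : Algebra.adjoin k gens = ⊤)
variable (hχ : ∀ a b, χ (a + b) = χ a * χ b)
variable (hχ0 : χ 0 = 1)

include hgen hχ hχ0 in
theorem psi_sq {le lu : List (Op R 𝒢)} (hs : List.Forall₂ SqOp le lu) :
    ∀ {A B : Submodule R V}, Good gens lu A B → Good gens le A B → VarsSq gens [] le A B →
    psi χ lu A B = (le.map fun e => 1 + χ e.d).prod * psi χ le A B := by
  induction hs with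
  | nil => intro A B _ _ _; simp
  | @cons e u re ru heu _ ih =>
      intro A B hu he hv
      obtain ⟨heu, hd⟩ := heu
      have hp := List.pairwise_cons.1 he.pw
      have hc : ∀ p ∈ re, SemiComm p e := fun p hp' => (hp.1 p hp').symm
      have hcu : ∀ p ∈ re, SemiComm p u := fun p hp' => by
        obtain ⟨c, hc0, hc'⟩ := hc p hp'
        exact ⟨c * c, mul_ne_zero hc0 hc0, fun v => by
          rw [heu, heu, hc', hc', LinearMap.map_smul_of_tower, mul_smul]⟩
      have hee : SemiComm e e := ⟨1, one_ne_zero, fun v => by rw [one_smul]⟩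
      have heA : ∀ a ∈ A, e.f a ∈ A := he.sA.stab e List.mem_cons_self
      have heB : ∀ b ∈ B, e.f b ∈ B := he.sB.stab e List.mem_cons_self
      set A2 := A ⊔ B.map u.f with hA2
      set K := B ⊓ A.comap e.f with hK
      set K2 := B ⊓ A.comap u.f with hK2
      set A1 := A ⊔ B.map e.f with hA1
      have hA2A1 : A2 ≤ A1 := sup_le_sup_left (by
        rintro _ ⟨b, hb, rfl⟩; exact ⟨e.f b, heB b hb, (heu b).symm⟩) _
      have hKK2 : K ≤ K2 := fun x hx => ⟨hx.1, by
        show u.f x ∈ A
        rw [heu]; exact heA _ hx.2⟩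
      have sA2 : Stab re A2 := Stab.cok u hcu he.sA.tail he.sB.tail
      have sK2 : Stab re K2 := Stab.ker u hcu he.sA.tail he.sB.tail
      have g2 : Good gens re A2 B := by
        refine ⟨hA2A1.trans he.cok.le, sA2, he.sB.tail, hp.2, ?_, fun v hv' => ?_⟩
        · have h2 := he.fg.map (Submodule.mapQ A A2 LinearMap.id le_sup_left)
          rw [← Submodule.map_comp] at h2
          exact h2
        · rcases hv v hv' with ⟨c, h⟩ | ⟨o, ho, _⟩ | ⟨o, ho, c, h⟩
          · exact Or.inl ⟨c, fun b hb => Submodule.mem_sup_left (h b hb)⟩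
          · simp at ho
          · rcases List.mem_cons.1 ho with rfl | ho
            · exact Or.inl ⟨c, fun b hb =>
                Submodule.mem_sup_right ⟨b, hb, by rw [heu, h]⟩⟩
            · exact Or.inr ⟨o, ho, c, Or.inr h⟩
      have k2 : Good gens re A K2 := by
        refine ⟨he.ker.le.trans hKK2, he.sA.tail, sK2, hp.2,
          Submodule.FG.of_le (haveI := isNoetherian_of_fg_of_noetherian _ he.fg; he.fg)
            (Submodule.map_mono inf_le_left), fun v hv' => ?_⟩
        rcases hv v hv' with ⟨c, h⟩ | ⟨o, ho, _⟩ | ⟨o, ho, c, h⟩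
        · exact Or.inl ⟨c, fun b hb => h b hb.1⟩
        · simp at ho
        · rcases List.mem_cons.1 ho with rfl | ho
          · exact Or.inl ⟨c, fun b hb => by rw [← h, ← heu]; exact hb.2⟩
          · exact Or.inr ⟨o, ho, c, Or.inr h⟩
      have v2 : VarsSq gens [] re A2 B := fun v hv' => by
        rcases hv v hv' with ⟨c, h⟩ | ⟨o, ho, _⟩ | ⟨o, ho, c, h⟩
        · exact Or.inl ⟨c, fun b hb => Submodule.mem_sup_left (h b hb)⟩
        · simp at ho
        · rcases List.mem_cons.1 ho with rfl | ho
          · exact Or.inl ⟨c, fun b hb =>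
              Submodule.mem_sup_right ⟨b, hb, by rw [heu, h]⟩⟩
          · exact Or.inr (Or.inr ⟨o, ho, c, h⟩)
      have w2 : VarsSq gens [] re A K2 := fun v hv' => by
        rcases hv v hv' with ⟨c, h⟩ | ⟨o, ho, _⟩ | ⟨o, ho, c, h⟩
        · exact Or.inl ⟨c, fun b hb => h b hb.1⟩
        · simp at ho
        · rcases List.mem_cons.1 ho with rfl | ho
          · exact Or.inl ⟨c, fun b hb => by rw [← h, ← heu]; exact hb.2⟩
          · exact Or.inr (Or.inr ⟨o, ho, c, h⟩)
      have sA1 : Stab re A1 := Stab.cok e hc he.sA.tail he.sB.tail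
      have sK : Stab re K := Stab.ker e hc he.sA.tail he.sB.tail
      set T := K ⊔ B.map e.f with hT
      have sT : Stab re T := sK.sup (Stab.sq hc he.sB.tail)
      have hTB : T ≤ B := sup_le inf_le_left (by rintro _ ⟨b, hb, rfl⟩; exact heB b hb)
      have hA1T : A1 ≤ T := sup_le_sup_right he.ker.le _
      set S := A ⊔ K2.map e.f with hS
      have sS : Stab re S := Stab.cok e hc he.sA.tail sK2
      have hSK : S = K ⊓ A1 := by
        apply le_antisymm
        · refine sup_le (le_inf he.ker.le le_sup_left) ?_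
          rintro _ ⟨x, hx, rfl⟩
          refine ⟨⟨heB x hx.1, ?_⟩, Submodule.mem_sup_right ⟨x, hx.1, rfl⟩⟩
          show e.f (e.f x) ∈ A
          rw [← heu]; exact hx.2
        · rintro x ⟨hxK, hxA⟩
          obtain ⟨a, ha, _, ⟨y, hy, rfl⟩, rfl⟩ := Submodule.mem_sup.1 hxA
          refine Submodule.add_mem_sup ha ⟨y, ⟨hy, ?_⟩, rfl⟩
          show u.f y ∈ A
          rw [heu]
          have : e.f (a + e.f y) ∈ A := hxK.2
          rw [map_add] at this
          exact (A.add_mem_iff_right (heA a ha)).1 this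
      have hSle : S ≤ K := hSK ▸ inf_le_left
      -- additivity
      have c1 := psi_add hgen hχ hχ0 g2 sA1 hA2A1 he.cok.le
      have c2 := psi_add hgen hχ hχ0 he.cok sT hA1T hTB
      have c3 := psi_add hgen hχ hχ0 k2 sK he.ker.le hKK2
      have c4 := psi_add hgen hχ hχ0 he.ker sS le_sup_left hSle
      have j : psi χ re A1 T = psi χ re S K := by
        refine psi_iso hgen hχ hχ0 (he.ker.sub le_sup_left hSle le_rfl sS sK) sA1 sT ?_ hSK.symm
        rw [hT, hA1, ← sup_assoc, sup_of_le_left he.ker.le]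
      have m1 : psi χ re A2 A1 = χ e.d * psi χ re T B := by
        refine psi_translate hgen hχ e (intertw_op e hp.1)
          (he.cok.sub hA1T hTB le_rfl sT he.sB.tail) sA2 sA1 hp.2 ?_ ?_
        · exact le_antisymm (sup_le le_sup_right hA2A1)
            (sup_le (le_sup_left.trans le_sup_right) le_sup_left)
        · apply le_antisymm
          · rintro x ⟨hx, hx'⟩
            obtain ⟨a, ha, _, ⟨y, hy, rfl⟩, e'⟩ := Submodule.mem_sup.1
              (show e.f x ∈ A ⊔ B.map u.f from hx')
            have hk : x - e.f y ∈ K := ⟨B.sub_mem hx (heB y hy), by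
              show e.f (x - e.f y) ∈ A
              rw [map_sub, ← heu, ← e', add_sub_cancel_right]; exact ha⟩
            rw [← sub_add_cancel x (e.f y)]
            exact Submodule.add_mem_sup hk ⟨y, hy, rfl⟩
          · refine le_inf hTB (sup_le ?_ ?_)
            · intro x hx; exact Submodule.mem_sup_left hx.2
            · rintro _ ⟨y, hy, rfl⟩
              exact Submodule.mem_sup_right ⟨y, hy, heu y⟩
      have m2 : psi χ re A S = χ e.d * psi χ re K K2 := by
        refine psi_translate hgen hχ e (intertw_op e hp.1)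
          (k2.sub he.ker.le hKK2 le_rfl sK sK2) he.sA.tail sS hp.2 (sup_comm _ _) ?_
        apply le_antisymm
        · exact fun x hx => ⟨hx.1.1, hx.2⟩
        · exact fun x hx => ⟨hKK2 hx, hx.2⟩
      rw [List.map_cons, List.prod_cons, psi_cons, psi_cons χ e re, hd, hχ,
        ih hu.cok g2 v2, ih hu.ker k2 w2]
      linear_combination (List.map (fun e => 1 + χ e.d) re).prod *
        (c1 - (χ e.d * χ e.d) * c3 + m1 + χ e.d * m2 - χ e.d * c2 + χ e.d * c4 - χ e.d * j)

include hgen hχ hχ0 in
theorem psi_sq_prefix {pre le lu : List (Op R 𝒢)} (hs : List.Forall₂ SqOp le lu) :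
    ∀ {A B : Submodule R V}, Good gens (pre ++ lu) A B → Good gens (pre ++ le) A B →
    VarsSq gens pre le A B →
    psi χ (pre ++ lu) A B = (le.map fun e => 1 + χ e.d).prod * psi χ (pre ++ le) A B := by
  induction pre with
  | nil => intro A B hu he hv; exact psi_sq hgen hχ hχ0 hs hu he hv
  | cons o pre ih =>
      intro A B hu he hv
      rw [List.cons_append, List.cons_append, psi_cons, psi_cons,
        ih hu.cok he.cok ?_, ih hu.ker he.ker ?_]
      · ring
      · intro v hv'
        rcases hv v hv' with ⟨c, h⟩ | ⟨p, hp, c, h⟩ | h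
        · exact Or.inl ⟨c, fun b hb => h b hb.1⟩
        · rcases List.mem_cons.1 hp with rfl | hp
          · exact Or.inl ⟨c, fun b hb => by rw [← h]; exact hb.2⟩
          · exact Or.inr (Or.inl ⟨p, hp, c, h⟩)
        · exact Or.inr (Or.inr h)
      · intro v hv'
        rcases hv v hv' with ⟨c, h⟩ | ⟨p, hp, c, h⟩ | h
        · exact Or.inl ⟨c, fun b hb => Submodule.mem_sup_left (h b hb)⟩
        · rcases List.mem_cons.1 hp with rfl | hp
          · exact Or.inl ⟨c, fun b hb => Submodule.mem_sup_right ⟨b, hb, h b⟩⟩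
          · exact Or.inr (Or.inl ⟨p, hp, c, h⟩)
        · exact Or.inr (Or.inr h)

end Vale.Agent.P199
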