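import Vale.Agent.P199.Quat

/-!
A representation of the quaternion tensor algebra by monomial matrices.
-/

set_option linter.unusedSectionVars false

noncomputable section

namespace Vale.Agent.P199

open Matrix

/-- Row and column indices. -/
abbrev Rw (m : ℕ) := Fin m → ZMod 2

variable {m : ℕ} {F Ω : Type} [Field F] [Field Ω] [Algebra F Ω] {u : Fin m → Bool → F}
  (r : Fin m → Bool → Ω)

/-- The entries at one level. -/
def cf1 (a b : Ω) (x : Lv) (i : ZMod 2) : Ω :=
  (if x.1 = 1 then (if i = 1 then -a else a) else 1) * (if x.2 = 1 then b else 1)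

theorem cf1_mul (a b : Ω) (x y : Lv) (i : ZMod 2) :
    cf1 a b x i * cf1 a b y (i + x.2) = kap1 (a * a) (b * b) x y * cf1 a b (x + y) i := by
  rcases lv_cases x with rfl | rfl | rfl | rfl <;> rcases lv_cases y with rfl | rfl | rfl | rfl <;>
    rcases zmod2_cases i with rfl | rfl <;>
    simp [cf1, kap1, show (1 : ZMod 2) + 1 = 0 by decide] <;> ring

theorem cf1_sum (a b : Ω) {x : Lv} (hx : x.2 = 0) :
    ∑ i : ZMod 2, cf1 a b x i = if x = 0 then 2 else 0 := by
  rw [show (Finset.univ : Finset (ZMod 2)) = {0, 1} by decide, Finset.sum_pair (by decide)]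
  rcases lv_cases x with rfl | rfl | rfl | rfl <;> simp [cf1] at hx ⊢ <;> norm_num

/-- The nonzero entry in a row. -/
def cf (I : Ix m) (i : Rw m) : Ω := ∏ l, cf1 (r l false) (r l true) (I l) (i l)

/-- The monomial matrix. -/
def mon (I : Ix m) : Matrix (Rw m) (Rw m) Ω := fun i k =>
  if k = i + fun l => (I l).2 then cf r I i else 0

theorem cf_mul (hr : ∀ l s, r l s * r l s = algebraMap F Ω (u l s)) (I J : Ix m) (i : Rw m) :
    cf r I i * cf r J (i + fun l => (I l).2) =
      algebraMap F Ω (kap u I J) * cf r (I + J) i := by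
  rw [kap_map, kap, cf, cf, cf, ← Finset.prod_mul_distrib, ← Finset.prod_mul_distrib]
  refine Finset.prod_congr rfl fun l _ => ?_
  rw [← hr, ← hr]
  exact cf1_mul _ _ _ _ _

theorem mon_mul (hr : ∀ l s, r l s * r l s = algebraMap F Ω (u l s)) (I J : Ix m) :
    mon r I * mon r J = algebraMap F Ω (kap u I J) • mon r (I + J) := by
  ext i k
  rw [Matrix.mul_apply, Finset.sum_eq_single (i + fun l => (I l).2)]
  · have e : (i + fun l => (I l).2) + (fun l => (J l).2) = i + fun l => ((I + J) l).2 := by
      funext l; simp [add_assoc]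
    simp only [mon, Matrix.smul_apply, smul_eq_mul, if_pos, e]
    by_cases h : k = i + fun l => ((I + J) l).2
    · rw [if_pos h, if_pos h, cf_mul r hr]
    · rw [if_neg h, if_neg h, mul_zero, mul_zero]
  · intro j _ hj; simp [mon, hj]
  · simp

theorem mon_zero : mon r (0 : Ix m) = 1 := by
  ext i k
  by_cases h : k = i
  · subst h
    simp [mon, cf, cf1, Pi.zero_def]
  · rw [Matrix.one_apply_ne (Ne.symm h), mon, if_neg]
    exact fun e => h (funext fun l => by simpa using congrFun e l)

theorem trace_mon (I : Ix m) : (mon r I).trace = if I = 0 then (2 : Ω) ^ m else 0 := by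
  classical
  simp only [Matrix.trace, Matrix.diag_apply, mon]
  by_cases h2 : ∀ l, (I l).2 = 0
  · have h0 : (fun l => (I l).2) = (0 : Rw m) := funext h2
    simp only [h0, add_zero, if_true, cf]
    rw [← Fintype.prod_sum (fun l x => cf1 (r l false) (r l true) (I l) x)]
    simp only [cf1_sum _ _ (h2 _)]
    by_cases h : I = 0
    · subst h; simp
    · rw [if_neg h]
      obtain ⟨l, hl⟩ := Function.ne_iff.1 h
      exact Finset.prod_eq_zero (Finset.mem_univ l) (if_neg hl)
  · push Not at h2
    obtain ⟨l, hl⟩ := h2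
    have hI : I ≠ 0 := fun e => hl (by simp [e])
    rw [if_neg hI]
    refine Finset.sum_eq_zero fun i _ => if_neg fun e => hl ?_
    simpa using congrFun e l

/-- The linear map to matrices. -/
def rhoL : Quat u →ₗ[F] Matrix (Rw m) (Rw m) Ω where
  toFun a := ∑ I, a.coe I • mon r I
  map_add' a b := by simp [add_smul, Finset.sum_add_distrib]
  map_smul' c a := by simp [Finset.smul_sum, smul_smul]

theorem rhoL_e (I : Ix m) : rhoL r (Quat.e u I) = mon r I := by
  show ∑ J, (Pi.single I 1 : Ix m → F) J • mon r J = _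
  rw [Finset.sum_eq_single I] <;> simp +contextual

/-- The representation. -/
def rho (hr : ∀ l s, r l s * r l s = algebraMap F Ω (u l s)) :
    Quat u →ₐ[F] Matrix (Rw m) (Rw m) Ω :=
  AlgHom.ofLinearMap (rhoL r) (by rw [← Quat.e_zero, rhoL_e, mon_zero]) fun a b => by
    conv_lhs => rw [← Quat.sum_e a, ← Quat.sum_e b]
    simp only [Finset.sum_mul, Finset.mul_sum, smul_mul_smul_comm, Quat.e_mul_e, smul_smul,
      map_sum, map_smul, rhoL_e]
    show _ = (∑ I, a.coe I • mon r I) * ∑ J, b.coe J • mon r J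
    simp only [Finset.sum_mul, Finset.mul_sum, smul_mul_smul_comm]
    refine Finset.sum_congr rfl fun I _ => Finset.sum_congr rfl fun J _ => ?_
    rw [mon_mul r hr, algebraMap_smul, smul_smul]

theorem rho_apply (hr : ∀ l s, r l s * r l s = algebraMap F Ω (u l s)) (a : Quat u) :
    rho r hr a = ∑ I, a.coe I • mon r I := rfl

theorem trace_rho (hr : ∀ l s, r l s * r l s = algebraMap F Ω (u l s)) (a : Quat u) :
    (rho r hr a).trace = (2 : Ω) ^ m * algebraMap F Ω (Quat.tau a) := by
  rw [rho_apply, Matrix.trace_sum, Finset.sum_eq_single (0 : Ix m)]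
  · rw [Matrix.trace_smul, trace_mon, if_pos rfl, Algebra.smul_def, mul_comm]
    rfl
  · intro I _ hI
    rw [Matrix.trace_smul, trace_mon, if_neg hI, smul_zero]
  · simp

theorem trace_rho_mul_mon (hr : ∀ l s, r l s * r l s = algebraMap F Ω (u l s)) (a : Quat u)
    (I : Ix m) :
    (rho r hr a * mon r I).trace =
      (2 : Ω) ^ m * algebraMap F Ω (a.coe I) * algebraMap F Ω (kap u I I) := by
  rw [← rhoL_e (u := u) r I, show rhoL r (Quat.e u I) = rho r hr (Quat.e u I) from rfl, ← map_mul,
    trace_rho, mul_assoc, ← map_mul]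
  congr 2
  rw [Quat.tau_apply, Quat.mul_coe, Finset.sum_eq_single I]
  · simp [Quat.e, mul_comm]
  · intro J _ hJ
    simp [Quat.e, Pi.single_eq_of_ne hJ]
  · simp

end Vale.Agent.P199
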