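import Vale.Agent.P199.Exists

/-!
The division algebra at one stage.
-/

set_option linter.unusedSectionVars false

noncomputable section

namespace Vale.Agent.P199

open MvPolynomial

variable {m n : ℕ}

/-- The parameters over the fraction field. -/
def uFrac (q : Ideal (RR m n)) [q.IsPrime] : Fin m → Bool → FractionRing (RR m n ⧸ q) :=
  fun l s => toFrac q (uVar m n l s)

/-- The generic elements over the fraction field. -/
def xFrac (q : Ideal (RR m n)) [q.IsPrime] (b : Bool) : Quat (uFrac q) :=
  Quat.map (toFrac q) (uVar m n) (gen (Sum.inl b) : EE m n)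

theorem exists_scaled (q : Ideal (RR m n)) [q.IsPrime] (z : Quat (uFrac q)) :
    ∃ (d : RR m n) (z' : EE m n), toFrac q d ≠ 0 ∧
      toFrac q d • z = Quat.map (toFrac q) (uVar m n) z' := by
  obtain ⟨⟨d, hd⟩, hint⟩ := IsLocalization.exist_integer_multiples_of_finite
    (nonZeroDivisors (RR m n ⧸ q)) z.coe
  choose ci hci using hint
  obtain ⟨D, rfl⟩ := Ideal.Quotient.mk_surjective d
  choose Ci hCi using fun i => Ideal.Quotient.mk_surjective (ci i)
  refine ⟨D, ⟨Ci⟩, fun h => (nonZeroDivisors.ne_zero hd)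
    (Ideal.Quotient.eq_zero_iff_mem.2 ((toFrac_eq_zero q D).1 h)), ?_⟩
  ext I
  show toFrac q D * z.coe I =
    algebraMap _ (FractionRing (RR m n ⧸ q)) (Ideal.Quotient.mk q (Ci I))
  rw [hCi, hci, Algebra.smul_def]
  rfl

theorem frac_no_zero_divisors {q : Ideal (RR m n)} [hqp : q.IsPrime]
    (hq : (grd0 (wt m n)).Homog q)
    (hlead : red2 (m + m) (lead (wt m n) (varList m n) q) ≠ 0) {a b : Quat (uFrac q)}
    (h : a * b = 0) : a = 0 ∨ b = 0 := by
  obtain ⟨d, a', hd, ha⟩ := exists_scaled q a
  obtain ⟨d', b', hd', hb⟩ := exists_scaled q b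
  have h0 : Quat.map (toFrac q) (uVar m n) (a' * b') = 0 := by
    rw [map_mul]
    show (_ : Quat (uFrac q)) * _ = 0
    rw [← ha, ← hb, smul_mul_smul_comm, h, smul_zero]
  have hmem : (a' * b').coe ∈ vecIdeal q := fun K => by
    rw [← toFrac_eq_zero q]
    exact congrFun (congrArg Quat.coe h0) K
  have key : ∀ {c : RR m n} {z : Quat (uFrac q)} {z' : EE m n}, toFrac q c ≠ 0 →
      toFrac q c • z = Quat.map (toFrac q) (uVar m n) z' → z'.coe ∈ vecIdeal q → z = 0 := by
    intro c z z' hc hz hz'
    ext K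
    have h1 : toFrac q c * z.coe K = toFrac q (z'.coe K) := congrFun (congrArg Quat.coe hz) K
    rw [(toFrac_eq_zero q _).2 (hz' K)] at h1
    exact (mul_eq_zero.1 h1).resolve_left hc
  rcases no_zero_divisors hqp hq hlead hmem with h1 | h1
  · exact Or.inl (key hd ha h1)
  · exact Or.inr (key hd' hb h1)

theorem toFrac_mem_adjoin {q : Ideal (RR m n)} [q.IsPrime] [CharZero (FractionRing (RR m n ⧸ q))]
    (fexp : Fin n → Expr)
    (hgraph : ∀ (i : Fin n) (I : Ix m), I ≠ 0 → (gen (Sum.inr i) : EE m n).coe I -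
      ((fexp i).eval fun b => (gen (Sum.inl b) : EE m n)).coe I ∈ q) (p : RR m n) :
    toFrac q p ∈ Subfield.closure
      (Set.range (fun p : Fin m × Bool => uFrac q p.1 p.2) ∪
        Set.range (fun p : Bool × Ix m => (xFrac q p.1).coe p.2)) := by
  set K := Subfield.closure
    (Set.range (fun p : Fin m × Bool => uFrac q p.1 p.2) ∪
      Set.range (fun p : Bool × Ix m => (xFrac q p.1).coe p.2)) with hK
  induction p using MvPolynomial.induction_on with
  | C c =>
      rw [show toFrac q (C c) = ((toFrac q).comp C) c from rfl,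
        RingHom.ext_rat ((toFrac q).comp C) (Rat.castHom _)]
      exact SubfieldClass.ratCast_mem K c
  | add a b ha hb => rw [map_add]; exact K.add_mem ha hb
  | mul_X a v ha =>
      rw [map_mul]
      refine K.mul_mem ha ?_
      rcases v with ⟨l, s⟩ | ⟨b | i, I⟩
      · exact Subfield.subset_closure (Or.inl ⟨(l, s), rfl⟩)
      · refine Subfield.subset_closure (Or.inr ⟨(b, I.1), ?_⟩)
        show toFrac q ((gen (Sum.inl b) : EE m n).coe I.1) = _
        rw [gen_coe]
      · let uK : Fin m → Bool → K := fun l s =>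
          ⟨uFrac q l s, Subfield.subset_closure (Or.inl ⟨(l, s), rfl⟩)⟩
        let xK : Bool → Quat uK := fun b =>
          ⟨fun I => ⟨(xFrac q b).coe I, Subfield.subset_closure (Or.inr ⟨(b, I), rfl⟩)⟩⟩
        have h1 := hgraph i I.1 I.2
        rw [← toFrac_eq_zero q, map_sub, sub_eq_zero, gen_coe] at h1
        rw [h1]
        have h2 := congrFun (congrArg Quat.coe (Expr.eval_map K.subtype xK (fexp i))) I.1
        have h3 := congrFun (congrArg Quat.coe (Expr.eval_map (toFrac q)
          (fun b => (gen (Sum.inl b) : EE m n)) (fexp i))) I.1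
        rw [Quat.map_coe] at h2 h3
        rw [h3]
        have h4 : ((fexp i).eval xK).coe I.1 ∈ (⊤ : Set K) := trivial
        exact Eq.mpr (congrArg (· ∈ K) h2.symm) (((fexp i).eval xK).coe I.1).2

/-- A division algebra of degree `2^m` on two generators in which `n` elements have small
degree, over a field with large transcendence degree. -/
theorem exists_stage (fexp : Fin n → Expr) (hm : n + 3 ≤ m) :
    ∃ (F : Type) (_ : Field F) (_ : CharZero F) (u : Fin m → Bool → F) (x : Bool → Quat u),
      (∀ a b : Quat u, a * b = 0 → a = 0 ∨ b = 0) ∧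
      (∀ (i : Fin n) (e : ℕ), 2 ^ (i.val + 3) < e →
        (gram e ((fexp i).eval x - algebraMap F (Quat u) (Quat.tau ((fexp i).eval x)))).det
          = 0) ∧
      (∀ b, Quat.tau (x b) = 0) ∧
      Subfield.closure (Set.range (fun p : Fin m × Bool => u p.1 p.2) ∪
        Set.range (fun p : Bool × Ix m => (x p.1).coe p.2)) = ⊤ ∧
      ∃ d : ℕ, (d : Cardinal) ≤ Algebra.trdeg ℚ F ∧ 8 * m + 7 * 4 ^ m ≤ 4 * d + 8 := by
  obtain ⟨q, hqp, hq, hlead, hdeg, hgraph, hbig⟩ := exists_prime fexp hm
  have := hqp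
  have hinj : Function.Injective
      (algebraMap (RR m n ⧸ q) (FractionRing (RR m n ⧸ q))) := IsFractionRing.injective _ _
  have : CharZero (FractionRing (RR m n ⧸ q)) :=
    charZero_of_injective_algebraMap
      (algebraMap ℚ (FractionRing (RR m n ⧸ q))).injective
  refine ⟨FractionRing (RR m n ⧸ q), inferInstance, this, uFrac q, xFrac q,
    fun a b h => frac_no_zero_divisors hq hlead h, fun i e he => ?_, fun b => ?_, ?_,
    pdim q, ?_, hbig⟩
  · have hy : (fexp i).eval (xFrac q) -
        algebraMap _ (Quat (uFrac q)) (Quat.tau ((fexp i).eval (xFrac q))) =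
        Quat.map (toFrac q) (uVar m n) (gen (Sum.inr i) : EE m n) := by
      have h3 := Expr.eval_map (toFrac q) (fun b => (gen (Sum.inl b) : EE m n)) (fexp i)
      ext I
      rw [Quat.algebraMap_eq]
      show ((fexp i).eval (xFrac q)).coe I -
        (Pi.single 0 (Quat.tau ((fexp i).eval (xFrac q))) : Ix m → _) I = toFrac q _
      by_cases hI : I = 0
      · subst hI
        rw [Pi.single_eq_same, gen_coe_zero, map_zero]
        exact sub_self _
      · rw [Pi.single_eq_of_ne hI, sub_zero]
        have h1 := hgraph i I hI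
        rw [← toFrac_eq_zero q, map_sub, sub_eq_zero] at h1
        rw [h1, ← Quat.map_coe (toFrac q), h3]
        rfl
    rw [hy]
    have h1 := (det_gram_map (toFrac q) e (gen (Sum.inr i) : EE m n)).symm
    rw [(toFrac_eq_zero q _).2 (hdeg i e he)] at h1
    exact h1
  · show toFrac q ((gen (Sum.inl b) : EE m n).coe 0) = 0
    rw [gen_coe_zero, map_zero]
  · refine eq_top_iff.2 fun z _ => ?_
    obtain ⟨a, b, -, rfl⟩ := IsFractionRing.div_surjective (RR m n ⧸ q) z
    obtain ⟨a, rfl⟩ := Ideal.Quotient.mk_surjective a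
    obtain ⟨b, rfl⟩ := Ideal.Quotient.mk_surjective b
    exact div_mem (toFrac_mem_adjoin fexp hgraph a) (toFrac_mem_adjoin fexp hgraph b)
  · rw [pdim_cast]
    exact trdeg_le_of_injective
      (RingHom.toRatAlgHom (algebraMap (RR m n ⧸ q) (FractionRing (RR m n ⧸ q)))) hinj

end Vale.Agent.P199
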