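import Vale.Agent.P199.Witness

/-!
The ultraproduct of the stages and the countable division ring inside it.
-/

set_option linter.unusedSectionVars false

noncomputable section

namespace Vale.Agent.P199

open Polynomial

/-- An injective code of expressions. -/
def Expr.code : Expr → ℕ
  | .var b => Nat.pair 0 (if b then 1 else 0)
  | .one => Nat.pair 1 0
  | .add p q => Nat.pair 2 (Nat.pair p.code q.code)
  | .neg p => Nat.pair 3 p.code
  | .mul p q => Nat.pair 4 (Nat.pair p.code q.code)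
  | .tr p => Nat.pair 5 p.code

theorem Expr.code_injective : Function.Injective Expr.code := by
  intro p
  induction p with
  | var b => intro q h; cases q <;> simp [Expr.code, Nat.pair_eq_pair] at h ⊢
             rename_i c; cases b <;> cases c <;> simp at h ⊢
  | one => intro q h; cases q <;> simp [Expr.code, Nat.pair_eq_pair] at h ⊢
  | add a b ha hb =>
      intro q h; cases q <;> simp [Expr.code, Nat.pair_eq_pair] at h ⊢
      exact ⟨ha h.1, hb h.2⟩
  | neg a ha =>
      intro q h; cases q <;> simp [Expr.code, Nat.pair_eq_pair] at h ⊢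
      exact ha h
  | mul a b ha hb =>
      intro q h; cases q <;> simp [Expr.code, Nat.pair_eq_pair] at h ⊢
      exact ⟨ha h.1, hb h.2⟩
  | tr a ha =>
      intro q h; cases q <;> simp [Expr.code, Nat.pair_eq_pair] at h ⊢
      exact ha h

instance : Nonempty Expr := ⟨.one⟩

/-- The power of an expression. -/
def Expr.pow (p : Expr) : ℕ → Expr
  | 0 => .one
  | k + 1 => .mul (p.pow k) p

theorem Expr.eval_pow {S : Type} [CommRing S] {m : ℕ} {u : Fin m → Bool → S}
    (x : Bool → Quat u) (p : Expr) : ∀ k, (p.pow k).eval x = p.eval x ^ k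
  | 0 => (pow_zero _).symm
  | k + 1 => by rw [pow_succ, ← Expr.eval_pow x p k]; rfl

/-- The sequence of stages. -/
structure Stages where
  F : ℕ → Type
  [field : ∀ n, Field (F n)]
  [charZero : ∀ n, CharZero (F n)]
  u : ∀ n, Fin (n + 5) → Bool → F n
  x : ∀ n, Bool → Quat (u n)
  hdiv : ∀ n, ∀ a b : Quat (u n), a * b = 0 → a = 0 ∨ b = 0
  hgen : ∀ n, Algebra.adjoin (F n) (Set.range (x n)) = ⊤
  hdeg : ∀ (p : Expr) (n : ℕ), p.code < n →
    (minpoly (F n) (p.traceless.eval (x n))).natDegree ≤ 2 ^ (p.code + 3)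

attribute [instance] Stages.field Stages.charZero

theorem exists_stages : Nonempty Stages := by
  choose F iF iC u x hdiv hgen hdeg using exists_witness (Function.invFun Expr.code)
  refine ⟨@Stages.mk F iF iC u x hdiv hgen fun p n hn => ?_⟩
  have h := hdeg n p.code hn
  rwa [Function.leftInverse_invFun Expr.code_injective p] at h

namespace Stages

variable (S : Stages)

/-- The nonprincipal ultrafilter. -/
def U : Ultrafilter ℕ := Filter.hyperfilter ℕ

theorem U_ge (k : ℕ) : ∀ᶠ n in (U : Filter ℕ), k ≤ n :=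
  Filter.hyperfilter_le_cofinite (by
    rw [Nat.cofinite_eq_atTop]; exact Filter.eventually_ge_atTop k)

theorem exists_const {α : Type} [Finite α] (f : ℕ → α) : ∃ a, ∀ᶠ n in (U : Filter ℕ), f n = a := by
  have h : (⋃ a ∈ (Set.univ : Set α), {n | f n = a}) ∈ U := by
    rw [show (⋃ a ∈ (Set.univ : Set α), {n | f n = a}) = Set.univ from
      Set.eq_univ_of_forall fun n => Set.mem_biUnion (Set.mem_univ (f n)) rfl]
    exact Filter.univ_mem
  obtain ⟨a, -, ha⟩ := (Ultrafilter.finite_biUnion_mem_iff Set.finite_univ).1 h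
  exact ⟨a, ha⟩

/-- Sequences. -/
abbrev Seq : Type := ∀ n, Quat (S.u n)

/-- Equality almost everywhere. -/
def con : RingCon S.Seq where
  r a b := ∀ᶠ n in (U : Filter ℕ), a n = b n
  iseqv := ⟨fun _ => Filter.Eventually.of_forall fun _ => rfl,
    fun h => h.mono fun _ e => e.symm,
    fun h h' => (h.and h').mono fun _ e => e.1.trans e.2⟩
  mul' h h' := (h.and h').mono fun n e => by simp only [Pi.mul_apply, e.1, e.2]
  add' h h' := (h.and h').mono fun n e => by simp only [Pi.add_apply, e.1, e.2]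

/-- The ultraproduct. -/
def Q : Type := S.con.Quotient

instance : Ring S.Q := inferInstanceAs (Ring S.con.Quotient)

/-- The quotient map. -/
def qm : S.Seq →+* S.Q := S.con.mk'

theorem qm_eq {a b : S.Seq} : S.qm a = S.qm b ↔ ∀ᶠ n in (U : Filter ℕ), a n = b n :=
  S.con.eq

theorem qm_surjective : Function.Surjective S.qm := RingCon.mk'_surjective _

theorem qm_eq_zero {a : S.Seq} : S.qm a = 0 ↔ ∀ᶠ n in (U : Filter ℕ), a n = 0 := by
  rw [← S.qm.map_zero, qm_eq]; rfl

instance : NoZeroDivisors S.Q where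
  eq_zero_or_eq_zero_of_mul_eq_zero {a b} h := by
    obtain ⟨a, rfl⟩ := S.qm_surjective a
    obtain ⟨b, rfl⟩ := S.qm_surjective b
    rw [← map_mul, qm_eq_zero] at h
    rw [qm_eq_zero, qm_eq_zero]
    exact Ultrafilter.eventually_or.1 (h.mono fun n e => S.hdiv n _ _ e)

/-- Sequences of scalars. -/
def sc : (∀ n, S.F n) →+* S.Q :=
  S.qm.comp (RingHom.pi fun n => (algebraMap (S.F n) (Quat (S.u n))).comp (Pi.evalRingHom S.F n))

theorem sc_comm (g : ∀ n, S.F n) (a : S.Q) : S.sc g * a = a * S.sc g := by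
  obtain ⟨a, rfl⟩ := S.qm_surjective a
  show S.qm _ * _ = _ * S.qm _
  rw [← map_mul, ← map_mul]
  exact congrArg _ (funext fun n => Algebra.commutes (g n) (a n))

theorem sc_eq_zero {g : ∀ n, S.F n} : S.sc g = 0 ↔ ∀ᶠ n in (U : Filter ℕ), g n = 0 := by
  refine (S.qm_eq_zero).trans ⟨fun h => h.mono fun n e => ?_, fun h => h.mono fun n e => ?_⟩
  · exact (algebraMap (S.F n) (Quat (S.u n))).injective (by rw [map_zero]; exact e)
  · show algebraMap (S.F n) (Quat (S.u n)) (g n) = 0
    rw [e, map_zero]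

/-- The value of an expression. -/
def ev (p : Expr) : S.Q := S.qm fun n => p.eval (S.x n)

theorem ev_add (p q : Expr) : S.ev (.add p q) = S.ev p + S.ev q :=
  S.qm.map_add (fun n => p.eval (S.x n)) fun n => q.eval (S.x n)

theorem ev_mul (p q : Expr) : S.ev (.mul p q) = S.ev p * S.ev q :=
  S.qm.map_mul (fun n => p.eval (S.x n)) fun n => q.eval (S.x n)

theorem ev_neg (p : Expr) : S.ev (.neg p) = -S.ev p :=
  S.qm.map_neg fun n => p.eval (S.x n)

theorem ev_one : S.ev .one = 1 := S.qm.map_one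

/-- The traces of the expressions. -/
def T : Subring (∀ n, S.F n) where
  carrier := {g | ∃ p : Expr, ∀ n, g n = Quat.tau (p.eval (S.x n))}
  mul_mem' := by
    rintro a b ⟨p, hp⟩ ⟨q, hq⟩
    refine ⟨.mul (.tr p) q, fun n => ?_⟩
    simp only [Expr.eval, Pi.mul_apply, hp, hq, Algebra.algebraMap_eq_smul_one, smul_mul_assoc,
      one_mul, map_smul, smul_eq_mul]
  one_mem' := ⟨.one, fun n => (Quat.tau_one).symm⟩
  add_mem' := by
    rintro a b ⟨p, hp⟩ ⟨q, hq⟩
    exact ⟨.add p q, fun n => by simp only [Expr.eval, Pi.add_apply, hp, hq, map_add]⟩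
  zero_mem' := ⟨.add .one (.neg .one), fun n => by simp [Expr.eval]⟩
  neg_mem' := by
    rintro a ⟨p, hp⟩
    exact ⟨.neg p, fun n => by simp only [Expr.eval, Pi.neg_apply, hp, map_neg]⟩

theorem tau_mem_T (p : Expr) : (fun n => Quat.tau (p.eval (S.x n))) ∈ S.T := ⟨p, fun _ => rfl⟩

theorem exists_ev_of_mem_T {g : ∀ n, S.F n} (hg : g ∈ S.T) : ∃ p, S.sc g = S.ev p := by
  obtain ⟨p, hp⟩ := hg
  exact ⟨.tr p, congrArg S.qm (funext fun n => congrArg (algebraMap (S.F n) _) (hp n))⟩

/-- Membership in the small ring. -/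
def Frac (a : S.Q) : Prop :=
  ∃ (p : Expr) (g : ∀ n, S.F n), g ∈ S.T ∧ (∀ᶠ n in (U : Filter ℕ), g n ≠ 0) ∧
    a * S.sc g = S.ev p

theorem frac_ev (p : Expr) : S.Frac (S.ev p) :=
  ⟨p, 1, S.T.one_mem, Filter.Eventually.of_forall fun _ => one_ne_zero, by rw [map_one, mul_one]⟩

/-- The countable ring. -/
def Dsub : Subring S.Q where
  carrier := {a | S.Frac a}
  mul_mem' := by
    rintro a b ⟨p, g, hg, hg0, ha⟩ ⟨q, g', hg', hg0', hb⟩
    refine ⟨.mul p q, g * g', S.T.mul_mem hg hg',
      (hg0.and hg0').mono fun n e => mul_ne_zero e.1 e.2, ?_⟩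
    rw [map_mul, ev_mul, ← ha, ← hb]
    calc a * b * (S.sc g * S.sc g') = a * (b * S.sc g) * S.sc g' := by simp only [mul_assoc]
      _ = a * (S.sc g * b) * S.sc g' := by rw [S.sc_comm]
      _ = a * S.sc g * (b * S.sc g') := by simp only [mul_assoc]
  one_mem' := by rw [← ev_one]; exact S.frac_ev _
  add_mem' := by
    rintro a b ⟨p, g, hg, hg0, ha⟩ ⟨q, g', hg', hg0', hb⟩
    obtain ⟨pg, hpg⟩ := S.exists_ev_of_mem_T hg
    obtain ⟨pg', hpg'⟩ := S.exists_ev_of_mem_T hg'
    refine ⟨.add (.mul p pg') (.mul q pg), g * g', S.T.mul_mem hg hg',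
      (hg0.and hg0').mono fun n e => mul_ne_zero e.1 e.2, ?_⟩
    rw [ev_add, ev_mul, ev_mul, ← ha, ← hb, ← hpg, ← hpg', add_mul, map_mul]
    congr 1
    · rw [mul_assoc]
    · rw [S.sc_comm g (S.sc g'), mul_assoc]
  zero_mem' := ⟨.add .one (.neg .one), 1, S.T.one_mem,
    Filter.Eventually.of_forall fun _ => one_ne_zero, by
      rw [ev_add, ev_neg, ev_one, add_neg_cancel, zero_mul]⟩
  neg_mem' := by
    rintro a ⟨p, g, hg, hg0, ha⟩
    exact ⟨.neg p, g, hg, hg0, (neg_mul a (S.sc g)).trans (by rw [ev_neg, ← ha])⟩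

/-- The division ring, as a ring. -/
def D : Type := ↥S.Dsub

instance : Ring S.D := inferInstanceAs (Ring ↥S.Dsub)

/-- The embedding in the ultraproduct. -/
def val : S.D →+* S.Q := S.Dsub.subtype

theorem val_injective : Function.Injective S.val := Subtype.val_injective

instance : NoZeroDivisors S.D := S.val_injective.noZeroDivisors S.val S.val.map_zero S.val.map_mul

/-- An expression in the ring. -/
def evD (p : Expr) : S.D := ⟨S.ev p, S.frac_ev p⟩

theorem sc_mem {g : ∀ n, S.F n} (hg : g ∈ S.T) : S.sc g ∈ S.Dsub := by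
  obtain ⟨p, hp⟩ := S.exists_ev_of_mem_T hg
  rw [hp]; exact S.frac_ev p

/-- A trace sequence in the centre. -/
def scC {g : ∀ n, S.F n} (hg : g ∈ S.T) : Subring.center S.D :=
  ⟨⟨S.sc g, S.sc_mem hg⟩,
    Subring.mem_center_iff.2 fun a => Subtype.ext (S.sc_comm g (S.val a)).symm⟩

theorem scC_ne_zero {g : ∀ n, S.F n} (hg : g ∈ S.T) (h : ∀ᶠ n in (U : Filter ℕ), g n ≠ 0) :
    S.scC hg ≠ 0 := by
  intro e
  have e' : S.sc g = 0 := (congrArg (fun c : Subring.center S.D => S.val (c : S.D)) e).trans S.val.map_zero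
  obtain ⟨n, hn, hn'⟩ := ((S.sc_eq_zero.1 e').and h).exists
  exact hn' hn

theorem center_scalar {c : S.D} (hc : c ∈ Subring.center S.D) :
    ∃ g, S.val c = S.sc g := by
  obtain ⟨z, hz⟩ := S.qm_surjective (S.val c)
  have hb : ∀ b, ∀ᶠ n in (U : Filter ℕ), z n * S.x n b = S.x n b * z n := by
    intro b
    have h := congrArg S.val (Subring.mem_center_iff.1 hc (S.evD (.var b)))
    rw [map_mul, map_mul] at h
    change S.ev (.var b) * S.val c = S.val c * S.ev (.var b) at h
    rw [← hz, ev, ← map_mul, ← map_mul, qm_eq] at h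
    exact h.mono fun n e => e.symm
  refine ⟨fun n => Quat.tau (z n), ?_⟩
  rw [← hz]
  refine S.qm_eq.2 (((hb false).and (hb true)).mono fun n e => ?_)
  show z n = algebraMap (S.F n) _ (Quat.tau (z n))
  rw [Algebra.algebraMap_eq_smul_one]
  exact central_scalar (S.hdiv n) (S.hgen n) fun b => by cases b <;> [exact e.1; exact e.2]

instance : Nontrivial S.D := by
  refine ⟨⟨0, 1, fun h => ?_⟩⟩
  have h' : (0 : S.Q) = 1 := (map_zero S.val).symm.trans ((congrArg S.val h).trans (map_one S.val))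
  rw [← map_zero S.qm, ← map_one S.qm, qm_eq] at h'
  obtain ⟨n, hn⟩ := h'.exists
  exact zero_ne_one hn

instance : IsDomain S.D := NoZeroDivisors.to_isDomain _

theorem det_mem_T {d : ℕ} {M : Matrix (Fin d) (Fin d) (∀ n, S.F n)} (h : ∀ a b, M a b ∈ S.T) :
    M.det ∈ S.T := by
  rw [Matrix.det_apply]
  exact S.T.sum_mem fun σ _ => by
    rw [Units.smul_def]
    exact S.T.zsmul_mem (S.T.prod_mem fun i _ => h _ _) _

theorem adjugate_mem_T {d : ℕ} {M : Matrix (Fin d) (Fin d) (∀ n, S.F n)}
    (h : ∀ a b, M a b ∈ S.T) (a b : Fin d) : M.adjugate a b ∈ S.T := by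
  let M0 : Matrix (Fin d) (Fin d) S.T := fun a b => ⟨M a b, h a b⟩
  rw [show M.adjugate = M0.adjugate.map S.T.subtype by
    rw [← RingHom.mapMatrix_apply, RingHom.map_adjugate]; rfl]
  exact (M0.adjugate a b).2

theorem isAlgebraic_traceless (p : Expr) :
    IsAlgebraic (Subring.center S.D) (S.evD p.traceless) := by
  set y : ∀ n, Quat (S.u n) := fun n => p.traceless.eval (S.x n) with hy
  set B := 2 ^ (p.code + 3)
  obtain ⟨d, hd⟩ := exists_const fun n =>
    (⟨min (minpoly (S.F n) (y n)).natDegree B, Nat.lt_succ_of_le (min_le_right _ _)⟩ :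
      Fin (B + 1))
  have hd' : ∀ᶠ n in (U : Filter ℕ), (minpoly (S.F n) (y n)).natDegree = d.val := by
    refine (hd.and (U_ge (p.code + 1))).mono fun n e => ?_
    have h1 := congrArg Fin.val e.1
    simp only at h1
    rw [min_eq_left (S.hdeg p n e.2)] at h1
    exact h1
  let M : Matrix (Fin d.val) (Fin d.val) (∀ n, S.F n) := fun a b n => gram d.val (y n) a b
  let tv : Fin d.val → (∀ n, S.F n) := fun a n => tvec d.val (y n) a
  have hpow : ∀ k, (fun n => Quat.tau (y n ^ k)) ∈ S.T := fun k => by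
    have h := S.tau_mem_T (p.traceless.pow k)
    simp only [Expr.eval_pow] at h
    exact h
  have hM : ∀ a b, M a b ∈ S.T := fun a b => hpow _
  have htv : ∀ b, tv b ∈ S.T := fun b => hpow _
  have hk : ∀ k, (M.adjugate.mulVec tv) k ∈ S.T := fun k =>
    S.T.sum_mem (t := Finset.univ) fun b _ => S.T.mul_mem (S.adjugate_mem_T hM k b) (htv b)
  have hdet := S.det_mem_T hM
  have hMn : ∀ n, M.map (Pi.evalRingHom S.F n) = gram d.val (y n) := fun n => rfl
  have hdetn : ∀ n, M.det n = (gram d.val (y n)).det := fun n => by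
    rw [← hMn, ← RingHom.mapMatrix_apply, ← RingHom.map_det]; rfl
  have hkn : ∀ k n, (M.adjugate.mulVec tv) k n =
      ((gram d.val (y n)).adjugate.mulVec (tvec d.val (y n))) k := fun k n => by
    show (Pi.evalRingHom S.F n) ((M.adjugate.mulVec tv) k) = _
    rw [RingHom.map_mulVec, ← hMn n]
    congr 1
    exact RingHom.map_adjugate (Pi.evalRingHom S.F n) M
  set P : Polynomial (Subring.center S.D) :=
    C (S.scC hdet) * X ^ d.val - ∑ k : Fin d.val, C (S.scC (hk k)) * X ^ (k : ℕ) with hP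
  refine ⟨P, fun h0 => ?_, ?_⟩
  · have h1 := congrArg (fun q => q.coeff d.val) h0
    simp only [hP, coeff_sub, coeff_C_mul_X_pow, if_true, finsetSum_coeff, coeff_zero] at h1
    rw [Finset.sum_eq_zero fun k _ => if_neg (Nat.ne_of_gt k.2), sub_zero] at h1
    refine S.scC_ne_zero hdet (hd'.mono fun n e => ?_) h1
    rw [hdetn, ← e]
    exact det_gram_minpoly (S.hdiv n) (y n)
  · refine S.val_injective ?_
    simp only [hP, map_sub, map_sum, map_mul, map_pow, aeval_C, aeval_X, map_zero]
    show S.sc _ * S.qm y ^ d.val -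
      ∑ k : Fin d.val, S.sc ((M.adjugate.mulVec tv) k) * S.qm y ^ (k : ℕ) = 0
    simp only [sc, RingHom.comp_apply, ← map_pow, ← map_mul, ← map_sum, ← map_sub]
    refine S.qm_eq_zero.2 (hd'.mono fun n e => ?_)
    simp only [Pi.sub_apply, Pi.mul_apply, Pi.pow_apply, Finset.sum_apply, RingHom.pi_apply,
      RingHom.comp_apply, Pi.evalRingHom_apply, hdetn, hkn, ← Algebra.smul_def]
    show Wel d.val (y n) = 0
    rw [← e]
    exact Wel_minpoly (S.hdiv n) (y n)

theorem isAlgebraic_D (a : S.D) : IsAlgebraic (Subring.center S.D) a := by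
  obtain ⟨p, g, hg, hg0, ha⟩ := a.2
  replace ha : S.val a * S.sc g = S.ev p := ha
  have ht := S.tau_mem_T p
  obtain ⟨P, hP0, hP⟩ := S.isAlgebraic_traceless p
  refine ⟨P.comp (C (S.scC hg) * X - C (S.scC ht)), fun h0 => ?_, ?_⟩
  · rcases Polynomial.comp_eq_zero_iff.1 h0 with h | ⟨-, h⟩
    · exact hP0 h
    · have h1 := congrArg (fun q => q.coeff 1) h
      simp [coeff_C] at h1
      exact S.scC_ne_zero hg hg0 h1
  · have e : S.evD p.traceless =
        aeval a (C (S.scC hg) * X - C (S.scC ht)) := by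
      refine S.val_injective ?_
      simp only [map_sub, map_mul, aeval_C, aeval_X]
      show S.ev (.add p (.neg (.tr p))) = S.sc g * S.val a - S.sc _
      rw [ev_add, ev_neg, S.sc_comm, ha, sub_eq_add_neg]
      rfl
    rw [aeval_comp, ← e, hP]

theorem center_unit {c : S.D} (hc : c ∈ Subring.center S.D) (h0 : c ≠ 0) :
    ∃ b : S.D, c * b = 1 := by
  obtain ⟨p, g, hg, hg0, hcg⟩ := c.2
  obtain ⟨z, hz⟩ := S.center_scalar hc
  obtain ⟨pg, hpg⟩ := S.exists_ev_of_mem_T hg
  have hz0 : ∀ᶠ n in (U : Filter ℕ), z n ≠ 0 :=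
    Ultrafilter.eventually_not.2 fun h =>
      h0 (S.val_injective (by rw [hz, map_zero]; exact S.sc_eq_zero.2 h))
  have hp : S.sc (z * g) = S.ev p := by rw [map_mul, ← hz]; exact hcg
  have ht : ∀ᶠ n in (U : Filter ℕ), Quat.tau (p.eval (S.x n)) = z n * g n := by
    refine (S.qm_eq.1 hp).mono fun n e => ?_
    rw [← show algebraMap (S.F n) _ ((z * g) n) = p.eval (S.x n) from e,
      Algebra.algebraMap_eq_smul_one, map_smul, Quat.tau_one, smul_eq_mul, mul_one]
    rfl
  refine ⟨⟨S.sc z⁻¹, pg, _, S.tau_mem_T p,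
    ((hz0.and hg0).and ht).mono fun n e => e.2 ▸ mul_ne_zero e.1.1 e.1.2, ?_⟩, S.val_injective ?_⟩
  · rw [← map_mul, ← hpg]
    refine S.qm_eq.2 ((hz0.and ht).mono fun n e => ?_)
    show algebraMap (S.F n) _ ((z n)⁻¹ * Quat.tau (p.eval (S.x n))) = algebraMap (S.F n) _ (g n)
    rw [e.2, inv_mul_cancel_left₀ e.1]
  · refine ((map_mul S.val _ _).trans ?_).trans (map_one S.val).symm
    show S.val c * S.sc z⁻¹ = 1
    rw [hz, ← map_mul, ← map_one S.sc]
    refine S.qm_eq.2 (hz0.mono fun n e => ?_)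
    show algebraMap (S.F n) _ (z n * (z n)⁻¹) = algebraMap (S.F n) _ 1
    rw [mul_inv_cancel₀ e]

theorem exists_inv_of_root :
    ∀ P : Polynomial (Subring.center S.D), P ≠ 0 → ∀ a : S.D, a ≠ 0 → aeval a P = 0 →
      ∃ b, a * b = 1 := by
  intro P
  induction P using Polynomial.recOnHorner with
  | M0 => intro h; exact absurd rfl h
  | MC P c hP0 hc _ =>
      intro _ a _ h
      obtain ⟨Q', rfl⟩ := Polynomial.X_dvd_iff.2 hP0
      rw [map_add, map_mul, aeval_X, aeval_C] at h
      obtain ⟨b, hb⟩ := S.center_unit c.2 (fun e => hc (Subtype.ext e))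
      refine ⟨aeval a Q' * -b, ?_⟩
      rw [← mul_assoc, eq_neg_of_add_eq_zero_left h]
      exact (neg_mul_neg ((c : S.D)) b).trans hb
  | MX P hP ih =>
      intro _ a ha h
      rw [map_mul, aeval_X] at h
      exact ih hP a ha ((mul_eq_zero.1 h).resolve_right ha)

theorem isUnit_or_eq_zero (a : S.D) : IsUnit a ∨ a = 0 := by
  by_cases ha : a = 0
  · exact Or.inr ha
  obtain ⟨P, hP0, hP⟩ := S.isAlgebraic_D a
  obtain ⟨b, hb⟩ := S.exists_inv_of_root P hP0 a ha hP
  refine Or.inl ⟨⟨a, b, hb, ?_⟩, rfl⟩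
  refine mul_left_cancel₀ ha ?_
  rw [← mul_assoc, hb, one_mul, mul_one]

theorem charZero_D : CharZero S.D := by
  refine charZero_of_inj_zero fun k hk => ?_
  have h : (k : S.Q) = 0 := by simpa using congrArg S.val hk
  rw [← map_natCast S.qm, qm_eq_zero] at h
  obtain ⟨n, hn⟩ := h.exists
  have h1 := congrArg (Quat.tau (u := S.u n)) hn
  rw [Pi.natCast_apply, show ((k : ℕ) : Quat (S.u n)) = (k : S.F n) • (1 : Quat (S.u n)) by
    rw [Nat.cast_smul_eq_nsmul, nsmul_one], map_smul, Quat.tau_one, map_zero, smul_eq_mul,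
    mul_one] at h1
  exact_mod_cast h1

theorem evD_mem_adjoin (p : Expr) :
    S.evD p ∈ Algebra.adjoin (Subring.center S.D)
      ({S.evD (.var false), S.evD (.var true)} : Set S.D) := by
  induction p with
  | var b => exact Algebra.subset_adjoin (by cases b <;> simp)
  | one => rw [show S.evD .one = 1 from S.val_injective ((S.ev_one).trans (map_one S.val).symm)]; exact one_mem _
  | add p q hp hq =>
      rw [show S.evD (.add p q) = S.evD p + S.evD q from
        S.val_injective ((S.ev_add p q).trans (map_add S.val (S.evD p) (S.evD q)).symm)]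
      exact add_mem hp hq
  | neg p hp =>
      rw [show S.evD (.neg p) = -S.evD p from
        S.val_injective ((S.ev_neg p).trans (map_neg S.val (S.evD p)).symm)]
      exact neg_mem hp
  | mul p q hp hq =>
      rw [show S.evD (.mul p q) = S.evD p * S.evD q from
        S.val_injective ((S.ev_mul p q).trans (map_mul S.val (S.evD p) (S.evD q)).symm)]
      exact mul_mem hp hq
  | tr p _ =>
      rw [show S.evD (.tr p) = algebraMap (Subring.center S.D) S.D (S.scC (S.tau_mem_T p)) from
        S.val_injective rfl]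
      exact Subalgebra.algebraMap_mem _ _

theorem adjoin_eq_top :
    Algebra.adjoin (Subring.center S.D)
      ({S.evD (.var false), S.evD (.var true)} : Set S.D) = ⊤ := by
  refine eq_top_iff.2 fun a _ => ?_
  obtain ⟨p, g, hg, hg0, ha⟩ := a.2
  set s : S.D := ((S.scC hg : Subring.center S.D) : S.D)
  have hsc : s ∈ Subring.center S.D := (S.scC hg).2
  obtain ⟨b, hb⟩ := S.center_unit hsc fun e => S.scC_ne_zero hg hg0 (Subtype.ext e)
  have hbc : b ∈ Subring.center S.D := Subring.mem_center_iff.2 fun z => by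
    refine mul_left_cancel₀ (fun e : s = 0 => S.scC_ne_zero hg hg0 (Subtype.ext e)) ?_
    rw [← mul_assoc, ← mul_assoc, hb, ← Subring.mem_center_iff.1 hsc z, mul_assoc, hb, mul_one,
      one_mul]
  have e : a = algebraMap (Subring.center S.D) S.D ⟨b, hbc⟩ * S.evD p := by
    rw [show S.evD p = a * s from S.val_injective (ha.symm.trans (map_mul S.val a s).symm)]
    show a = b * (a * s)
    rw [← mul_assoc, ← Subring.mem_center_iff.1 hbc a, mul_assoc,
      Subring.mem_center_iff.1 hsc b, hb, mul_one]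
  rw [e]
  exact mul_mem (Subalgebra.algebraMap_mem _ _) (S.evD_mem_adjoin p)

theorem exists_indep (l : ℕ) :
    ∃ v : Fin (l + 1) → S.D, LinearIndependent (Subring.center S.D) v := by
  classical
  have h : ∀ n, ∃ s : Fin (l + 1) → Fin (words l).length,
      l + 1 ≤ 4 ^ (n + 5) → LinearIndependent (S.F n) fun j => ((words l)[s j]).eval (S.x n) := by
    intro n
    by_cases hn : l + 1 ≤ 4 ^ (n + 5)
    · obtain ⟨s, hs⟩ := exists_indep_words (S.hgen n) l hn
      exact ⟨s, fun _ => hs⟩
    · exact ⟨fun _ => ⟨0, List.length_pos_of_mem (one_mem_words l)⟩, fun h => absurd h hn⟩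
  choose s hs using h
  obtain ⟨s0, hs0⟩ := exists_const s
  refine ⟨fun j => S.evD ((words l)[s0 j]), Fintype.linearIndependent_iff.2 fun c hc => ?_⟩
  choose g hg using fun j => S.center_scalar (c j).2
  have h1 : S.qm (fun n => ∑ j, g j n • ((words l)[s0 j]).eval (S.x n)) = 0 := by
    rw [show (fun n => ∑ j, g j n • ((words l)[s0 j]).eval (S.x n)) =
      ∑ j, fun n => g j n • ((words l)[s0 j]).eval (S.x n) by funext n; rw [Finset.sum_apply],
      map_sum]
    have h2 := congrArg S.val hc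
    rw [map_sum, map_zero] at h2
    refine Eq.trans (Finset.sum_congr rfl fun j _ => ?_) h2
    show _ = S.val ((c j : S.D) * S.evD _)
    rw [map_mul]
    show _ = S.val (c j : S.D) * S.ev _
    rw [hg, ev, sc, RingHom.comp_apply, ← map_mul]
    congr 1
    funext n
    exact Algebra.smul_def _ _
  intro j
  refine Subtype.ext (S.val_injective ?_)
  show S.val (c j : S.D) = S.val 0
  rw [map_zero]
  rw [hg, sc_eq_zero]
  refine (((S.qm_eq_zero.1 h1).and hs0).and (U_ge l)).mono fun n e => ?_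
  have hl : l + 1 ≤ 4 ^ (n + 5) :=
    (Nat.lt_pow_self (show 1 < 4 by norm_num)).le.trans' (by omega)
  have hli := hs n hl
  rw [e.1.2] at hli
  exact Fintype.linearIndependent_iff.1 hli (fun j => g j n) e.1.1 j

theorem not_finite : ¬ Module.Finite (Subring.center S.D) S.D := by
  intro hfin
  obtain ⟨k, v, hv⟩ := Module.Finite.exists_fin (R := Subring.center S.D) (M := S.D)
  obtain ⟨w, hw⟩ := S.exists_indep k
  have : Fintype (Set.range v) := Fintype.ofFinite _
  have h1 := linearIndependent_le_span' w hw (Set.range v) (by rw [hv]; exact le_top)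
  have h2 : Fintype.card (Set.range v) ≤ k :=
    (Fintype.card_range_le v).trans_eq (Fintype.card_fin k)
  simp only [Cardinal.mk_fin] at h1
  have h3 : k + 1 ≤ Fintype.card (Set.range v) := by exact_mod_cast h1
  omega

end Stages

/-- Kurosh's problem has a negative answer. -/
theorem kurosh_counterexample :
    ∃ (D : Type) (_ : DivisionRing D), CharZero D ∧
      (∀ x : D, IsAlgebraic (Subring.center D) x) ∧
      ∃ a b : D, Algebra.adjoin (Subring.center D) ({a, b} : Set D) = ⊤ ∧
        ¬ Module.Finite (Subring.center D) D := by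
  obtain ⟨S⟩ := exists_stages
  exact ⟨S.D, DivisionRing.ofIsUnitOrEqZero S.isUnit_or_eq_zero, S.charZero_D, S.isAlgebraic_D,
    _, _, S.adjoin_eq_top, S.not_finite⟩

end Vale.Agent.P199
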