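import Vale.Agent.P199.Stage
import Vale.Agent.P199.Generation

/-!
The properties of one stage that pass to the ultraproduct.
-/

set_option linter.unusedSectionVars false

noncomputable section

namespace Vale.Agent.P199

open Polynomial

variable {m : ℕ} {F : Type} [Field F] {u : Fin m → Bool → F}

theorem eq_zero_of_tau_pow (hdiv : ∀ a b : Quat u, a * b = 0 → a = 0 ∨ b = 0) {y W : Quat u}
    (hW : W ∈ Algebra.adjoin F {y})
    (h : ∀ b < (minpoly F y).natDegree, Quat.tau (W * y ^ b) = 0) : W = 0 := by
  by_contra h0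
  obtain ⟨w, hw, hw1⟩ := inv_mem hdiv _ hW h0
  rw [Algebra.adjoin_singleton_eq_range_aeval] at hw
  obtain ⟨q, rfl⟩ := hw
  set r := q %ₘ minpoly F y
  have hint : IsIntegral F y := IsIntegral.of_finite F y
  have hq : aeval y r = aeval y q := by
    conv_rhs => rw [← modByMonic_add_div q (minpoly F y)]
    simp [r, minpoly.aeval]
  have hdeg : r.natDegree < (minpoly F y).natDegree :=
    natDegree_modByMonic_lt q (minpoly.monic hint) (minpoly.ne_one F y)
  change W * aeval y q = 1 at hw1
  rw [← hq, aeval_eq_sum_range' hdeg, Finset.mul_sum] at hw1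
  have := congrArg Quat.tau hw1
  rw [map_sum, Quat.tau_one, Finset.sum_eq_zero fun b hb => by
    rw [mul_smul_comm, map_smul, h b (Finset.mem_range.1 hb), smul_zero]] at this
  exact zero_ne_one this

theorem sum_pow_mem (y : Quat u) {e : ℕ} (v : Fin e → F) :
    ∑ a, v a • y ^ (a : ℕ) ∈ Algebra.adjoin F {y} :=
  Subalgebra.sum_mem _ fun a _ =>
    Subalgebra.smul_mem _ (Subalgebra.pow_mem _ (Algebra.self_mem_adjoin_singleton F y) _) _

theorem det_gram_minpoly (hdiv : ∀ a b : Quat u, a * b = 0 → a = 0 ∨ b = 0) (y : Quat u) :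
    (gram (minpoly F y).natDegree y).det ≠ 0 := by
  intro h
  obtain ⟨v, hv0, hv⟩ := Matrix.exists_mulVec_eq_zero_iff.2 h
  have h0 : ∑ a, v a • y ^ (a : ℕ) = 0 := by
    refine eq_zero_of_tau_pow hdiv (sum_pow_mem y v) fun b hb => ?_
    have := congrFun hv ⟨b, hb⟩
    simp only [Finset.sum_mul, smul_mul_assoc, map_sum, map_smul, smul_eq_mul, ← pow_add]
    refine Eq.trans (Finset.sum_congr rfl fun a _ => ?_) this
    simp only [gram]; rw [mul_comm, add_comm]
  exact hv0 (funext (Fintype.linearIndependent_iff.1 (linearIndependent_pow (K := F) y) v h0))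

theorem Wel_minpoly (hdiv : ∀ a b : Quat u, a * b = 0 → a = 0 ∨ b = 0) (y : Quat u) :
    Wel (minpoly F y).natDegree y = 0 :=
  eq_zero_of_tau_pow hdiv
    (sub_mem (Subalgebra.smul_mem _
      (Subalgebra.pow_mem _ (Algebra.self_mem_adjoin_singleton F y) _) _) (sum_pow_mem y _))
    fun b hb => tau_Wel _ y ⟨b, hb⟩

theorem central_scalar [CharZero F] (hdiv : ∀ a b : Quat u, a * b = 0 → a = 0 ∨ b = 0)
    {x : Bool → Quat u} (hx : Algebra.adjoin F (Set.range x) = ⊤) {z : Quat u}
    (hz : ∀ b, z * x b = x b * z) : z = Quat.tau z • (1 : Quat u) := by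
  have hk := kap_self_ne_zero hdiv
  have hall : ∀ a, Commute z a := fun a => by
    have ha : a ∈ Algebra.adjoin F (Set.range x) := hx ▸ Algebra.mem_top
    induction ha using Algebra.adjoin_induction with
    | mem y hy => obtain ⟨b, rfl⟩ := hy; exact hz b
    | algebraMap c => exact (Algebra.commutes c z).symm
    | add p q _ _ hp hq => exact hp.add_right hq
    | mul p q _ _ hp hq => exact hp.mul_right hq
  have h := sum_conj hk z
  rw [Finset.sum_congr rfl fun I _ => show (kap u I I)⁻¹ • (Quat.e u I * z * Quat.e u I) = z by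
    rw [← (hall (Quat.e u I)).eq, mul_assoc, Quat.e_mul_e, ix_add_self, Quat.e_zero, mul_smul_comm,
      mul_one, smul_smul, inv_mul_cancel₀ (hk I), one_smul], Finset.sum_const,
    ← Nat.cast_smul_eq_nsmul F, Finset.card_univ] at h
  simp only [Fintype.card_fun, Fintype.card_prod, ZMod.card, Fintype.card_fin,
    show (2 * 2 : ℕ) = 4 from rfl, Nat.cast_pow, Nat.cast_ofNat] at h
  rw [mul_smul] at h
  exact smul_right_injective _ (pow_ne_zero m (by norm_num : (4 : F) ≠ 0)) h

/-- The list of words of length at most `l`. -/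
def words : ℕ → List Expr
  | 0 => [Expr.one]
  | l + 1 => words l ++ (words l).map (Expr.mul (Expr.var false)) ++
      (words l).map (Expr.mul (Expr.var true))

theorem mul_mem_words {l : ℕ} (b : Bool) {w : Expr} (hw : w ∈ words l) :
    Expr.mul (Expr.var b) w ∈ words (l + 1) := by
  cases b
  · exact List.mem_append_left _ (List.mem_append_right _ (List.mem_map_of_mem hw))
  · exact List.mem_append_right _ (List.mem_map_of_mem hw)

theorem one_mem_words : ∀ l, Expr.one ∈ words l
  | 0 => List.mem_singleton_self _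
  | l + 1 => List.mem_append_left _ (List.mem_append_left _ (one_mem_words l))

theorem exists_indep_words {x : Bool → Quat u} (hx : Algebra.adjoin F (Set.range x) = ⊤) (l : ℕ)
    (hl : l + 1 ≤ 4 ^ m) :
    ∃ s : Fin (l + 1) → Fin (words l).length,
      LinearIndependent F fun j => ((words l)[s j]).eval x := by
  classical
  let f : ∀ l, Fin (words l).length → Quat u := fun l i => ((words l)[i]).eval x
  let V : ℕ → Submodule F (Quat u) := fun l => Submodule.span F (Set.range (f l))
  have hmem : ∀ {l w}, w ∈ words l → w.eval x ∈ V l := fun {l w} hw => by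
    obtain ⟨i, hi, rfl⟩ := List.mem_iff_getElem.1 hw
    exact Submodule.subset_span ⟨⟨i, hi⟩, rfl⟩
  have hmono : ∀ l, V l ≤ V (l + 1) := fun l => Submodule.span_le.2 (by
    rintro _ ⟨i, rfl⟩
    exact hmem (List.mem_append_left _ (List.mem_append_left _ (List.getElem_mem i.2))))
  have hleft : ∀ l b, ∀ a ∈ V l, x b * a ∈ V (l + 1) := by
    intro l b a ha
    induction ha using Submodule.span_induction with
    | mem a ha =>
        obtain ⟨i, rfl⟩ := ha
        exact hmem (mul_mem_words b (List.getElem_mem i.2))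
    | zero => rw [mul_zero]; exact Submodule.zero_mem _
    | add p q _ _ hp hq => rw [mul_add]; exact Submodule.add_mem _ hp hq
    | smul c p _ hp => rw [mul_smul_comm]; exact Submodule.smul_mem _ _ hp
  have htop : ∀ l, V (l + 1) = V l → V l = ⊤ := by
    intro l he
    let St : Subalgebra F (Quat u) :=
      { carrier := {a | ∀ v ∈ V l, a * v ∈ V l}
        add_mem' := fun {p q} hp hq v hv => by
          rw [add_mul]; exact Submodule.add_mem _ (hp v hv) (hq v hv)
        mul_mem' := fun {p q} hp hq v hv => by
          rw [mul_assoc]; exact hp _ (hq v hv)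
        algebraMap_mem' := fun c v hv => by
          rw [← Algebra.smul_def]; exact Submodule.smul_mem _ _ hv }
    have hSt : (⊤ : Subalgebra F (Quat u)) ≤ St := by
      rw [← hx]
      refine Algebra.adjoin_le ?_
      rintro _ ⟨b, rfl⟩
      exact fun v hv => he ▸ hleft l b v hv
    have hst : ∀ a : Quat u, ∀ v ∈ V l, a * v ∈ V l := fun a => hSt Algebra.mem_top
    refine eq_top_iff.2 fun a _ => ?_
    have := hst a _ (hmem (one_mem_words l))
    rwa [show (Expr.one).eval x = 1 from rfl, mul_one] at this
  have hgrow : ∀ l, min (l + 1) (4 ^ m) ≤ Module.finrank F (V l) := by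
    intro l
    induction l with
    | zero =>
        refine le_trans (min_le_left _ _) ?_
        rw [zero_add]
        refine Submodule.one_le_finrank_iff.2 fun hb => ?_
        have h1 := hmem (one_mem_words 0)
        rw [hb, Submodule.mem_bot] at h1
        exact one_ne_zero (α := Quat u) h1
    | succ l ih =>
        rcases (hmono l).lt_or_eq with hlt | heq
        · have := Submodule.finrank_lt_finrank_of_lt hlt
          omega
        · rw [← heq, htop l heq.symm, finrank_top, Quat.finrank_eq]
          exact min_le_right _ _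
  obtain ⟨κ, a, ha, hsp, hli⟩ := exists_linearIndependent' F (f l)
  have := Finite.of_injective a ha
  have := Fintype.ofFinite κ
  have hcard : l + 1 ≤ Fintype.card κ := by
    rw [← finrank_span_eq_card hli, hsp]
    exact (le_min le_rfl hl).trans (hgrow l)
  obtain ⟨ι'⟩ := Function.Embedding.nonempty_of_card_le (α := Fin (l + 1)) (β := κ) (by simpa using hcard)
  exact ⟨a ∘ ι', hli.comp _ ι'.injective⟩

/-- The traceless part of an expression. -/
def Expr.traceless (p : Expr) : Expr := .add p (.neg (.tr p))

theorem Expr.eval_traceless (x : Bool → Quat u) (p : Expr) :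
    (Expr.traceless p).eval x = p.eval x - algebraMap F (Quat u) (Quat.tau (p.eval x)) :=
  (sub_eq_add_neg _ _).symm

/-- All properties of a stage. -/
theorem exists_witness (f : ℕ → Expr) (n : ℕ) :
    ∃ (F : Type) (_ : Field F) (_ : CharZero F) (u : Fin (n + 5) → Bool → F)
      (x : Bool → Quat u),
      (∀ a b : Quat u, a * b = 0 → a = 0 ∨ b = 0) ∧
      Algebra.adjoin F (Set.range x) = ⊤ ∧
      ∀ i < n, (minpoly F ((f i).traceless.eval x)).natDegree ≤ 2 ^ (i + 3) := by
  obtain ⟨F, iF, iC, u, x, hdiv, hdeg, -, hgen, d, hd, hbig⟩ :=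
    exists_stage (n := n) (m := n + 5) (fun i : Fin n => f i) (by omega)
  refine ⟨F, iF, iC, u, x, hdiv, generates hdiv x hgen hd hbig (by omega), fun i hi => ?_⟩
  by_contra hlt
  apply det_gram_minpoly hdiv ((f i).traceless.eval x)
  rw [Expr.eval_traceless]
  rw [Expr.eval_traceless] at hlt
  exact hdeg ⟨i, hi⟩ _ (by simpa using hlt)

end Vale.Agent.P199
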